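import Vale.Agent.P134L.Defs

/-!
# Row K2: the maximum principle and the facts on the measure
-/

open MeasureTheory Set Filter Metric Topology
open scoped ContDiff InnerProductSpace NNReal

noncomputable section

namespace Vale.Agent.P134L

namespace K2a

variable {m : ℕ}

/-! ### calculus in the plane -/

theorem grad_apply (h : E m → ℝ) (y : E m) (a : Fin m) : gradient h y a = D a h y := by
  have : ⟪gradient h y, EuclideanSpace.single a 1⟫_ℝ = D a h y := by
    rw [gradient, InnerProductSpace.toDual_symm_apply]; rfl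
  rw [← this, EuclideanSpace.inner_single_right]
  simp

theorem norm_grad_sq (h : E m → ℝ) (y : E m) : ‖gradient h y‖ ^ 2 = ∑ c, D c h y ^ 2 := by
  rw [EuclideanSpace.real_norm_sq_eq]
  simp only [grad_apply]

theorem norm_grad (h : E m → ℝ) (y : E m) : ‖gradient h y‖ = ‖fderiv ℝ h y‖ := by
  rw [gradient, LinearIsometryEquiv.norm_map]

theorem D_sm {h : E m → ℝ} {y : E m} (hh : ContDiffAt ℝ ∞ h y) (a : Fin m) :
    ContDiffAt ℝ ∞ (D a h) y :=
  (hh.fderiv_right (m := ∞) (by simp)).clm_apply contDiffAt_const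

theorem dif {h : E m → ℝ} {y : E m} (hh : ContDiffAt ℝ ∞ h y) : DifferentiableAt ℝ h y :=
  hh.differentiableAt (by simp)

theorem D_cg {f g : E m → ℝ} {y : E m} (h : f =ᶠ[𝓝 y] g) (a : Fin m) : D a f y = D a g y := by
  rw [D, D, h.fderiv_eq]

theorem D_sym {h : E m → ℝ} {y : E m} (hh : ContDiffAt ℝ ∞ h y) (a b : Fin m) :
    D a (D b h) y = D b (D a h) y := by
  have hd : DifferentiableAt ℝ (fderiv ℝ h) y :=
    (hh.fderiv_right (m := ∞) (by simp)).differentiableAt (by simp)
  have k : ∀ a b : Fin m, D a (D b h) y =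
      fderiv ℝ (fderiv ℝ h) y (EuclideanSpace.single a 1) (EuclideanSpace.single b 1) := by
    intro a b
    have := fderiv_clm_apply (c := fderiv ℝ h) (u := fun _ => EuclideanSpace.single b (1 : ℝ))
      hd (differentiableAt_const _)
    show fderiv ℝ (fun z => fderiv ℝ h z (EuclideanSpace.single b 1)) y _ = _
    rw [this]
    simp
  rw [k, k]
  exact (hh.isSymmSndFDerivAt (by
    simp only [minSmoothness_of_isRCLikeNormedField]
    exact WithTop.coe_le_coe.2 (le_top (a := (2 : ℕ∞))))) _ _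

theorem line {f : E m → ℝ} {y : E m} (hf : DifferentiableAt ℝ f y) (a : Fin m) :
    HasDerivAt (fun t : ℝ => f (y + t • EuclideanSpace.single a 1)) (D a f y) 0 :=
  hf.hasFDerivAt.hasLineDerivAt _

theorem D_mul {f g : E m → ℝ} {y : E m} (hf : DifferentiableAt ℝ f y)
    (hg : DifferentiableAt ℝ g y) (a : Fin m) :
    D a (fun z => f z * g z) y = D a f y * g y + f y * D a g y := by
  have := (line (hf.fun_mul hg) a).unique ((line hf a).fun_mul (line hg a))
  simpa using this

/-- the second derivative test -/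
theorem DD_le {F : E m → ℝ} (hF : ∀ᶠ z in 𝓝 (0 : E m), ContDiffAt ℝ ∞ F z)
    (hm : IsLocalMax F 0) (a : Fin m) : D a (D a F) 0 ≤ 0 := by
  by_contra hc
  set e : E m := EuclideanSpace.single a 1 with he
  have hl : Tendsto (fun t : ℝ => t • e) (𝓝 0) (𝓝 0) :=
    (continuous_id.smul continuous_const).tendsto' 0 0 (by simp)
  have h1 : ∀ᶠ t in 𝓝 (0 : ℝ), HasDerivAt (fun t : ℝ => F (t • e)) (D a F (t • e)) t := by
    filter_upwards [hl.eventually hF] with t ht
    have := (dif ht).hasFDerivAt.comp_hasDerivAt t ((hasDerivAt_id t).smul_const e)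
    simpa using! this
  have h2 : deriv (fun t : ℝ => F (t • e)) =ᶠ[𝓝 0] fun t => D a F (t • e) :=
    h1.mono fun t ht => ht.deriv
  have h3 : deriv (deriv fun t : ℝ => F (t • e)) 0 = D a (D a F) 0 := by
    rw [h2.deriv_eq]
    have := line (dif (D_sm hF.self_of_nhds a)) a
    simp only [zero_add] at this
    exact this.deriv
  have h4 : IsLocalMax (fun t : ℝ => F (t • e)) 0 := by
    have := hl.eventually hm
    simpa [IsLocalMax, IsMaxFilter] using this
  have h5 := isLocalMin_of_deriv_deriv_pos (f := fun t : ℝ => F (t • e)) (x₀ := 0)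
    (by rw [h3]; exact not_le.1 hc) h4.deriv_eq_zero h1.self_of_nhds.continuousAt
  have h6 : (fun t : ℝ => F (t • e)) =ᶠ[𝓝 0] fun _ => F ((0 : ℝ) • e) :=
    (h4.and h5).mono fun t ht => le_antisymm ht.1 ht.2
  rw [h6.deriv.deriv_eq] at h3
  simp only [deriv_const', deriv_const] at h3
  exact hc h3.ge

/-- the area element -/
def W (h : E m → ℝ) (z : E m) : ℝ := √(1 + ∑ c, D c h z ^ 2)

/-- the divergence free field -/
def V (h : E m → ℝ) (l : Fin m → ℝ) (n : ℝ) (a : Fin m) (z : E m) : ℝ :=
  W h z * l a + D a h z / W h z * (n - ∑ b, D b h z * l b)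

theorem S_pos (h : E m → ℝ) (z : E m) : 0 < 1 + ∑ c, D c h z ^ 2 := by positivity

theorem W_pos (h : E m → ℝ) (z : E m) : 0 < W h z := Real.sqrt_pos.2 (S_pos h z)

theorem W_sq (h : E m → ℝ) (z : E m) : W h z ^ 2 = 1 + ∑ c, D c h z ^ 2 :=
  Real.sq_sqrt (S_pos h z).le

theorem W_sm {h : E m → ℝ} {y : E m} (hh : ContDiffAt ℝ ∞ h y) : ContDiffAt ℝ ∞ (W h) y :=
  (contDiffAt_const.add (ContDiffAt.sum fun c _ => (D_sm hh c).pow 2)).sqrt (S_pos h y).ne'

theorem V_sm {h : E m → ℝ} {y : E m} (hh : ContDiffAt ℝ ∞ h y) (l : Fin m → ℝ) (n : ℝ)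
    (a : Fin m) : ContDiffAt ℝ ∞ (V h l n a) y :=
  ((W_sm hh).mul contDiffAt_const).add (((D_sm hh a).div (W_sm hh) (W_pos h y).ne').mul
    (contDiffAt_const.sub (ContDiffAt.sum fun c _ => (D_sm hh c).mul contDiffAt_const)))

theorem D_W {h : E m → ℝ} {y : E m} (hh : ContDiffAt ℝ ∞ h y) (a : Fin m) :
    D a (W h) y = (∑ c, D c h y * D a (D c h) y) / W h y := by
  have h1 := HasDerivAt.fun_sum (u := Finset.univ) fun c _ => (line (dif (D_sm hh c)) a).fun_pow 2
  have h2 := (h1.const_add 1).sqrt (by simpa using (S_pos h y).ne')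
  have := (line (dif (W_sm hh)) a).unique h2
  rw [this]
  simp only [zero_smul, add_zero, W]
  rw [show (∑ c, ((2 : ℕ) : ℝ) * D c h y ^ (2 - 1) * D a (D c h) y) =
    2 * ∑ c, D c h y * D a (D c h) y by
      rw [Finset.mul_sum]; exact Finset.sum_congr rfl fun c _ => by norm_num; ring]
  exact mul_div_mul_left _ _ two_ne_zero

theorem D_V {h : E m → ℝ} {y : E m} (hh : ContDiffAt ℝ ∞ h y) (l : Fin m → ℝ) (n : ℝ)
    (a : Fin m) : D a (V h l n a) y = D a (W h) y * l a +
      ((D a (D a h) y * W h y - D a h y * D a (W h) y) / W h y ^ 2 * (n - ∑ b, D b h y * l b) +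
        D a h y / W h y * -∑ b, D a (D b h) y * l b) := by
  have h1 := line (dif (W_sm hh)) a
  have h2 := HasDerivAt.fun_sum (u := Finset.univ) fun c _ =>
    (line (dif (D_sm hh c)) a).mul_const (l c)
  have h3 := (h1.mul_const (l a)).fun_add ((((line (dif (D_sm hh a)) a).fun_div h1
    (by simpa using (W_pos h y).ne'))).fun_mul (h2.const_sub n))
  have := (line (dif (V_sm hh l n a)) a).unique h3
  simpa only [zero_smul, add_zero] using this

theorem div_V {h : E m → ℝ} {y : E m} (hh : ContDiffAt ℝ ∞ h y) (l : Fin m → ℝ) (n : ℝ)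
    (mse : ∑ a, ∑ b, ((if a = b then 1 else 0) - D a h y * D b h y / W h y ^ 2) *
      D a (D b h) y = 0) : ∑ a, D a (V h l n a) y = 0 := by
  have w0 := (W_pos h y).ne'
  simp only [D_V hh, D_W hh, Finset.sum_add_distrib]
  have e1 : ∑ a, (∑ c, D c h y * D a (D c h) y) / W h y * l a =
      ∑ a, D a h y / W h y * ∑ b, D a (D b h) y * l b := by
    simp only [Finset.sum_div, Finset.sum_mul, Finset.mul_sum]
    rw [Finset.sum_comm]
    refine Finset.sum_congr rfl fun a _ => Finset.sum_congr rfl fun b _ => ?_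
    rw [D_sym hh b a]
    ring
  have e2 : ∀ a, (D a (D a h) y * W h y - D a h y * ((∑ c, D c h y * D a (D c h) y) / W h y)) /
      W h y ^ 2 = (W h y)⁻¹ * ∑ b, ((if a = b then 1 else 0) - D a h y * D b h y / W h y ^ 2) *
        D a (D b h) y := by
    intro a
    simp only [sub_mul, Finset.sum_sub_distrib, ite_mul, one_mul, zero_mul, Finset.sum_ite_eq,
      Finset.mem_univ, if_true]
    rw [show ∑ b, D a h y * D b h y / W h y ^ 2 * D a (D b h) y =
      D a h y / W h y ^ 2 * ∑ c, D c h y * D a (D c h) y by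
        rw [Finset.mul_sum]; exact Finset.sum_congr rfl fun c _ => by ring]
    field_simp
  simp only [e2, mul_neg, Finset.sum_neg_distrib]
  rw [e1, ← Finset.sum_mul, ← Finset.mul_sum, mse]
  ring

theorem W_mul (h : E m → ℝ) (y : E m) (l : Fin m → ℝ) (n : ℝ) (a : Fin m) (c : ℝ) :
    W h y * ∑ b, ((if a = b then 1 else 0) - D a h y * D b h y / W h y ^ 2) * c *
      (l b + D b h y * n) = c * V h l n a y := by
  have w0 := (W_pos h y).ne'
  have w2 := W_sq h y
  rw [show ∑ b, ((if a = b then 1 else 0) - D a h y * D b h y / W h y ^ 2) * c *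
      (l b + D b h y * n) = c * (l a + D a h y * n) - c * (D a h y / W h y ^ 2) *
        (∑ b, D b h y * l b + n * ∑ b, D b h y ^ 2) by
    simp only [sub_mul, Finset.sum_sub_distrib, ite_mul, one_mul, zero_mul, Finset.sum_ite_eq,
      Finset.mem_univ, if_true, Finset.mul_sum, ← Finset.sum_add_distrib]
    congr 1
    exact Finset.sum_congr rfl fun b _ => by ring]
  rw [V, show ∑ b, D b h y ^ 2 = W h y ^ 2 - 1 by linarith]
  field_simp
  ring

theorem int_D {f : E m → ℝ} (hf : ContDiff ℝ 1 f) (hc : HasCompactSupport f) (a : Fin m) :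
    Integrable (D a f) ∧ ∫ x, D a f x = 0 := by
  have hi : Integrable fun x => fderiv ℝ f x (EuclideanSpace.single a 1) :=
    ((hf.continuous_fderiv one_ne_zero).clm_apply continuous_const).integrable_of_hasCompactSupport
      (hc.fderiv_apply ℝ _)
  have := integral_mul_fderiv_eq_neg_fderiv_mul_of_integrable (μ := volume) (f := fun _ => (1 : ℝ))
    (g := f) (v := EuclideanSpace.single a 1) (by simp) (by simpa using hi)
    (by simpa using hf.continuous.integrable_of_hasCompactSupport hc) (by simp)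
    (fun x _ => hf.differentiable one_ne_zero x)
  exact ⟨hi, by simpa using! this⟩

/-! ### the discs -/

variable {M : Type} [MetricSpace M] [MeasurableSpace M] {L : Leaf m M}

theorem b14 : ball (0 : E m) 1 ⊆ ball 0 4 := ball_subset_ball (by norm_num)

theorem z1 : (0 : E m) ∈ ball (0 : E m) 1 := mem_ball_self one_pos

theorem grad0 (ok : L.Ok) (p : M) : gradient (L.h p) 0 = 0 := by
  have h := congrArg (fun w => ⟪w, L.L p (gradient (L.h p) 0)⟫_ℝ) (ok.Nφ p 0 (b14 z1))
  simp only [ok.φ0, inner_smul_left, inner_sub_left, ok.NL, mul_zero, zero_sub,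
    LinearIsometry.inner_map_map] at h
  exact inner_self_eq_zero.1 (neg_eq_zero.1 h.symm)

theorem hsm (ok : L.Ok) (p : M) {y : E m} (hy : y ∈ ball (0 : E m) 4) :
    ContDiffAt ℝ ∞ (L.h p) y := (ok.hs p).contDiffAt (isOpen_ball.mem_nhds hy)

omit [MetricSpace M] in
theorem gi_eq (p : M) (y : E m) (a b : Fin m) : L.gi p y a b =
    (if a = b then 1 else 0) - D a (L.h p) y * D b (L.h p) y / W (L.h p) y ^ 2 := by
  rw [Leaf.gi, grad_apply, grad_apply, norm_grad_sq, W_sq]

theorem D_x (ok : L.Ok) (p : M) {y : E m} (hy : y ∈ ball (0 : E m) 4) (i : Fin (m + 1))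
    (b : Fin m) : D b (fun z => L.x (L.φ p z) i) y =
      L.L p (EuclideanSpace.single b 1) i + D b (L.h p) y * L.N p i := by
  have e : (fun z => L.x (L.φ p z) i) =ᶠ[𝓝 y]
      fun z => L.x p i + (L.L p z i + L.h p z * L.N p i) := by
    filter_upwards [isOpen_ball.mem_nhds hy] with z hz
    simp [ok.xφ p z hz, add_assoc]
  have h1 : HasFDerivAt (fun z => L.L p z i)
      ((EuclideanSpace.proj i : E (m + 1) →L[ℝ] ℝ).comp (L.L p).toContinuousLinearMap) y :=
    ((EuclideanSpace.proj i : E (m + 1) →L[ℝ] ℝ).comp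
      (L.L p).toContinuousLinearMap).hasFDerivAt
  have h2 := (h1.fun_add ((dif (hsm ok p hy)).hasFDerivAt.mul_const (L.N p i))).const_add (L.x p i)
  rw [D_cg e, D, h2.fderiv]
  simp [D, mul_comm]

theorem lap_x {G : Geo m M} (c : Core G) (r : Rule G) (q : M) (j : Fin (m + 1)) :
    G.Lap (fun q => G.x q j) q = 0 := by
  have e : ∀ i, G.δ i (G.δ i fun q => G.x q j) q =
      -(G.A i i q * G.N q j) - G.N q i * G.δ i (fun q => G.N q j) q := by
    intro i
    rw [show (G.δ i fun q => G.x q j) =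
      fun q => (if i = j then 1 else 0) - G.N q i * G.N q j from funext fun q => r.δx q i j,
      r.δsub (r.smc _ q) (r.mul (c.smN q i) (c.smN q j)), r.δc, r.δmul (c.smN q i) (c.smN q j)]
    simp only [Geo.A]
    ring
  simp only [Geo.Lap, e, Finset.sum_sub_distrib, Finset.sum_neg_distrib]
  rw [← Finset.sum_mul, c.tr, r.tan (c.smN q j)]
  simp

theorem mse (ok : L.Ok) (c : Core L.geo) (r : Rule L.geo) (ch : Chart L) (p : M) {y : E m}
    (hy : y ∈ ball (0 : E m) 1) : ∑ a, ∑ b, L.gi p y a b * D a (D b (L.h p)) y = 0 := by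
  have e : ∀ j, (∑ a, ∑ b, L.gi p y a b * D a (D b (L.h p)) y) * L.N p j = 0 := by
    intro j
    have h := ch.lap p (fun q => L.geo.x q j) y hy (r.smx _ j)
    rw [lap_x c r] at h
    rw [h, Finset.sum_mul]
    refine Finset.sum_congr rfl fun a _ => ?_
    rw [Finset.sum_mul]
    refine Finset.sum_congr rfl fun b _ => ?_
    have e : D b (fun z => L.geo.x (L.φ p z) j) =ᶠ[𝓝 y]
        fun z => L.L p (EuclideanSpace.single b 1) j + D b (L.h p) z * L.N p j := by
      filter_upwards [isOpen_ball.mem_nhds (b14 hy)] with z hz using D_x ok p hz j b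
    have h2 := ((dif (D_sm (hsm ok p (b14 hy)) b)).hasFDerivAt.mul_const (L.N p j)).const_add
      (L.L p (EuclideanSpace.single b 1) j)
    rw [D_cg e, D, D, h2.fderiv]
    simp only [smul_apply, smul_eq_mul]
    ring
  have h1 : ∑ j, L.N p j ^ 2 = 1 := c.N1 p
  rw [← mul_one (∑ a, _), ← h1, Finset.mul_sum]
  exact Finset.sum_eq_zero fun j _ => by rw [sq, ← mul_assoc, e, zero_mul]

theorem cφ (ok : L.Ok) (p : M) : ContinuousOn (L.φ p) (ball 0 4) :=
  (LipschitzOnWith.of_dist_le_mul (K := 2) fun y hy z hz => by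
    simpa [dist_eq_norm] using ok.dφ p y hy z hz).continuousOn

theorem img_open (ch : Chart L) (p : M) : IsOpen (L.φ p '' ball 0 1) :=
  isOpen_iff_mem_nhds.2 (by
    rintro _ ⟨y, hy, rfl⟩
    rw [← ch.opn p y hy]
    exact image_mem_map (isOpen_ball.mem_nhds hy))

theorem chg [BorelSpace M] [SecondCountableTopology M] (ok : L.Ok) (p : M) {g : M → ℝ}
    (hg : Continuous g) : ∫ q in L.φ p '' ball 0 1, g q ∂L.μ =
      ∫ y in ball (0 : E m) 1, W (L.h p) y * g (L.φ p y) := by
  classical
  have mb : MeasurableSet (ball (0 : E m) 1) := measurableSet_ball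
  have hφ : Measurable ((ball (0 : E m) 1).piecewise (L.φ p) fun _ => p) :=
    ((cφ ok p).mono b14).measurable_piecewise continuousOn_const mb
  have hd : Measurable fun y => ENNReal.ofReal √(1 + ‖gradient (L.h p) y‖ ^ 2) := by
    simp only [norm_grad]
    have := (measurable_fderiv ℝ (L.h p)).norm
    fun_prop
  have e : L.μ.restrict (L.φ p '' ball 0 1) = ((volume.restrict (ball (0 : E m) 1)).withDensity
      fun y => ENNReal.ofReal √(1 + ‖gradient (L.h p) y‖ ^ 2)).map
        ((ball (0 : E m) 1).piecewise (L.φ p) fun _ => p) := by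
    ext A hA
    rw [Measure.restrict_apply hA, Measure.map_apply hφ hA, withDensity_apply _ (hφ hA),
      Measure.restrict_restrict (hφ hA), ← ok.vol p _ ((hφ hA).inter mb) inter_subset_right]
    congr 1
    ext q
    constructor
    · rintro ⟨h1, y, hy, rfl⟩
      exact ⟨y, ⟨by rwa [mem_preimage, piecewise_eq_of_mem _ _ _ hy], hy⟩, rfl⟩
    · rintro ⟨y, ⟨h1, hy⟩, rfl⟩
      rw [mem_preimage, piecewise_eq_of_mem _ _ _ hy] at h1
      exact ⟨h1, y, hy, rfl⟩
  rw [e, integral_map hφ.aemeasurable hg.aestronglyMeasurable,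
    integral_withDensity_eq_integral_toReal_smul hd
      (Eventually.of_forall fun _ => ENNReal.ofReal_lt_top)]
  refine setIntegral_congr_fun mb fun y hy => ?_
  simp only [piecewise_eq_of_mem _ _ _ hy, ENNReal.toReal_ofReal (Real.sqrt_nonneg _), smul_eq_mul,
    norm_grad_sq, W]

theorem δ_zero {G : Geo m M} (c : Core G) (r : Rule G) {f : M → ℝ} {q : M} (hq : q ∉ tsupport f)
    (i : Fin (m + 1)) : G.δ i f q = 0 :=
  (c.cgr (notMem_tsupport_iff_eventuallyEq.1 hq) i).trans (r.δc 0 q i)

theorem δ_cont {G : Geo m M} (r : Rule G) {f : M → ℝ} (hf : ∀ q, G.Sm f q) (i : Fin (m + 1)) :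
    Continuous (G.δ i f) := continuous_iff_continuousAt.2 fun q => r.cont (r.smδ (hf q) i)

/-- the divergence theorem in one disc -/
theorem ibp_loc [BorelSpace M] [SecondCountableTopology M] (ok : L.Ok) (c : Core L.geo)
    (r : Rule L.geo) (ch : Chart L) (p : M) {f : M → ℝ} (hf : ∀ q, L.geo.Sm f q)
    (hs : ∀ q, 1 / 2 ≤ dist q p → f q = 0) (i : Fin (m + 1)) :
    ∫ q, L.geo.δ i f q ∂L.geo.μ = 0 := by
  have mb : MeasurableSet (ball (0 : E m) 1) := measurableSet_ball
  have ts : tsupport f ⊆ closedBall p (1 / 2) :=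
    closure_minimal (fun q hq => by_contra fun h => hq (hs q (not_le.1 h).le)) isClosed_closedBall
  have sub : closedBall p (1 / 2) ⊆ L.φ p '' ball 0 1 := fun q hq => by
    rw [mem_closedBall] at hq
    obtain ⟨y, hy, rfl⟩ := ok.onto p q (by linarith)
    have := ch.inj p y hy 0 (b14 z1)
    rw [ok.φ0, sub_zero] at this
    exact ⟨y, mem_ball_zero_iff.2 (by linarith), rfl⟩
  set l : Fin m → ℝ := fun b => L.L p (EuclideanSpace.single b 1) i with hl
  set Y : Fin m → E m → ℝ := fun a =>
    (ball (0 : E m) 1).indicator fun y => f (L.φ p y) * V (L.h p) l (L.N p i) a y with hY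
  have e1 : ∀ a, ∀ y ∈ ball (0 : E m) 1,
      Y a =ᶠ[𝓝 y] fun y => f (L.φ p y) * V (L.h p) l (L.N p i) a y := fun a y hy => by
    filter_upwards [isOpen_ball.mem_nhds hy] with z hz using indicator_of_mem hz _
  have e0 : ∀ a, ∀ y ∉ closedBall (0 : E m) (1 / 2), Y a y = 0 := fun a y hy => by
    by_cases h : y ∈ ball (0 : E m) 1
    · have := ch.inj p y (b14 h) 0 (b14 z1)
      rw [ok.φ0, sub_zero] at this
      rw [mem_closedBall_zero_iff, not_le] at hy
      exact (e1 a y h).self_of_nhds.trans (mul_eq_zero_of_left (hs _ (hy.le.trans this)) _)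
    · exact indicator_of_notMem h _
  have e2 : ∀ a, ∀ y ∉ ball (0 : E m) 1, Y a =ᶠ[𝓝 y] fun _ => 0 := fun a y hy => by
    have : y ∈ (closedBall (0 : E m) (1 / 2))ᶜ := fun h =>
      hy (closedBall_subset_ball (by norm_num) h)
    filter_upwards [isClosed_closedBall.isOpen_compl.mem_nhds this] with z hz using e0 a z hz
  have sF : ∀ y ∈ ball (0 : E m) 1, ContDiffAt ℝ ∞ (fun z => f (L.φ p z)) y := fun y hy =>
    ((ch.sm p f y hy).1 (hf _)).self_of_nhds
  have sY : ∀ a, ContDiff ℝ 1 (Y a) := fun a => contDiff_iff_contDiffAt.2 fun y => by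
    by_cases h : y ∈ ball (0 : E m) 1
    · exact (((sF y h).mul (V_sm (hsm ok p (b14 h)) l _ a)).of_le (by simp)).congr_of_eventuallyEq
        (e1 a y h)
    · exact contDiffAt_const.congr_of_eventuallyEq (e2 a y h)
  have iY := fun a => int_D (sY a)
    (HasCompactSupport.intro (isCompact_closedBall 0 (1 / 2)) (e0 a)) a
  rw [← setIntegral_eq_integral_of_forall_compl_eq_zero (s := L.φ p '' ball 0 1)
    fun q hq => δ_zero c r (fun h => hq (sub (ts h))) i]
  refine (chg ok p (δ_cont r hf i)).trans ?_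
  rw [setIntegral_congr_fun (g := fun y => ∑ a, D a (Y a) y) mb fun y hy => ?_,
    setIntegral_eq_integral_of_forall_compl_eq_zero fun y hy => Finset.sum_eq_zero fun a _ => by
      rw [D_cg (e2 a y hy)]; simp [D],
    integral_finsetSum _ fun a _ => (iY a).1]
  · exact Finset.sum_eq_zero fun a _ => (iY a).2
  · have hh := hsm ok p (b14 hy)
    have k := mse ok c r ch p hy
    simp only [gi_eq] at k
    have e3 : ∀ a, D a (Y a) y = D a (fun z => f (L.φ p z)) y * V (L.h p) l (L.N p i) a y +
        f (L.φ p y) * D a (V (L.h p) l (L.N p i) a) y := fun a =>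
      (D_cg (e1 a y hy) a).trans (D_mul (dif (sF y hy)) (dif (V_sm hh l _ a)) a)
    simp only [e3, Finset.sum_add_distrib]
    rw [← Finset.mul_sum, div_V hh l _ k, mul_zero, add_zero, ch.del p f y hy (hf _),
      Finset.mul_sum]
    refine Finset.sum_congr rfl fun a _ => ?_
    simp only [gi_eq, D_x ok p (b14 hy)]
    exact W_mul _ y l _ a _

end K2a

open K2a in
theorem k2 : K2 := by
  intro m M _ _ _ _ L _ ok c r r2 ch
  have fin : IsFiniteMeasureOnCompacts L.geo.μ := by
    have : IsLocallyFiniteMeasure L.geo.μ := ⟨fun p => ⟨L.φ p '' ball 0 1,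
      (img_open ch p).mem_nhds ⟨0, z1, ok.φ0 p⟩, by
        refine (ok.vol p _ measurableSet_ball subset_rfl).trans_lt ?_
        refine (setLIntegral_mono' measurableSet_ball (g := fun _ => ENNReal.ofReal √(1 + 1 ^ 2))
          fun y hy => ?_).trans_lt ?_
        · have := ok.h1 p y (b14 hy)
          rw [← norm_grad] at this
          gcongr
        · rw [setLIntegral_const]
          exact ENNReal.mul_lt_top ENNReal.ofReal_lt_top measure_ball_lt_top⟩⟩
    infer_instance
  refine ⟨fun {f p} hf hm => ?_, fin, ?_, fun f hf hc i => ?_⟩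
  · have hf' : L.geo.Sm f (L.φ p 0) := by rwa [ok.φ0]
    have hF : IsLocalMax (fun z => f (L.φ p z)) 0 := by
      have : ∀ᶠ q in map (L.φ p) (𝓝 0), f q ≤ f (L.φ p 0) := by
        rw [ch.opn p 0 z1, ok.φ0]; exact hm
      exact this
    refine ⟨fun i => ?_, ?_⟩
    · simp [Leaf.geo, gradient, hF.fderiv_eq_zero]
    · have h := ch.lap p f 0 z1 hf'
      rw [ok.φ0] at h
      rw [h]
      refine Finset.sum_nonpos fun a _ => ?_
      simp only [Leaf.gi, grad0 ok, PiLp.zero_apply, mul_zero, zero_div, sub_zero, ite_mul, one_mul,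
        zero_mul, Finset.sum_ite_eq, Finset.mem_univ, if_true]
      exact DD_le ((ch.sm p f 0 z1).1 hf') hF a
  · have h0 : 0 < (volume : Measure (E m)).real (ball 0 1) :=
      ENNReal.toReal_pos (measure_ball_pos _ _ one_pos).ne' measure_ball_lt_top.ne
    refine ⟨(volume : Measure (E m)).real (ball 0 1) / 2 ^ m, by positivity, fun p ρ h1 h2 => ?_⟩
    have s1 : ball (0 : E m) (ρ / 2) ⊆ ball 0 1 := ball_subset_ball (by linarith)
    calc _ = volume (ball (0 : E m) (ρ / 2)) := by
          rw [Measure.addHaar_ball_of_pos _ _ (half_pos h1), finrank_euclideanSpace_fin,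
            ← ofReal_measureReal measure_ball_lt_top.ne, ← ENNReal.ofReal_mul (by positivity)]
          congr 1
          rw [div_pow]
          ring
      _ ≤ L.μ (L.φ p '' ball 0 (ρ / 2)) := by
          rw [ok.vol p _ measurableSet_ball s1, ← setLIntegral_one]
          exact lintegral_mono fun y => ENNReal.one_le_ofReal.2 (Real.one_le_sqrt.2 (by
            nlinarith [sq_nonneg ‖gradient (L.h p) y‖]))
      _ ≤ _ := measure_mono (by
          rintro _ ⟨y, hy, rfl⟩
          have := ok.dφ p y (b14 (s1 hy)) 0 (b14 z1)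
          rw [ok.φ0, sub_zero] at this
          rw [mem_ball_zero_iff] at hy
          rw [mem_ball]
          linarith)
  · obtain ⟨t, ht⟩ := hc.isCompact.elim_finite_subcover (fun p : M => ball p (1 / 8))
      (fun _ => isOpen_ball) fun q _ => mem_iUnion.2 ⟨q, mem_ball_self (by norm_num)⟩
    classical
    induction t using Finset.induction_on generalizing f with
    | empty =>
      have e : ∀ q, L.geo.δ i f q = 0 := fun q => δ_zero c r (fun h => by simpa using ht h) i
      simp only [e, integral_zero]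
    | insert p t _ ih =>
      obtain ⟨χ, s, -, h1, h0⟩ := r2.bump p (1 / 2) (by norm_num) (by norm_num)
      have s1 : ∀ q, L.geo.Sm (fun q => f q * χ q) q := fun q => r.mul (hf q) (s q)
      have s2 : ∀ q, L.geo.Sm (fun q => f q * (1 - χ q)) q := fun q =>
        r.mul (hf q) (r.sub (r.smc 1 q) (s q))
      have i0 : ∀ g : M → ℝ, (∀ q, L.geo.Sm g q) → HasCompactSupport g →
          Integrable (L.geo.δ i g) L.geo.μ := fun g a b =>
        (δ_cont r a i).integrable_of_hasCompactSupport
          (HasCompactSupport.intro b fun q hq => δ_zero c r hq i)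
      have e : ∀ q, L.geo.δ i f q = L.geo.δ i (fun q => f q * χ q) q +
          L.geo.δ i (fun q => f q * (1 - χ q)) q := fun q => by
        rw [← r.δadd (s1 q) (s2 q)]
        congr 1
        funext q
        ring
      simp only [e]
      rw [integral_add (i0 _ s1 hc.mul_right) (i0 _ s2 hc.mul_right),
        ibp_loc ok c r ch p s1 (fun q hq => by rw [h0 q hq, mul_zero]) i, zero_add]
      refine ih _ s2 hc.mul_right fun q hq => ?_
      have q1 := ht (tsupport_mul_subset_left hq)
      have q3 : Function.support (fun q => f q * (1 - χ q)) ⊆ (ball p (1 / 8))ᶜ := fun z hz h =>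
        hz (by
          rw [mem_ball] at h
          simp only [h1 z (by linarith), sub_self, mul_zero])
      have q2 : q ∈ (ball p (1 / 8))ᶜ := closure_minimal q3 isOpen_ball.isClosed_compl hq
      rw [Finset.set_biUnion_insert] at q1
      exact q1.resolve_left q2

end Vale.Agent.P134L
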