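import Vale.Agent.P134L.Defs

/-!
# The rules of first order
-/

open MeasureTheory Set Filter Metric Topology
open scoped ContDiff

noncomputable section

namespace Vale.Agent.P134L

namespace K3p

variable {m : ℕ} {M : Type} [MetricSpace M] [MeasurableSpace M] {G : Geo m M}
  {f g : M → ℝ} {p : M} {u : E (m + 1) → ℝ} {z : E (m + 1)}

theorem expand (T : E (m + 1) →L[ℝ] ℝ) (v : E (m + 1)) :
    T v = ∑ l, v l * T (EuclideanSpace.single l 1) := by
  conv_lhs => rw [← (EuclideanSpace.basisFun (Fin (m + 1)) ℝ).sum_repr v]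
  simp

theorem sm_D (h : ContDiffAt ℝ ∞ u z) (l : Fin (m + 1)) : ContDiffAt ℝ ∞ (D l u) z :=
  (h.fderiv_right (m := ∞) le_rfl).clm_apply contDiffAt_const

theorem D_symm (h : ContDiffAt ℝ ∞ u z) (k l : Fin (m + 1)) : D k (D l u) z = D l (D k u) z := by
  have d : DifferentiableAt ℝ (fderiv ℝ u) z :=
    (h.fderiv_right (m := 1) (by decide)).differentiableAt one_ne_zero
  have e : ∀ k l, D k (D l u) z = fderiv ℝ (fderiv ℝ u) z (EuclideanSpace.single k 1)
      (EuclideanSpace.single l 1) := fun k l => by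
    unfold D
    rw [fderiv_clm_apply d (differentiableAt_const _)]
    simp
  rw [e, e]
  exact (h.isSymmSndFDerivAt (by simp; decide)).eq _ _

theorem scg (h : G.Sm f p) (e : f =ᶠ[𝓝 p] g) : G.Sm g p :=
  h.imp fun _ a => ⟨a.1, e.symm.trans a.2⟩

theorem smc (c : ℝ) (p : M) : G.Sm (fun _ => c) p :=
  ⟨fun _ => c, .of_forall fun _ => contDiffAt_const, .rfl⟩

theorem add (h : G.Sm f p) (h' : G.Sm g p) : G.Sm (fun q => f q + g q) p :=
  let ⟨_, a, b⟩ := h
  let ⟨_, a', b'⟩ := h'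
  ⟨_, (a.and a').mono fun _ e => e.1.add e.2, b.add b'⟩

theorem sub (h : G.Sm f p) (h' : G.Sm g p) : G.Sm (fun q => f q - g q) p :=
  let ⟨_, a, b⟩ := h
  let ⟨_, a', b'⟩ := h'
  ⟨_, (a.and a').mono fun _ e => e.1.sub e.2, b.sub b'⟩

theorem mul (h : G.Sm f p) (h' : G.Sm g p) : G.Sm (fun q => f q * g q) p :=
  let ⟨_, a, b⟩ := h
  let ⟨_, a', b'⟩ := h'
  ⟨_, (a.and a').mono fun _ e => e.1.mul e.2, b.mul b'⟩

theorem sum {ι : Type} {s : Finset ι} {f : ι → M → ℝ} (h : ∀ k ∈ s, G.Sm (f k) p) :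
    G.Sm (fun q => ∑ k ∈ s, f k q) p := by
  classical
  induction s using Finset.induction_on with
  | empty => simpa using smc 0 p
  | insert a s ha ih =>
    simp only [Finset.sum_insert ha]
    exact add (h a (by simp)) (ih fun k hk => h k (by simp [hk]))

theorem comp {F : ℝ → ℝ} (hF : ∀ᶠ t in 𝓝 (f p), ContDiffAt ℝ ∞ F t) (h : G.Sm f p) :
    G.Sm (fun q => F (f q)) p := by
  obtain ⟨u, a, b⟩ := h
  rw [b.self_of_nhds] at hF
  exact ⟨fun z => F (u z), (a.and (a.self_of_nhds.continuousAt.eventually hF)).mono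
    fun _ e => e.2.comp _ e.1, b.fun_comp F⟩

variable (c : Core G)
include c

theorem cx : Continuous G.x :=
  (LipschitzWith.of_dist_le_mul (K := 1) fun q p => by
    simpa [dist_eq_norm] using c.lip p q).continuous

theorem ev (h : G.Sm f p) : ∀ᶠ q in 𝓝 p, G.Sm f q :=
  let ⟨u, a, b⟩ := h
  (((cx c).tendsto p).eventually a.eventually_nhds).mp
    (b.eventually_nhds.mono fun _ e e' => ⟨u, e', e⟩)

theorem del {T : E (m + 1) →L[ℝ] ℝ} (a : HasFDerivAt u T (G.x p))
    (b : f =ᶠ[𝓝 p] fun q => u (G.x q)) (i : Fin (m + 1)) :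
    G.δ i f p = T (EuclideanSpace.single i 1 - G.N p i • G.N p) := by
  rw [c.cgr b, c.amb a.differentiableAt, a.fderiv]

omit c in
theorem ex (h : G.Sm f p) : ∃ (u : E (m + 1) → ℝ) (T : E (m + 1) →L[ℝ] ℝ),
    HasFDerivAt u T (G.x p) ∧ f =ᶠ[𝓝 p] fun q => u (G.x q) :=
  let ⟨u, a, b⟩ := h
  ⟨u, _, (a.self_of_nhds.differentiableAt (by simp)).hasFDerivAt, b⟩

theorem δc (a : ℝ) (p : M) (i : Fin (m + 1)) : G.δ i (fun _ => a) p = 0 :=
  del c (hasFDerivAt_const a _) .rfl i

theorem δadd (h : G.Sm f p) (h' : G.Sm g p) (i : Fin (m + 1)) :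
    G.δ i (fun q => f q + g q) p = G.δ i f p + G.δ i g p := by
  obtain ⟨u, T, a, b⟩ := ex h
  obtain ⟨u', T', a', b'⟩ := ex h'
  rw [del c a b, del c a' b']
  exact del c (a.add a') (b.add b') i

theorem δsub (h : G.Sm f p) (h' : G.Sm g p) (i : Fin (m + 1)) :
    G.δ i (fun q => f q - g q) p = G.δ i f p - G.δ i g p := by
  obtain ⟨u, T, a, b⟩ := ex h
  obtain ⟨u', T', a', b'⟩ := ex h'
  rw [del c a b, del c a' b']
  exact del c (a.sub a') (b.sub b') i

theorem δmul (h : G.Sm f p) (h' : G.Sm g p) (i : Fin (m + 1)) :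
    G.δ i (fun q => f q * g q) p = G.δ i f p * g p + f p * G.δ i g p := by
  obtain ⟨u, T, a, b⟩ := ex h
  obtain ⟨u', T', a', b'⟩ := ex h'
  refine (del c (a.mul a') (b.mul b') i).trans ?_
  rw [del c a b, del c a' b', b.self_of_nhds, b'.self_of_nhds]
  simp only [add_apply, smul_apply, smul_eq_mul]
  ring

theorem δsum {ι : Type} {s : Finset ι} {f : ι → M → ℝ} (h : ∀ k ∈ s, G.Sm (f k) p)
    (i : Fin (m + 1)) : G.δ i (fun q => ∑ k ∈ s, f k q) p = ∑ k ∈ s, G.δ i (f k) p := by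
  classical
  induction s using Finset.induction_on with
  | empty => simpa using δc c 0 p i
  | insert a s ha ih =>
    have h' := fun k hk => h k (Finset.mem_insert_of_mem hk)
    simp only [Finset.sum_insert ha]
    rw [δadd c (h a (by simp)) (sum h'), ih h']

theorem δcomp {F : ℝ → ℝ} {F' : ℝ} (hF : HasDerivAt F F' (f p)) (h : G.Sm f p) (i : Fin (m + 1)) :
    G.δ i (fun q => F (f q)) p = F' * G.δ i f p := by
  obtain ⟨u, T, a, b⟩ := ex h
  rw [b.self_of_nhds] at hF
  rw [del c a b]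
  exact del c (hF.comp_hasFDerivAt _ a) (b.fun_comp F) i

theorem del' (a : ContDiffAt ℝ ∞ u (G.x p)) (b : f =ᶠ[𝓝 p] fun q => u (G.x q)) (i : Fin (m + 1)) :
    G.δ i f p = D i u (G.x p) - G.N p i * ∑ l, G.N p l * D l u (G.x p) := by
  rw [del c (a.differentiableAt (by simp)).hasFDerivAt b, map_sub, map_smul, expand _ (G.N p)]
  rfl

theorem del_ev (a : ∀ᶠ z in 𝓝 (G.x p), ContDiffAt ℝ ∞ u z) (b : f =ᶠ[𝓝 p] fun q => u (G.x q))
    (i : Fin (m + 1)) : G.δ i f =ᶠ[𝓝 p]
      fun q => D i u (G.x q) - G.N q i * ∑ l, G.N q l * D l u (G.x q) :=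
  (((cx c).tendsto p).eventually a).mp (b.eventually_nhds.mono fun _ e e' => del' c e' e i)

omit c in
theorem smD (a : ∀ᶠ z in 𝓝 (G.x p), ContDiffAt ℝ ∞ u z) (l : Fin (m + 1)) :
    G.Sm (fun q => D l u (G.x q)) p := ⟨D l u, a.mono fun _ e => sm_D e l, .rfl⟩

theorem AN (i : Fin (m + 1)) (p : M) : ∑ j, G.A i j p * G.N p j = 0 := by
  have e := δsum c (s := Finset.univ) (fun j _ => mul (c.smN p j) (c.smN p j)) i
  simp only [← sq, c.N1, δc c] at e
  simp only [sq, δmul c (c.smN p _) (c.smN p _), Finset.sum_add_distrib, mul_comm (G.N p _)] at e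
  exact add_self_eq_zero.1 e.symm

theorem comm (h : G.Sm f p) (i j : Fin (m + 1)) : G.δ i (G.δ j f) p - G.δ j (G.δ i f) p =
    ∑ k, (G.N p i * G.A j k p - G.N p j * G.A i k p) * G.δ k f p := by
  obtain ⟨u, a, b⟩ := h
  have s := fun l => mul (c.smN p l) (smD a l)
  have e : ∀ i j, G.δ i (G.δ j f) p = D i (D j u) (G.x p) -
      G.N p i * ∑ l, G.N p l * D l (D j u) (G.x p) -
      (G.A i j p * ∑ l, G.N p l * D l u (G.x p) + G.N p j * (∑ l, G.A i l p * D l u (G.x p) +
        (∑ l, G.N p l * D l (D i u) (G.x p) -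
          G.N p i * ∑ l, G.N p l * ∑ k, G.N p k * D k (D l u) (G.x p)))) := fun i j => by
    rw [c.cgr (del_ev c a b j), δsub c (smD a j) (mul (c.smN p j) (sum fun l _ => s l)),
      δmul c (c.smN p j) (sum fun l _ => s l), δsum c fun l _ => s l]
    simp only [δmul c (c.smN p _) (smD a _), del' c (sm_D a.self_of_nhds _) .rfl,
      Finset.sum_add_distrib, mul_sub, Finset.sum_sub_distrib, D_symm a.self_of_nhds i,
      mul_left_comm _ (G.N p i), ← Finset.mul_sum]
    rfl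
  have t : ∀ i, ∑ k, G.A i k p * G.δ k f p = ∑ k, G.A i k p * D k u (G.x p) := fun i => by
    simp only [del' c a.self_of_nhds b, mul_sub, Finset.sum_sub_distrib, ← mul_assoc,
      ← Finset.sum_mul, AN c, zero_mul, sub_zero]
  simp only [sub_mul, Finset.sum_sub_distrib, mul_assoc, ← Finset.mul_sum, t]
  rw [e, e, D_symm a.self_of_nhds i j, c.sy i j]
  ring

end K3p

open K3p in
theorem k3 : K3 := fun m M _ _ _ _ G _ c =>
  { ev := ev c
    scg := scg
    cont := fun ⟨_, a, b⟩ => (a.self_of_nhds.continuousAt.comp (cx c).continuousAt).congr b.symm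
    smc := smc
    smx := fun _ i => ⟨fun z => z i, .of_forall fun _ => by fun_prop, .rfl⟩
    smδ := fun ⟨_, a, b⟩ i => scg (sub (smD a i) (mul (c.smN _ i)
      (sum fun l _ => mul (c.smN _ l) (smD a l)))) (del_ev c a b i).symm
    add := add
    sub := sub
    mul := mul
    sum := sum
    comp := comp
    δc := δc c
    δx := fun p i j => by
      refine (del c (EuclideanSpace.proj (𝕜 := ℝ) j).hasFDerivAt .rfl i).trans ?_
      simp [eq_comm]
    δadd := δadd c
    δsub := δsub c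
    δmul := δmul c
    δsum := δsum c
    δcomp := δcomp c
    tan := fun {f p} ⟨_, a, b⟩ => by
      simp only [del' c a.self_of_nhds b, mul_sub, Finset.sum_sub_distrib, ← mul_assoc,
        ← Finset.sum_mul, ← sq, c.N1, one_mul, sub_self]
    AN := AN c
    comm := comm c }

end Vale.Agent.P134L
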