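import Vale.Agent.P134L.Defs

/-!
# The rules of second order
-/

open MeasureTheory Set Filter Metric Topology
open scoped ContDiff InnerProductSpace NNReal

noncomputable section

namespace Vale.Agent.P134L

namespace K4a

variable {m : ℕ} {M : Type} [MetricSpace M] [MeasurableSpace M] {G : Geo m M}
  {f g : M → ℝ} {p : M}

theorem lap_eq (c : Core G) {X : Fin (m + 1) → M → ℝ} (h : ∀ i, G.δ i f =ᶠ[𝓝 p] X i) :
    G.Lap f p = ∑ i, G.δ i (X i) p :=
  Finset.sum_congr rfl fun i _ => c.cgr (h i) i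

theorem lc (r : Rule G) (a : ℝ) (p : M) : G.Lap (fun _ => a) p = 0 :=
  Finset.sum_eq_zero fun i _ => by
    rw [show G.δ i (fun _ => a) = fun _ => 0 from funext fun q => r.δc a q i, r.δc]

theorem lmul (c : Core G) (r : Rule G) (hf : G.Sm f p) (hg : G.Sm g p) :
    G.Lap (fun q => f q * g q) p = f p * G.Lap g p + 2 * G.Gam f g p + g p * G.Lap f p := by
  rw [lap_eq c (X := fun i q => G.δ i f q * g q + f q * G.δ i g q) fun i =>
    ((r.ev hf).and (r.ev hg)).mono fun q hq => r.δmul hq.1 hq.2 i]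
  simp only [Geo.Lap, Geo.Gam, Finset.mul_sum, ← Finset.sum_add_distrib]
  refine Finset.sum_congr rfl fun i _ => ?_
  rw [r.δadd (r.mul (r.smδ hf i) hg) (r.mul hf (r.smδ hg i)), r.δmul (r.smδ hf i) hg,
    r.δmul hf (r.smδ hg i)]
  ring

theorem lcomp (c : Core G) (r : Rule G) {F F' : ℝ → ℝ} {F'' : ℝ}
    (h1 : ∀ᶠ t in 𝓝 (f p), ContDiffAt ℝ ∞ F t) (h2 : ∀ᶠ t in 𝓝 (f p), HasDerivAt F (F' t) t)
    (h3 : HasDerivAt F' F'' (f p)) (hf : G.Sm f p) :
    G.Lap (fun q => F (f q)) p = F' (f p) * G.Lap f p + F'' * G.Gam f f p := by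
  have s : G.Sm (fun q => F' (f q)) p := by
    refine r.comp ?_ hf
    filter_upwards [h1, h2.eventually_nhds] with t a b
    exact ((a.fderiv_right (m := ∞) (by simp)).clm_apply
      (contDiffAt_const (c := (1 : ℝ)))).congr_of_eventuallyEq (b.mono fun u hu => hu.deriv.symm)
  rw [lap_eq c (X := fun i q => F' (f q) * G.δ i f q) fun i =>
    (((r.cont hf).eventually h2).and (r.ev hf)).mono fun q hq => r.δcomp hq.1 hq.2 i]
  simp only [Geo.Lap, Geo.Gam, Finset.mul_sum, ← Finset.sum_add_distrib]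
  refine Finset.sum_congr rfl fun i _ => ?_
  rw [r.δmul s (r.smδ hf i), r.δcomp h3 hf]
  ring

omit [MetricSpace M] in
theorem rr_eq (G : Geo m M) (p : M) :
    G.rr p = fun q => ∑ j, (G.x q j - G.x p j) * (G.x q j - G.x p j) := funext fun q => by
  rw [Geo.rr, EuclideanSpace.norm_sq_eq]
  simp [sq]

omit [MetricSpace M] in
theorem JJ_eq (G : Geo m M) (p : M) :
    G.JJ p = fun q => ∑ j, (G.x q j - G.x p j) * G.N q j := funext fun q => by
  simp [Geo.JJ, PiLp.inner_apply, mul_comm]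

theorem smy (r : Rule G) (p q : M) (j : Fin (m + 1)) : G.Sm (fun q => G.x q j - G.x p j) q :=
  r.sub (r.smx q j) (r.smc _ q)

theorem δy (r : Rule G) (p q : M) (i j : Fin (m + 1)) : G.δ i (fun q => G.x q j - G.x p j) q =
    (if i = j then 1 else 0) - G.N q i * G.N q j := by
  rw [r.δsub (r.smx q j) (r.smc _ q), r.δx, r.δc, sub_zero]

theorem smr (r : Rule G) (p q : M) : G.Sm (G.rr p) q := by
  rw [rr_eq]
  exact r.sum fun j _ => r.mul (smy r p q j) (smy r p q j)

theorem smJ (c : Core G) (r : Rule G) (p q : M) : G.Sm (G.JJ p) q := by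
  rw [JJ_eq]
  exact r.sum fun j _ => r.mul (smy r p q j) (c.smN q j)

theorem δr (r : Rule G) (p : M) (i : Fin (m + 1)) : G.δ i (G.rr p) =
    fun q => 2 * (G.x q i - G.x p i - G.N q i * G.JJ p q) := funext fun q => by
  rw [rr_eq, JJ_eq, r.δsum fun j _ => r.mul (smy r p q j) (smy r p q j)]
  simp only [fun j => r.δmul (smy r p q j) (smy r p q j) i, δy r]
  have : ∀ j, ((if i = j then 1 else 0) - G.N q i * G.N q j) * (G.x q j - G.x p j) +
      (G.x q j - G.x p j) * ((if i = j then 1 else 0) - G.N q i * G.N q j) =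
      (if i = j then 2 * (G.x q j - G.x p j) else 0) -
        2 * G.N q i * ((G.x q j - G.x p j) * G.N q j) := fun j => by
    split_ifs <;> ring
  simp only [this, Finset.sum_sub_distrib, Finset.sum_ite_eq, Finset.mem_univ, if_true,
    ← Finset.mul_sum]
  ring

theorem lr (c : Core G) (r : Rule G) (p q : M) : G.Lap (G.rr p) q = 2 * m := by
  have e : ∀ i, G.δ i (G.δ i (G.rr p)) q = 2 * (1 - G.N q i ^ 2 - G.JJ p q * G.A i i q -
      G.N q i * G.δ i (G.JJ p) q) := fun i => by
    have a := r.mul (c.smN q i) (smJ c r p q)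
    rw [δr r, r.δmul (r.smc 2 q) (r.sub (smy r p q i) a), r.δc, r.δsub (smy r p q i) a, δy r,
      r.δmul (c.smN q i) (smJ c r p q), if_pos rfl, Geo.A]
    ring
  simp only [Geo.Lap, e, ← Finset.mul_sum, Finset.sum_sub_distrib, c.N1, c.tr,
    r.tan (smJ c r p q)]
  simp

theorem gr (c : Core G) (r : Rule G) (p q : M) :
    G.Gam (G.rr p) (G.rr p) q = 4 * (G.rr p q - G.JJ p q ^ 2) := by
  have e : ∀ i, G.δ i (G.rr p) q * G.δ i (G.rr p) q =
      4 * ((G.x q i - G.x p i) * (G.x q i - G.x p i)) -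
        8 * G.JJ p q * ((G.x q i - G.x p i) * G.N q i) + 4 * G.JJ p q ^ 2 * G.N q i ^ 2 :=
    fun i => by rw [δr r]; ring
  simp only [Geo.Gam, e, Finset.sum_add_distrib, Finset.sum_sub_distrib, ← Finset.mul_sum, c.N1]
  rw [← congrFun (rr_eq G p) q, ← congrFun (JJ_eq G p) q]
  ring

theorem bump (c : Core G) (r : Rule G) (p : M) (ρ : ℝ) (h0 : 0 < ρ) (h2 : ρ ≤ 2) :
    ∃ χ : M → ℝ, (∀ q, G.Sm χ q) ∧ (∀ q, 0 ≤ χ q ∧ χ q ≤ 1) ∧
      (∀ q, dist q p ≤ ρ / 4 → χ q = 1) ∧ ∀ q, ρ ≤ dist q p → χ q = 0 := by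
  set F : ℝ → ℝ := fun t => Real.smoothTransition ((ρ ^ 2 / 9 - t) / (ρ ^ 2 / 9 - ρ ^ 2 / 16))
  have sF : ContDiff ℝ ∞ F := Real.smoothTransition.contDiff.comp (by fun_prop)
  have d0 : 0 < ρ ^ 2 / 9 - ρ ^ 2 / 16 := by nlinarith [sq_pos_of_pos h0]
  have z : ∀ q, 2 * ρ / 3 ≤ dist q p → (if dist q p < 2 then F (G.rr p q) else 0) = 0 :=
    fun q hq => by
      split_ifs with a
      · refine Real.smoothTransition.zero_of_nonpos (div_nonpos_of_nonpos_of_nonneg ?_ d0.le)
        have := (c.near p q a).1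
        rw [Geo.rr]
        nlinarith
      · rfl
  refine ⟨fun q => if dist q p < 2 then F (G.rr p q) else 0, fun q => ?_, fun q => ?_,
    fun q hq => ?_, fun q hq => z q (by linarith)⟩
  · have k : ContinuousAt (fun q => dist q p) q := by fun_prop
    by_cases a : dist q p < 2
    · exact r.scg (r.comp (.of_forall fun _ => sF.contDiffAt) (smr r p q))
        ((k.eventually_lt continuousAt_const a).mono fun q' b => (if_pos b).symm)
    · exact r.scg (r.smc 0 q) ((continuousAt_const.eventually_lt k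
        (show 2 * ρ / 3 < dist q p by linarith)).mono fun q' b => (z q' b.le).symm)
  · dsimp only
    split_ifs
    exacts [⟨Real.smoothTransition.nonneg _, Real.smoothTransition.le_one _⟩, ⟨le_rfl, zero_le_one⟩]
  · dsimp only
    rw [if_pos (by linarith)]
    refine Real.smoothTransition.one_of_one_le ((one_le_div d0).2 ?_)
    have := c.lip p q
    rw [Geo.rr]
    nlinarith [norm_nonneg (G.x q - G.x p)]

end K4a

open K4a

theorem k4 : K4 := fun m M _ _ _ _ G _ c r =>
  { smG := fun hf hg => r.sum fun i _ => r.mul (r.smδ hf i) (r.smδ hg i)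
    smL := fun hf => r.sum fun i _ => r.smδ (r.smδ hf i) i
    smA := fun p => r.sum fun i _ => r.sum fun j _ => r.scg
      (r.mul (r.smδ (c.smN p j) i) (r.smδ (c.smN p j) i)) (.of_forall fun _ => (sq _).symm)
    lcg := fun h => lap_eq c fun i => h.eventually_nhds.mono fun _ hq => c.cgr hq i
    lc := lc r
    ladd := fun {f g _} hf hg => by
      rw [lap_eq c (X := fun i q => G.δ i f q + G.δ i g q) fun i =>
        ((r.ev hf).and (r.ev hg)).mono fun q hq => r.δadd hq.1 hq.2 i]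
      simp only [fun i => r.δadd (r.smδ hf i) (r.smδ hg i) i, Finset.sum_add_distrib, Geo.Lap]
    lsub := fun {f g _} hf hg => by
      rw [lap_eq c (X := fun i q => G.δ i f q - G.δ i g q) fun i =>
        ((r.ev hf).and (r.ev hg)).mono fun q hq => r.δsub hq.1 hq.2 i]
      simp only [fun i => r.δsub (r.smδ hf i) (r.smδ hg i) i, Finset.sum_sub_distrib, Geo.Lap]
    lsm := fun a _ p hf => by
      rw [lmul c r (r.smc a p) hf, lc r]
      simp [Geo.Gam, r.δc]
    lmul := lmul c r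
    lcomp := lcomp c r
    dmul := fun hf hX => by
      simp only [Geo.Div, fun i => r.δmul hf (hX i) i, Finset.sum_add_distrib, Finset.mul_sum]
    smr := smr r
    lr := lr c r
    gr := gr c r
    bump := bump c r }

end Vale.Agent.P134L
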