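import Vale.Agent.P134L.Defs

/-!
# Integration by parts on an open set
-/

set_option linter.unusedSectionVars false

open MeasureTheory Set Filter Metric Topology

noncomputable section

namespace Vale.Agent.P134L

variable {m : ℕ} {M : Type} [MetricSpace M] [MeasurableSpace M] [BorelSpace M]

namespace K5a

variable {G : Geo m M} {U K : Set M} {f g : M → ℝ}

theorem ev1 (hU : IsOpen U) {q : M} (hq : q ∈ U) : U.indicator f =ᶠ[𝓝 q] f :=
  mem_of_superset (hU.mem_nhds hq) fun _ hz => indicator_of_mem hz f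

theorem zero (h0 : ∀ q ∈ U, q ∉ K → f q = 0) {q : M} (hq : q ∉ K) : U.indicator f q = 0 := by
  by_cases h : q ∈ U
  · rw [indicator_of_mem h, h0 q h hq]
  · exact indicator_of_notMem h f

theorem ev2 (hK : IsCompact K) (h0 : ∀ q ∈ U, q ∉ K → f q = 0) {q : M} (hq : q ∉ K) :
    U.indicator f =ᶠ[𝓝 q] fun _ => 0 :=
  mem_of_superset (hK.isClosed.isOpen_compl.mem_nhds hq) fun _ hz => zero h0 hz

theorem ev3 (hU : IsOpen U) (hK : IsCompact K) (h0 : ∀ q ∈ U, q ∉ K → f q = 0) {q : M}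
    (hq : q ∈ U) (hq' : q ∉ K) : f =ᶠ[𝓝 q] fun _ => 0 := (ev1 hU hq).symm.trans (ev2 hK h0 hq')

theorem smi (r : Rule G) (hU : IsOpen U) (hK : IsCompact K) (hKU : K ⊆ U)
    (hf : ∀ q ∈ U, G.Sm f q) (h0 : ∀ q ∈ U, q ∉ K → f q = 0) (q : M) :
    G.Sm (U.indicator f) q := by
  by_cases h : q ∈ U
  · exact r.scg (hf q h) (ev1 hU h).symm
  · exact r.scg (r.smc 0 q) (ev2 hK h0 fun h' => h (hKU h')).symm

theorem int (ms : Meas G) (hU : IsOpen U) (hK : IsCompact K) (hKU : K ⊆ U)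
    (hf : ContinuousOn f U) (h0 : ∀ q ∈ U, q ∉ K → f q = 0) : IntegrableOn f U G.μ := by
  have := ms.fin
  exact ((hf.mono hKU).integrableOn_compact hK).of_forall_sdiff_eq_zero hU.measurableSet
    fun q hq => h0 q hq.1 hq.2

theorem ints (r : Rule G) (ms : Meas G) (hU : IsOpen U) (hK : IsCompact K) (hKU : K ⊆ U)
    (hf : ∀ q ∈ U, G.Sm f q) (h0 : ∀ q ∈ U, q ∉ K → f q = 0) : IntegrableOn f U G.μ :=
  int ms hU hK hKU (fun q hq => (r.cont (hf q hq)).continuousWithinAt) h0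

/-- two functions which agree on `U`, the second one being zero off `U` -/
theorem set_eq (hU : IsOpen U) (h1 : ∀ q ∈ U, f q = g q) (h2 : ∀ q ∉ U, g q = 0) :
    ∫ q in U, f q ∂G.μ = ∫ q, g q ∂G.μ := by
  rw [setIntegral_congr_fun hU.measurableSet h1,
    setIntegral_eq_integral_of_forall_compl_eq_zero h2]

theorem del0 (c : Core G) (r : Rule G) {q : M} (h : f =ᶠ[𝓝 q] fun _ => 0) (i : Fin (m + 1)) :
    G.δ i f q = 0 := by rw [c.cgr h, r.δc]

theorem div (c : Core G) (r : Rule G) (ms : Meas G) {X : Fin (m + 1) → M → ℝ} (hU : IsOpen U)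
    (hK : IsCompact K) (hKU : K ⊆ U) (hX : ∀ q ∈ U, ∀ i, G.Sm (X i) q)
    (h0 : ∀ q ∈ U, q ∉ K → ∀ i, X i q = 0) : ∫ q in U, G.Div X q ∂G.μ = 0 := by
  have z (i) : ∀ q ∈ U, q ∉ K → X i q = 0 := fun q h1 h2 => h0 q h1 h2 i
  simp only [Geo.Div]
  rw [integral_finsetSum _ fun i _ => ints r ms hU hK hKU (fun q hq => r.smδ (hX q hq i) i)
    fun q h1 h2 => del0 c r (ev3 hU hK (z i) h1 h2) i]
  refine Finset.sum_eq_zero fun i _ => ?_
  rw [set_eq (g := G.δ i (U.indicator (X i))) hU (fun q hq => (c.cgr (ev1 hU hq) i).symm)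
    fun q hq => del0 c r (ev2 hK (z i) fun h => hq (hKU h)) i]
  exact ms.ibp0 _ (smi r hU hK hKU (fun q hq => hX q hq i) (z i))
    (HasCompactSupport.intro hK fun q hq => zero (z i) hq) i

theorem gen (c : Core G) (r : Rule G) (r2 : Rule2 G) (ms : Meas G) (hU : IsOpen U)
    (hK : IsCompact K) (hKU : K ⊆ U) (hs : ∀ q ∈ U, G.Sm f q ∧ G.Sm g q)
    (h0 : ∀ q ∈ U, q ∉ K → (∀ i, f q * G.δ i g q = 0) ∧ G.Gam f g q = 0 ∧ f q * G.Lap g q = 0) :
    ∫ q in U, f q * G.Lap g q ∂G.μ = -∫ q in U, G.Gam f g q ∂G.μ := by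
  have h := div c r ms (X := fun i q => f q * G.δ i g q) hU hK hKU
    (fun q hq i => r.mul (hs q hq).1 (r.smδ (hs q hq).2 i)) fun q h1 h2 => (h0 q h1 h2).1
  have e : ∀ q ∈ U, G.Div (fun i q => f q * G.δ i g q) q = G.Gam f g q + f q * G.Lap g q :=
    fun q hq => r2.dmul (X := fun i => G.δ i g) (hs q hq).1 fun i => r.smδ (hs q hq).2 i
  rw [setIntegral_congr_fun hU.measurableSet e, integral_add
    (ints r ms hU hK hKU (fun q hq => r2.smG (hs q hq).1 (hs q hq).2)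
      fun q h1 h2 => (h0 q h1 h2).2.1)
    (ints r ms hU hK hKU (fun q hq => r.mul (hs q hq).1 (r2.smL (hs q hq).2))
      fun q h1 h2 => (h0 q h1 h2).2.2)] at h
  linarith

theorem gr1 (c : Core G) (r : Rule G) (r2 : Rule2 G) (ms : Meas G) (hU : IsOpen U)
    (hK : IsCompact K) (hKU : K ⊆ U) (hs : ∀ q ∈ U, G.Sm f q ∧ G.Sm g q)
    (h0 : ∀ q ∈ U, q ∉ K → f q = 0) :
    ∫ q in U, f q * G.Lap g q ∂G.μ = -∫ q in U, G.Gam f g q ∂G.μ :=
  gen c r r2 ms hU hK hKU hs fun q h1 h2 => by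
    simp [Geo.Gam, h0 q h1 h2, del0 c r (ev3 hU hK h0 h1 h2)]

theorem gr2 (c : Core G) (r : Rule G) (r2 : Rule2 G) (ms : Meas G) (hU : IsOpen U)
    (hK : IsCompact K) (hKU : K ⊆ U) (hs : ∀ q ∈ U, G.Sm f q ∧ G.Sm g q)
    (h0 : ∀ q ∈ U, q ∉ K → f q = 0) :
    ∫ q in U, f q * G.Lap g q ∂G.μ = ∫ q in U, G.Lap f q * g q ∂G.μ := by
  have h := gen c r r2 ms (f := g) (g := f) hU hK hKU (fun q hq => (hs q hq).symm)
    fun q h1 h2 => by
      simp [Geo.Gam, del0 c r (ev3 hU hK h0 h1 h2), r2.lcg (ev3 hU hK h0 h1 h2), r2.lc]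
  rw [gr1 c r r2 ms hU hK hKU hs h0]
  simp only [Geo.Gam, mul_comm (g _), mul_comm (G.δ _ g _)] at h ⊢
  exact h.symm

theorem stb (c : Core G) (r : Rule G) (st : G.Stable) (hU : IsOpen U) (hK : IsCompact K)
    (hKU : K ⊆ U) (hf : ∀ q ∈ U, G.Sm f q) (h0 : ∀ q ∈ U, q ∉ K → f q = 0) :
    ∫ q in U, G.A2 q * f q ^ 2 ∂G.μ ≤ ∫ q in U, G.Gam f f q ∂G.μ := by
  rw [set_eq (g := fun q => G.A2 q * U.indicator f q ^ 2) hU
      (fun q hq => by rw [indicator_of_mem hq]) fun q hq => by simp [indicator_of_notMem hq],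
    set_eq (g := G.Gam (U.indicator f) (U.indicator f)) hU
      (fun q hq => by simp only [Geo.Gam, c.cgr (ev1 hU hq)]) fun q hq => by
        simp [Geo.Gam, del0 c r (ev2 hK h0 fun h => hq (hKU h))]]
  exact st _ (smi r hU hK hKU hf h0) (HasCompactSupport.intro hK fun q hq => zero h0 hq)

theorem pos (ms : Meas G) : G.μ.IsOpenPosMeasure := by
  obtain ⟨c, c0, hc⟩ := ms.vol
  refine ⟨fun U hU ⟨p, hp⟩ => ?_⟩
  obtain ⟨ε, ε0, hε⟩ := Metric.isOpen_iff.1 hU p hp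
  have ρ0 : 0 < min ε 1 := lt_min ε0 one_pos
  refine (lt_of_lt_of_le ?_ ((hc p _ ρ0 (min_le_right _ _)).trans
    (measure_mono ((ball_subset_ball (min_le_left _ _)).trans hε)))).ne'
  exact ENNReal.ofReal_pos.2 (by positivity)

end K5a

theorem k5 : K5 := fun _ _ _ _ _ _ _ _ c r r2 ms =>
  ⟨K5a.int ms, K5a.div c r ms, K5a.gr1 c r r2 ms, K5a.gr2 c r r2 ms,
    fun st _ _ _ => K5a.stb c r st, K5a.pos ms⟩

end Vale.Agent.P134L
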