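import Vale.Agent.P134K.Br

/-!
# P134L: the row L0
-/

open MeasureTheory Metric Set Filter Topology
open scoped ContDiff RealInnerProductSpace Gradient

noncomputable section
namespace Vale.Agent.P134L

open Vale.Agent.P134K (disc geo_δ geo_lap sm_to sm_of Disc inner_grad)
open Vale.Agent.P134U (Ok0 ok0)

variable {m : ℕ} {M : Type} [MetricSpace M] [MeasurableSpace M] {L : Leaf m M}

theorem clm_sum (T : E m →L[ℝ] ℝ) (w : E m) : T w = ∑ a, w a * T (EuclideanSpace.single a 1) := by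
  conv_lhs => rw [← (EuclideanSpace.basisFun (Fin m) ℝ).sum_repr w]
  simp

omit [MetricSpace M] in
theorem gi_sum (p : M) (y : E m) (B : E m →L[ℝ] E m →L[ℝ] ℝ) :
    ∑ a, ∑ b, L.gi p y a b * B (EuclideanSpace.single a 1) (EuclideanSpace.single b 1) =
      ∑ a, B (EuclideanSpace.single a 1) (EuclideanSpace.single a 1) -
        B (∇ (L.h p) y) (∇ (L.h p) y) / (1 + ‖∇ (L.h p) y‖ ^ 2) := by
  have h1 : B (∇ (L.h p) y) (∇ (L.h p) y) = ∑ a, ∑ b, ∇ (L.h p) y a * ∇ (L.h p) y b *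
      B (EuclideanSpace.single a 1) (EuclideanSpace.single b 1) := by
    rw [show B (∇ (L.h p) y) (∇ (L.h p) y) = B.flip (∇ (L.h p) y) (∇ (L.h p) y) from rfl, clm_sum]
    refine Finset.sum_congr rfl fun a _ => ?_
    rw [ContinuousLinearMap.flip_apply, clm_sum, Finset.mul_sum]
    simp only [mul_assoc]
  simp only [h1, Leaf.gi, sub_mul, Finset.sum_sub_distrib, ite_mul, one_mul, zero_mul,
    Finset.sum_ite_eq, Finset.mem_univ, if_true, Finset.sum_div, div_mul_eq_mul_div]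

theorem sm_ch (h : Ok0 L) {p : M} {u : M → ℝ} {y : E m} (hy : y ∈ ball (0 : E m) 1)
    (hu : L.geo.Sm u (L.φ p y)) : ∀ᶠ z in 𝓝 y, ContDiffAt ℝ ∞ (u ∘ (disc h).φ p) z := by
  have h1 := ((disc h).ball_V p hy).1
  filter_upwards [((disc h).contAt_φ h1).eventually (sm_to h hu), isOpen_ball.mem_nhds h1]
    with z k1 k2
  exact k1.chart k2

theorem gam_ch (h : Ok0 L) {p : M} {u v : M → ℝ} {y : E m} (hy : y ∈ ball (0 : E m) 1)
    (hu : DifferentiableAt ℝ (u ∘ (disc h).φ p) y) (hv : DifferentiableAt ℝ (v ∘ (disc h).φ p) y) :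
    L.geo.Gam u v (L.φ p y) = ∑ a, ∑ b, L.gi p y a b * D a (fun z => u (L.φ p z)) y *
      D b (fun z => v (L.φ p z)) y := by
  have hV := (disc h).ball_V p hy
  obtain ⟨B, hB⟩ : ∃ B : E m →L[ℝ] E m →L[ℝ] ℝ, ∀ a b, B a b =
      fderiv ℝ (u ∘ (disc h).φ p) y a * fderiv ℝ (v ∘ (disc h).φ p) y b :=
    ⟨(fderiv ℝ (u ∘ (disc h).φ p) y).smulRight (fderiv ℝ (v ∘ (disc h).φ p) y), fun _ _ => rfl⟩
  have h1 : L.geo.Gam u v (L.φ p y) = ∑ i, B ((disc h).v p i y) ((disc h).v p i y) := by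
    rw [Geo.Gam, geo_δ h]
    refine Finset.sum_congr rfl fun i _ => ?_
    rw [hB, ← Disc.δ_φ hV hu, ← Disc.δ_φ hV hv]
    rfl
  have h2 := gi_sum (L := L) p y B
  rw [h1, Disc.sum_vv, Disc.Ls_Nφ _ p hV.1]
  simp only [mul_assoc]
  refine Eq.trans ?_ (h2.symm.trans (by simp only [hB]; rfl))
  simp only [map_smul, map_neg, smul_apply, neg_apply, smul_eq_mul]
  have : 0 < 1 + ‖∇ (L.h p) y‖ ^ 2 := by positivity
  rw [sub_right_inj, mul_neg, neg_neg, ← mul_assoc, ← mul_inv]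
  exact (congrArg (fun t => t⁻¹ * _) (Real.mul_self_sqrt this.le)).trans (inv_mul_eq_div _ _)

theorem gam_x (h : Ok0 L) (u : M → ℝ) (q : M) (i : Fin (m + 1)) :
    L.geo.Gam u (fun q => L.x q i) q = L.geo.δ i u q := by
  rw [Geo.Gam, geo_δ h]
  have h1 : ∀ k, (disc h).δ k (fun q => L.x q i) q = _ := fun k => Disc.δ_X (D := disc h)
  have h2 := Disc.N_δ (D := disc h) (f := u) (p := q)
  simp only [h1, mul_sub, Finset.sum_sub_distrib, mul_ite, mul_one, mul_zero, Finset.sum_ite_eq',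
    Finset.mem_univ, if_true, ← mul_assoc, ← Finset.sum_mul]
  simp only [mul_comm ((disc h).δ _ u q), h2, zero_mul, sub_zero]

theorem chart (h : Ok0 L) : Chart L where
  opn p y hy := (disc h).map_φ ((disc h).ball_V p hy)
  inj p y hy z hz := (disc h).φ_inj hy hz
  sm p u y hy := ⟨sm_ch h hy, fun k => sm_of h ((disc h).ball_V p hy).2 (by
    rwa [show (disc h).ψ p (L.φ p y) = y from (disc h).ψ_φ ((disc h).ball_V p hy).1])⟩
  del p u y hy hu i := by
    rw [← gam_x h]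
    exact gam_ch h hy ((sm_ch h hy hu).self_of_nhds.differentiableAt (by simp))
      (((Disc.sm_X (D := disc h) (i := i)).chart (p := p)
        ((disc h).ball_V p hy).1).differentiableAt (by simp))
  gam p u v y hy hu hv := gam_ch h hy ((sm_ch h hy hu).self_of_nhds.differentiableAt (by simp))
    ((sm_ch h hy hv).self_of_nhds.differentiableAt (by simp))
  lap p u y hy hu := by
    have h1 := (sm_ch h hy hu).self_of_nhds
    have h2 := ((h1.fderiv_right (m := ∞) (by simp)).differentiableAt (by simp)).hasFDerivAt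
    rw [geo_lap h]
    refine (Disc.lap_φ ((disc h).ball_V p hy) h1).trans ((gi_sum (L := L) p y _).symm.trans ?_)
    refine Finset.sum_congr rfl fun a _ => Finset.sum_congr rfl fun b _ => congrArg _ ?_
    have h3 := (h2.clm_apply (hasFDerivAt_const (EuclideanSpace.single b (1 : ℝ)) y)).fderiv
    refine Eq.trans ?_ (congrArg (fun T : E m →L[ℝ] ℝ => T (EuclideanSpace.single a 1)) h3).symm
    simp

theorem l0 : L0 := fun _ _ _ _ _ _ _ _ h _ _ _ => chart (ok0 h)

end Vale.Agent.P134L
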