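import Mathlib

/-!
# Complete stable minimal hypersurfaces with bounded curvature: the analytic frame

A leaf is a proper metric space with a map `x` to Euclidean space which is, around every point, a
graph of uniform size.  All the calculus is done with the tangential derivatives `δ i`.
-/

open MeasureTheory Set Filter Metric Topology
open scoped ContDiff InnerProductSpace NNReal

noncomputable section

namespace Vale.Agent.P134L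

abbrev E (n : ℕ) := EuclideanSpace ℝ (Fin n)

variable {m : ℕ} {M : Type} [MetricSpace M] [MeasurableSpace M]

/-! ## The data -/

/-- measure, position, unit normal, tangential derivatives -/
structure Geo (m : ℕ) (M : Type) [MeasurableSpace M] where
  μ : Measure M
  x : M → E (m + 1)
  N : M → E (m + 1)
  δ : Fin (m + 1) → (M → ℝ) → M → ℝ

namespace Geo

variable (G : Geo m M)

/-- `f` is, near `p`, a smooth function of the position -/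
def Sm (f : M → ℝ) (p : M) : Prop := ∃ g : E (m + 1) → ℝ,
  (∀ᶠ z in 𝓝 (G.x p), ContDiffAt ℝ ∞ g z) ∧ f =ᶠ[𝓝 p] fun q => g (G.x q)

/-- the product of the gradients -/
def Gam (f g : M → ℝ) (p : M) : ℝ := ∑ i, G.δ i f p * G.δ i g p

/-- the divergence -/
def Div (X : Fin (m + 1) → M → ℝ) (p : M) : ℝ := ∑ i, G.δ i (X i) p

/-- the Laplacian -/
def Lap (f : M → ℝ) (p : M) : ℝ := ∑ i, G.δ i (G.δ i f) p

/-- the second fundamental form -/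
def A (i j : Fin (m + 1)) (p : M) : ℝ := G.δ i (fun q => G.N q j) p

/-- its squared norm -/
def A2 (p : M) : ℝ := ∑ i, ∑ j, G.A i j p ^ 2

/-- the squared extrinsic distance to `p` -/
def rr (p q : M) : ℝ := ‖G.x q - G.x p‖ ^ 2

/-- the normal part of the position -/
def JJ (p q : M) : ℝ := ⟪G.x q - G.x p, G.N q⟫_ℝ

/-- stability -/
def Stable : Prop := ∀ ψ : M → ℝ, (∀ q, G.Sm ψ q) → HasCompactSupport ψ →
  ∫ q, G.A2 q * ψ q ^ 2 ∂G.μ ≤ ∫ q, G.Gam ψ ψ q ∂G.μ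

end Geo

/-- discs: `φ p` parametrises the graph of `h p` over the tangent plane `L p` -/
structure Leaf (m : ℕ) (M : Type) [MeasurableSpace M] where
  μ : Measure M
  x : M → E (m + 1)
  N : M → E (m + 1)
  L : M → E m →ₗᵢ[ℝ] E (m + 1)
  h : M → E m → ℝ
  φ : M → E m → M

namespace Leaf

variable (L : Leaf m M)

/-- the calculus of a leaf -/
def geo : Geo m M where
  μ := L.μ
  x := L.x
  N := L.N
  δ i f p := L.L p (gradient (fun y => f (L.φ p y)) 0) i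

/-- the axioms of a minimal leaf -/
structure Ok : Prop where
  N1 : ∀ p, ‖L.N p‖ = 1
  NL : ∀ p v, ⟪L.N p, L.L p v⟫_ℝ = 0
  φ0 : ∀ p, L.φ p 0 = p
  xφ : ∀ p, ∀ y ∈ ball (0 : E m) 4, L.x (L.φ p y) = L.x p + L.L p y + L.h p y • L.N p
  Nφ : ∀ p, ∀ y ∈ ball (0 : E m) 4,
    √(1 + ‖gradient (L.h p) y‖ ^ 2) • L.N (L.φ p y) = L.N p - L.L p (gradient (L.h p) y)
  hs : ∀ p, ContDiffOn ℝ ∞ (L.h p) (ball 0 4)
  h1 : ∀ p, ∀ y ∈ ball (0 : E m) 4, ‖fderiv ℝ (L.h p) y‖ ≤ 1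
  h2 : ∀ p, ∀ y ∈ ball (0 : E m) 4, ‖fderiv ℝ (fderiv ℝ (L.h p)) y‖ ≤ 1
  mn : ∀ p, ∑ i, fderiv ℝ (fderiv ℝ (L.h p)) 0 (EuclideanSpace.single i 1)
    (EuclideanSpace.single i 1) = 0
  dx : ∀ p q, ‖L.x q - L.x p‖ ≤ dist q p
  dφ : ∀ p, ∀ y ∈ ball (0 : E m) 4, ∀ z ∈ ball (0 : E m) 4,
    dist (L.φ p y) (L.φ p z) ≤ 2 * ‖y - z‖
  onto : ∀ p q, dist q p < 2 → ∃ y ∈ ball (0 : E m) 4, L.φ p y = q
  vol : ∀ p (s : Set (E m)), MeasurableSet s → s ⊆ ball 0 1 →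
    L.μ (L.φ p '' s) = ∫⁻ y in s, ENNReal.ofReal √(1 + ‖gradient (L.h p) y‖ ^ 2)

end Leaf

/-! ## The calculus -/

/-- the pointwise facts which come from the discs -/
structure Core (G : Geo m M) : Prop where
  lip : ∀ p q, ‖G.x q - G.x p‖ ≤ dist q p
  cgr : ∀ {f g : M → ℝ} {p : M}, f =ᶠ[𝓝 p] g → ∀ i, G.δ i f p = G.δ i g p
  amb : ∀ {g : E (m + 1) → ℝ} {p : M}, DifferentiableAt ℝ g (G.x p) → ∀ i,
    G.δ i (fun q => g (G.x q)) p =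
      fderiv ℝ g (G.x p) (EuclideanSpace.single i 1 - G.N p i • G.N p)
  N1 : ∀ p, ∑ i, G.N p i ^ 2 = 1
  smN : ∀ p i, G.Sm (fun q => G.N q i) p
  sy : ∀ i j p, G.A i j p = G.A j i p
  tr : ∀ p, ∑ i, G.A i i p = 0
  bd : ∃ C, ∀ p, G.A2 p ≤ C
  near : ∀ p q, dist q p < 2 → dist q p ≤ 2 * ‖G.x q - G.x p‖ ∧ |G.JJ p q| ≤ 2 * G.rr p q
  nebot : ∀ p : M, (𝓝[≠] p).NeBot

/-- the maximum principle and the facts on the measure -/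
structure Meas (G : Geo m M) : Prop where
  mx : ∀ {f : M → ℝ} {p : M}, G.Sm f p → IsLocalMax f p → (∀ i, G.δ i f p = 0) ∧ G.Lap f p ≤ 0
  fin : IsFiniteMeasureOnCompacts G.μ
  vol : ∃ c > (0 : ℝ), ∀ p ρ, 0 < ρ → ρ ≤ 1 → ENNReal.ofReal (c * ρ ^ m) ≤ G.μ (ball p ρ)
  ibp0 : ∀ f : M → ℝ, (∀ q, G.Sm f q) → HasCompactSupport f → ∀ i, ∫ q, G.δ i f q ∂G.μ = 0

/-- the rules of first order -/
structure Rule (G : Geo m M) : Prop where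
  ev : ∀ {f : M → ℝ} {p : M}, G.Sm f p → ∀ᶠ q in 𝓝 p, G.Sm f q
  scg : ∀ {f g : M → ℝ} {p : M}, G.Sm f p → f =ᶠ[𝓝 p] g → G.Sm g p
  cont : ∀ {f : M → ℝ} {p : M}, G.Sm f p → ContinuousAt f p
  smc : ∀ (c : ℝ) p, G.Sm (fun _ => c) p
  smx : ∀ p i, G.Sm (fun q => G.x q i) p
  smδ : ∀ {f : M → ℝ} {p : M}, G.Sm f p → ∀ i, G.Sm (G.δ i f) p
  add : ∀ {f g : M → ℝ} {p : M}, G.Sm f p → G.Sm g p → G.Sm (fun q => f q + g q) p
  sub : ∀ {f g : M → ℝ} {p : M}, G.Sm f p → G.Sm g p → G.Sm (fun q => f q - g q) p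
  mul : ∀ {f g : M → ℝ} {p : M}, G.Sm f p → G.Sm g p → G.Sm (fun q => f q * g q) p
  sum : ∀ {ι : Type} {s : Finset ι} {f : ι → M → ℝ} {p : M}, (∀ k ∈ s, G.Sm (f k) p) →
    G.Sm (fun q => ∑ k ∈ s, f k q) p
  comp : ∀ {F : ℝ → ℝ} {f : M → ℝ} {p : M}, (∀ᶠ t in 𝓝 (f p), ContDiffAt ℝ ∞ F t) → G.Sm f p →
    G.Sm (fun q => F (f q)) p
  δc : ∀ (c : ℝ) p i, G.δ i (fun _ => c) p = 0
  δx : ∀ p i j, G.δ i (fun q => G.x q j) p = (if i = j then 1 else 0) - G.N p i * G.N p j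
  δadd : ∀ {f g : M → ℝ} {p : M}, G.Sm f p → G.Sm g p → ∀ i,
    G.δ i (fun q => f q + g q) p = G.δ i f p + G.δ i g p
  δsub : ∀ {f g : M → ℝ} {p : M}, G.Sm f p → G.Sm g p → ∀ i,
    G.δ i (fun q => f q - g q) p = G.δ i f p - G.δ i g p
  δmul : ∀ {f g : M → ℝ} {p : M}, G.Sm f p → G.Sm g p → ∀ i,
    G.δ i (fun q => f q * g q) p = G.δ i f p * g p + f p * G.δ i g p
  δsum : ∀ {ι : Type} {s : Finset ι} {f : ι → M → ℝ} {p : M}, (∀ k ∈ s, G.Sm (f k) p) → ∀ i,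
    G.δ i (fun q => ∑ k ∈ s, f k q) p = ∑ k ∈ s, G.δ i (f k) p
  δcomp : ∀ {F : ℝ → ℝ} {F' : ℝ} {f : M → ℝ} {p : M}, HasDerivAt F F' (f p) → G.Sm f p → ∀ i,
    G.δ i (fun q => F (f q)) p = F' * G.δ i f p
  tan : ∀ {f : M → ℝ} {p : M}, G.Sm f p → ∑ i, G.N p i * G.δ i f p = 0
  AN : ∀ i p, ∑ j, G.A i j p * G.N p j = 0
  comm : ∀ {f : M → ℝ} {p : M}, G.Sm f p → ∀ i j, G.δ i (G.δ j f) p - G.δ j (G.δ i f) p =
    ∑ k, (G.N p i * G.A j k p - G.N p j * G.A i k p) * G.δ k f p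

/-- the rules of second order -/
structure Rule2 (G : Geo m M) : Prop where
  smG : ∀ {f g : M → ℝ} {p : M}, G.Sm f p → G.Sm g p → G.Sm (G.Gam f g) p
  smL : ∀ {f : M → ℝ} {p : M}, G.Sm f p → G.Sm (G.Lap f) p
  smA : ∀ p, G.Sm G.A2 p
  lcg : ∀ {f g : M → ℝ} {p : M}, f =ᶠ[𝓝 p] g → G.Lap f p = G.Lap g p
  lc : ∀ (c : ℝ) p, G.Lap (fun _ => c) p = 0
  ladd : ∀ {f g : M → ℝ} {p : M}, G.Sm f p → G.Sm g p →
    G.Lap (fun q => f q + g q) p = G.Lap f p + G.Lap g p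
  lsub : ∀ {f g : M → ℝ} {p : M}, G.Sm f p → G.Sm g p →
    G.Lap (fun q => f q - g q) p = G.Lap f p - G.Lap g p
  lsm : ∀ (c : ℝ) {f : M → ℝ} {p : M}, G.Sm f p → G.Lap (fun q => c * f q) p = c * G.Lap f p
  lmul : ∀ {f g : M → ℝ} {p : M}, G.Sm f p → G.Sm g p →
    G.Lap (fun q => f q * g q) p = f p * G.Lap g p + 2 * G.Gam f g p + g p * G.Lap f p
  lcomp : ∀ {F F' : ℝ → ℝ} {F'' : ℝ} {f : M → ℝ} {p : M},
    (∀ᶠ t in 𝓝 (f p), ContDiffAt ℝ ∞ F t) → (∀ᶠ t in 𝓝 (f p), HasDerivAt F (F' t) t) →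
    HasDerivAt F' F'' (f p) → G.Sm f p →
    G.Lap (fun q => F (f q)) p = F' (f p) * G.Lap f p + F'' * G.Gam f f p
  dmul : ∀ {f : M → ℝ} {X : Fin (m + 1) → M → ℝ} {p : M}, G.Sm f p → (∀ i, G.Sm (X i) p) →
    G.Div (fun i q => f q * X i q) p = ∑ i, G.δ i f p * X i p + f p * G.Div X p
  smr : ∀ p q, G.Sm (G.rr p) q
  lr : ∀ p q, G.Lap (G.rr p) q = 2 * m
  gr : ∀ p q, G.Gam (G.rr p) (G.rr p) q = 4 * (G.rr p q - G.JJ p q ^ 2)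
  bump : ∀ p ρ, 0 < ρ → ρ ≤ 2 → ∃ χ : M → ℝ, (∀ q, G.Sm χ q) ∧ (∀ q, 0 ≤ χ q ∧ χ q ≤ 1) ∧
    (∀ q, dist q p ≤ ρ / 4 → χ q = 1) ∧ ∀ q, ρ ≤ dist q p → χ q = 0

/-- integration by parts on an open set -/
structure Ibp (G : Geo m M) : Prop where
  int : ∀ {U K : Set M} {f : M → ℝ}, IsOpen U → IsCompact K → K ⊆ U → ContinuousOn f U →
    (∀ q ∈ U, q ∉ K → f q = 0) → IntegrableOn f U G.μ
  div : ∀ {U K : Set M} {X : Fin (m + 1) → M → ℝ}, IsOpen U → IsCompact K → K ⊆ U →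
    (∀ q ∈ U, ∀ i, G.Sm (X i) q) → (∀ q ∈ U, q ∉ K → ∀ i, X i q = 0) →
    ∫ q in U, G.Div X q ∂G.μ = 0
  gr1 : ∀ {U K : Set M} {f g : M → ℝ}, IsOpen U → IsCompact K → K ⊆ U →
    (∀ q ∈ U, G.Sm f q ∧ G.Sm g q) → (∀ q ∈ U, q ∉ K → f q = 0) →
    ∫ q in U, f q * G.Lap g q ∂G.μ = -∫ q in U, G.Gam f g q ∂G.μ
  gr2 : ∀ {U K : Set M} {f g : M → ℝ}, IsOpen U → IsCompact K → K ⊆ U →
    (∀ q ∈ U, G.Sm f q ∧ G.Sm g q) → (∀ q ∈ U, q ∉ K → f q = 0) →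
    ∫ q in U, f q * G.Lap g q ∂G.μ = ∫ q in U, G.Lap f q * g q ∂G.μ
  stb : G.Stable → ∀ {U K : Set M} {ψ : M → ℝ}, IsOpen U → IsCompact K → K ⊆ U →
    (∀ q ∈ U, G.Sm ψ q) → (∀ q ∈ U, q ∉ K → ψ q = 0) →
    ∫ q in U, G.A2 q * ψ q ^ 2 ∂G.μ ≤ ∫ q in U, G.Gam ψ ψ q ∂G.μ
  pos : G.μ.IsOpenPosMeasure

/-- all the rules -/
structure Calc (G : Geo m M) : Prop extends Core G, Meas G, Rule G, Rule2 G, Ibp G

/-- the inverse metric in the disc at `p` -/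
def Leaf.gi (L : Leaf m M) (p : M) (y : E m) (a b : Fin m) : ℝ := (if a = b then 1 else 0) -
  gradient (L.h p) y a * gradient (L.h p) y b / (1 + ‖gradient (L.h p) y‖ ^ 2)

/-- the derivative in the direction of a coordinate -/
def D (a : Fin m) (F : E m → ℝ) (y : E m) : ℝ := fderiv ℝ F y (EuclideanSpace.single a 1)

/-- the calculus in the disc at `p` -/
structure Chart (L : Leaf m M) : Prop where
  opn : ∀ p, ∀ y ∈ ball (0 : E m) 1, map (L.φ p) (𝓝 y) = 𝓝 (L.φ p y)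
  inj : ∀ p, ∀ y ∈ ball (0 : E m) 4, ∀ z ∈ ball (0 : E m) 4,
    ‖y - z‖ ≤ dist (L.φ p y) (L.φ p z)
  sm : ∀ p (u : M → ℝ), ∀ y ∈ ball (0 : E m) 1, L.geo.Sm u (L.φ p y) ↔
    ∀ᶠ z in 𝓝 y, ContDiffAt ℝ ∞ (fun z => u (L.φ p z)) z
  del : ∀ p (u : M → ℝ), ∀ y ∈ ball (0 : E m) 1, L.geo.Sm u (L.φ p y) → ∀ i,
    L.geo.δ i u (L.φ p y) = ∑ a, ∑ b, L.gi p y a b * D a (fun z => u (L.φ p z)) y *
      D b (fun z => L.x (L.φ p z) i) y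
  gam : ∀ p (u v : M → ℝ), ∀ y ∈ ball (0 : E m) 1, L.geo.Sm u (L.φ p y) → L.geo.Sm v (L.φ p y) →
    L.geo.Gam u v (L.φ p y) = ∑ a, ∑ b, L.gi p y a b * D a (fun z => u (L.φ p z)) y *
      D b (fun z => v (L.φ p z)) y
  lap : ∀ p (u : M → ℝ), ∀ y ∈ ball (0 : E m) 1, L.geo.Sm u (L.φ p y) →
    L.geo.Lap u (L.φ p y) = ∑ a, ∑ b, L.gi p y a b * D a (D b fun z => u (L.φ p z)) y

/-- the mean value inequality -/
def Geo.Lipz (G : Geo m M) : Prop := ∀ (u : M → ℝ) p (R K : ℝ), R ≤ 1 → 0 ≤ K →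
  (∀ q ∈ ball p (2 * R), G.Sm u q ∧ G.Gam u u q ≤ K ^ 2) →
  ∀ q ∈ ball p R, |u q - u p| ≤ 2 * K * dist q p

/-- the gradient estimate -/
def Geo.Grd (G : Geo m M) : Prop := ∃ R₀ > (0 : ℝ), ∃ C ≥ (0 : ℝ), ∀ (u : M → ℝ) p (R B S : ℝ),
  0 < R → R ≤ R₀ → 0 ≤ S → (∀ q ∈ ball p R, G.Sm u q ∧ |u q| ≤ B ∧ |G.Lap u q| ≤ S) →
  G.Gam u u p ≤ (C * (B / R + R * S)) ^ 2

/-- the inequality of Harnack -/
def Geo.Har (G : Geo m M) : Prop := ∃ R₀ > (0 : ℝ), ∃ C > (0 : ℝ), ∀ (u : M → ℝ) p (R : ℝ),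
  0 < R → R ≤ R₀ → (∀ q ∈ ball p R, G.Sm u q ∧ 0 ≤ u q ∧ |G.Lap u q| ≤ u q) →
  ∀ q ∈ ball p (R / 16), u q ≤ C * u p ∧ u p ≤ C * u q

/-- the lemma of Weyl -/
def Geo.Hyp (G : Geo m M) : Prop := ∀ (O : Set M) (w f : M → ℝ) (lam : ℝ), IsOpen O →
  LocallyIntegrableOn w O G.μ → (∀ q ∈ O, G.Sm f q) →
  (∀ ψ : M → ℝ, (∀ q, G.Sm ψ q) → HasCompactSupport ψ → tsupport ψ ⊆ O →
    ∫ q, w q * (lam * ψ q - G.Lap ψ q) ∂G.μ = ∫ q, f q * ψ q ∂G.μ) →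
  ∃ u : M → ℝ, (∀ q ∈ O, G.Sm u q ∧ lam * u q - G.Lap u q = f q) ∧
    ∀ᵐ q ∂G.μ, q ∈ O → u q = w q

/-- the local estimates -/
structure Loc (G : Geo m M) : Prop where
  lipz : G.Lipz
  grd : G.Grd
  har : G.Har
  hyp : G.Hyp

/-- the resolvent -/
def Geo.Res (G : Geo m M) : Prop := ∀ (lam : ℝ) (f : M → ℝ), 0 < lam → (∀ q, G.Sm f q) →
  HasCompactSupport f → ∃ u : M → ℝ, (∀ q, G.Sm u q ∧ lam * u q - G.Lap u q = f q) ∧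
    Tendsto u (cocompact M) (𝓝 0)

/-! ## The Green function -/

/-- a cut-off function at `p` -/
structure Bmp (G : Geo m M) (p : M) (χ : M → ℝ) : Prop where
  sm : ∀ q, G.Sm χ q
  mem : ∀ q, 0 ≤ χ q ∧ χ q ≤ 1
  one : ∀ q, dist q p ≤ 1 / 4 → χ q = 1
  zero : ∀ q, 1 ≤ dist q p → χ q = 0

/-- the powers of the regularised distance -/
def Geo.W (G : Geo m M) (p : M) (e a : ℝ) (q : M) : ℝ := (G.rr p q + e ^ 2) ^ (-a)

/-- the approximate Green function -/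
structure Sol (G : Geo m M) (p : M) (χ : M → ℝ) (e : ℝ) (u : M → ℝ) : Prop where
  e0 : 0 < e
  e1 : e ≤ 1
  sm : ∀ q, G.Sm u q
  eq : ∀ q, e * u q - G.Lap u q = χ q * (m * (m - 2) * e ^ 2 * G.W p e ((m + 2) / 2) q)
  dec : Tendsto u (cocompact M) (𝓝 0)

/-- the Green function with the pole `p` -/
structure Pre (G : Geo m M) (p : M) (g : M → ℝ) : Prop where
  sm : ∀ q ≠ p, G.Sm g q
  har : ∀ q ≠ p, G.Lap g q = 0
  nn : ∀ q ≠ p, 0 ≤ g q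
  up : ∀ q ≠ p, 0 < G.rr p q → g q ≤ G.W p 0 ((m - 2) / 2) q
  lo : ∃ C, ∀ q ≠ p, dist q p ≤ 1 / 4 →
    G.W p 0 ((m - 2) / 2) q - C * G.W p 0 ((m - 3) / 2) q ≤ g q
  bd : ∀ ρ > (0 : ℝ), ∃ C, ∀ q, ρ ≤ dist q p → g q ≤ C
  far : ∀ η > (0 : ℝ), ∃ d, ∀ q, d ≤ dist q p → g q ≤ η

/-- the Green function is `exp (-(m - 2) τ)` on the set `U` where it is positive -/
structure Grn (G : Geo m M) (p : M) (U : Set M) (τ : M → ℝ) : Prop where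
  opn : IsOpen U
  sm : ∀ q ∈ U, G.Sm τ q
  eq : ∀ q ∈ U, G.Lap τ q = (m - 2) * G.Gam τ τ q
  lev : ∀ s t, IsCompact {q | q ∈ U ∧ τ q ∈ Icc s t}
  rb : ∀ q ∈ U, G.rr p q ≤ Real.exp (2 * τ q)
  cy : ∃ C, ∀ q ∈ U, 0 ≤ τ q → G.Gam τ τ q ≤ C
  pole : ∀ η > (0 : ℝ), ∃ s, ∀ q ∈ U, τ q ≤ s → |Real.exp (2 * τ q) * G.Gam τ τ q - 1| ≤ η
  near : ∀ s, ∀ᶠ q in 𝓝[≠] p, q ∈ U ∧ τ q ≤ s

/-! ## The certificate -/

namespace Geo

variable (G : Geo m M) (τ : M → ℝ)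

/-- the multipliers are smooth where this function is positive -/
def sg (q : M) : ℝ := G.Gam τ τ q + G.A2 q

/-- the density of the flux -/
def nu (q : M) : ℝ := Real.exp (-(m - 2) * τ q) * G.Gam τ τ q

/-- the first scale invariant density -/
def II (q : M) : ℝ := Real.exp (-(m - 4) * τ q) * G.Gam τ τ q ^ 2

/-- the second scale invariant density -/
def EE (q : M) : ℝ := Real.exp (-(m - 4) * τ q) * (G.A2 q * G.Gam τ τ q)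

/-- the distribution of the density `w` on the levels of `τ` -/
def push (U : Set M) (w : M → ℝ) : Measure ℝ :=
  ((G.μ.restrict U).withDensity fun q => ENNReal.ofReal (w q)).map τ

end Geo

/-- a weight `ρ` for the stability inequality and a field `X` whose divergence is integrated;
`a` stands for `ζ (τ)` and `b` for `ζ' (τ)` -/
structure Mult (G : Geo m M) (U : Set M) (τ ρ : M → ℝ) (X : Fin (m + 1) → M → ℝ)
    (gain : M → ℝ → ℝ → ℝ) : Prop where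
  sm : ∀ q ∈ U, 0 < G.sg τ q → G.Sm ρ q ∧ ∀ i, G.Sm (X i) q
  nn : ∀ q ∈ U, 0 < G.sg τ q → 0 ≤ ρ q
  bd : ∀ K ⊆ U, IsCompact K → ∃ C, ∀ q ∈ K, 0 < G.sg τ q → ρ q ≤ C * G.sg τ q ∧
    G.Gam ρ ρ q ≤ C * G.sg τ q ∧ ∑ i, X i q ^ 2 ≤ C * G.sg τ q
  pt : ∀ q ∈ U, 0 < G.sg τ q → ∃ θ ≥ (0 : ℝ), G.Gam ρ ρ q ≤ 4 * ρ q * θ ∧ ∀ a b : ℝ,
    gain q a b ≤ a ^ 2 * (G.Div X q + G.A2 q * ρ q - θ) -
      a * b * (G.Gam τ ρ q - 2 * ∑ i, X i q * G.δ i τ q) - b ^ 2 * (ρ q * G.Gam τ τ q)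

/-- the certificates for one function `τ` -/
structure Cert (G : Geo m M) (U : Set M) (τ : M → ℝ) : Prop where
  pos : ∀ y ∈ Ioc (0 : ℝ) 1, ∃ ρ X, ∃ c > (0 : ℝ), ∃ C ≥ (0 : ℝ), Mult G U τ ρ X fun q a b =>
    (c * a ^ 2 - C * (b + y * a) ^ 2) * (G.II τ q + G.EE τ q)
  zero : ∃ ρ X, ∃ c > (0 : ℝ), ∃ κ ≥ (0 : ℝ), ∃ C ≥ (0 : ℝ), Mult G U τ ρ X fun q a b =>
    (c * a ^ 2 - C * b ^ 2) * G.EE τ q - κ * (2 * a * b + C * b ^ 2) * G.II τ q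

/-! ## The rows -/

/-- quantification over the leaves of dimension at least `4` -/
def ForL (P : ∀ (m : ℕ) (M : Type) [MetricSpace M] [MeasurableSpace M], Leaf m M → Prop) : Prop :=
  ∀ (m : ℕ) (M : Type) [MetricSpace M] [ProperSpace M] [MeasurableSpace M] [BorelSpace M]
    (L : Leaf m M), 4 ≤ m → L.Ok → P m M L

/-- quantification over the calculi of dimension at least `4` -/
def ForG (P : ∀ (m : ℕ) (M : Type) [MetricSpace M] [MeasurableSpace M], Geo m M → Prop) : Prop :=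
  ∀ (m : ℕ) (M : Type) [MetricSpace M] [ProperSpace M] [MeasurableSpace M] [BorelSpace M]
    (G : Geo m M), 4 ≤ m → P m M G

/-- **BERN**: the theorem of block (Ia) in dimension `m` -/
def BERN (m : ℕ) : Prop :=
  ∀ (M : Type) [MetricSpace M] [ProperSpace M] [MeasurableSpace M] [BorelSpace M]
    (L : Leaf m M), L.Ok → L.geo.Stable → ∀ p, fderiv ℝ (fderiv ℝ (L.h p)) 0 = 0

/-- **CERT**: the pointwise certificates in dimension `m` -/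
def CERT (m : ℕ) : Prop :=
  ∀ (M : Type) [MetricSpace M] [ProperSpace M] [MeasurableSpace M] [BorelSpace M]
    (G : Geo m M) (U : Set M) (τ : M → ℝ), Calc G → IsOpen U → (∀ q ∈ U, G.Sm τ q) →
    (∀ q ∈ U, G.Lap τ q = (m - 2) * G.Gam τ τ q) → Cert G U τ

def K1 : Prop := ForL fun _ _ _ _ L => Core L.geo
def K2 : Prop := ForL fun _ _ _ _ L => Core L.geo → Rule L.geo → Rule2 L.geo → Chart L →
  Meas L.geo
def K3 : Prop := ForG fun _ _ _ _ G => Core G → Rule G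
def K4 : Prop := ForG fun _ _ _ _ G => Core G → Rule G → Rule2 G
def K5 : Prop := ForG fun _ _ _ _ G => Core G → Rule G → Rule2 G → Meas G → Ibp G
def K6 : Prop := ForL fun _ _ _ _ L => ∀ p, L.geo.A2 p = 0 → fderiv ℝ (fderiv ℝ (L.h p)) 0 = 0
def L0 : Prop := ForL fun _ _ _ _ L => Core L.geo → Rule L.geo → Rule2 L.geo → Chart L
def L1 : Prop := ForL fun _ _ _ _ L => Chart L → L.geo.Lipz ∧ L.geo.Grd ∧ L.geo.Har
def L2 : Prop := ForL fun _ _ _ _ L => Calc L.geo → Chart L → L.geo.Hyp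
def X1 : Prop := ForG fun _ _ _ _ G => Calc G → Loc G → G.Res

/-- the powers of the regularised distance -/
def G1 : Prop := ForG fun m _ _ _ G => Calc G → ∀ p q (e a : ℝ), 0 < G.rr p q + e ^ 2 →
  G.Sm (G.W p e a) q ∧ 0 < G.W p e a q ∧
  G.Gam (G.W p e a) (G.W p e a) q = 4 * a ^ 2 * G.W p e (a + 1) q ^ 2 * (G.rr p q - G.JJ p q ^ 2) ∧
  G.Lap (G.W p e a) q = G.W p e (a + 2) q *
    (4 * a * (a + 1) * (G.rr p q - G.JJ p q ^ 2) - 2 * m * a * (G.rr p q + e ^ 2))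

/-- upper bounds by the maximum principle -/
def Up (G : Geo m M) : Prop := ∀ p χ e u, Bmp G p χ → Sol G p χ e u →
  (∀ q, 0 ≤ u q ∧ u q ≤ G.W p e ((m - 2) / 2) q) ∧
  ∀ d η, 1 ≤ d → 0 ≤ η → (∀ q, dist q p = d → u q ≤ η) → ∀ q, d ≤ dist q p → u q ≤ η

/-- the lower bound at the pole -/
def Low (G : Geo m M) : Prop := ∀ p χ, Bmp G p χ → ∃ C, ∀ e u, Sol G p χ e u →
  ∀ q, dist q p ≤ 1 / 4 → G.W p e ((m - 2) / 2) q - C * G.W p e ((m - 3) / 2) q ≤ u q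

/-- the volume of the level sets -/
def Vol (G : Geo m M) : Prop := ∀ p χ, Bmp G p χ → ∀ η > (0 : ℝ), ∃ C : ℝ≥0, ∀ e u,
  Sol G p χ e u → G.μ {q | η ≤ u q} ≤ C

/-- uniform decay -/
def Far (G : Geo m M) : Prop := ∀ p χ, Bmp G p χ → ∀ η > (0 : ℝ), ∃ d, ∀ e u,
  Sol G p χ e u → ∀ q, d ≤ dist q p → u q ≤ η

/-- limits of almost harmonic functions -/
def Lim (G : Geo m M) : Prop := ∀ (O : Set M) (u : ℕ → M → ℝ) (F : Ultrafilter ℕ), IsOpen O →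
  (∀ k, ∀ q ∈ O, G.Sm (u k) q) →
  (∀ K ⊆ O, IsCompact K → (∃ C, ∀ k, ∀ q ∈ K, |u k q| ≤ C ∧ |G.Lap (u k) q| ≤ C) ∧
    ∀ η > (0 : ℝ), ∀ᶠ k in F, ∀ q ∈ K, |G.Lap (u k) q| ≤ η) →
  ∃ g : M → ℝ, ∀ q ∈ O, G.Sm g q ∧ G.Lap g q = 0 ∧ Tendsto (fun k => u k q) F (𝓝 (g q))

/-- the gradient at the pole -/
def Pol (G : Geo m M) : Prop := ∀ p g, Pre G p g → ∀ η > (0 : ℝ), ∀ᶠ q in 𝓝[≠] p,
  |g q ^ (-(2 * (m - 1) / (m - 2) : ℝ)) * G.Gam g g q / (m - 2) ^ 2 - 1| ≤ η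

def G2 : Prop := G1 → ForG fun _ _ _ _ G => Calc G → Up G
def G3 : Prop := G1 → ForG fun _ _ _ _ G => Calc G → Up G → Low G
def G4 : Prop := G1 → ForG fun _ _ _ _ G => Calc G → Up G → Vol G
def G5 : Prop := ForG fun _ _ _ _ G => Calc G → Loc G → Up G → Vol G → Far G
def G6 : Prop := ForG fun _ _ _ _ G => Calc G → Loc G → Lim G
def G7 : Prop := G1 → ForG fun _ _ _ _ G => Calc G → G.Res → Up G → Low G → Far G → Lim G →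
  ∀ p, ∃ g, Pre G p g
def G8 : Prop := G1 → ForG fun _ _ _ _ G => Calc G → Loc G → Pol G
def G9 : Prop := ForG fun _ _ _ _ G => Calc G → Loc G → Pol G → ∀ p g, Pre G p g →
  ∃ U τ, Grn G p U τ

/-- test functions on the line -/
def Tst (ζ : ℝ → ℝ) : Prop := ContDiff ℝ ∞ ζ ∧ HasCompactSupport ζ

/-- nonnegative continuous functions with compact support in `S` -/
def Cc (S : Set ℝ) (φ : ℝ → ℝ) : Prop :=
  Continuous φ ∧ HasCompactSupport φ ∧ (∀ t, 0 ≤ φ t) ∧ ∀ t ∉ S, φ t = 0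

/-- integrals on the levels -/
def Push (G : Geo m M) : Prop := ∀ p U τ, Grn G p U τ → ∀ w : M → ℝ, ContinuousOn w U →
  (∀ q ∈ U, 0 ≤ w q) → IsFiniteMeasureOnCompacts (G.push τ U w) ∧
    (∀ φ : ℝ → ℝ, Continuous φ → HasCompactSupport φ →
      IntegrableOn (fun q => φ (τ q) * w q) U G.μ ∧
      ∫ t, φ t ∂G.push τ U w = ∫ q in U, φ (τ q) * w q ∂G.μ) ∧
    (G.push τ U w = 0 → ∀ q ∈ U, w q = 0)

/-- the flux is constant -/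
def Flux (G : Geo m M) : Prop := ∀ p U τ, Grn G p U τ → ∀ Ψ, Tst Ψ →
  ∫ q in U, deriv Ψ (τ q) * G.nu τ q ∂G.μ = 0

/-- the integrated certificate -/
def Intg (G : Geo m M) : Prop := G.Stable → ∀ p U τ, Grn G p U τ → ∀ ρ X gain,
  Mult G U τ ρ X gain → (∀ q ∈ U, gain q 0 0 = 0) →
  (∀ q ∈ U, G.sg τ q = 0 → ∀ a b, gain q a b = 0) → ∀ ζ, Tst ζ →
  ContinuousOn (fun q => gain q (ζ (τ q)) (deriv ζ (τ q))) U →
  ∫ q in U, gain q (ζ (τ q)) (deriv ζ (τ q)) ∂G.μ ≤ 0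

/-- the consequence of the comparison with the extrinsic distance -/
def Rb (G : Geo m M) : Prop := ∀ p U τ, Grn G p U τ → ∀ w, Tst w → (∀ t, 0 ≤ w t) →
  ∫ q in U, w (τ q) * G.nu τ q ∂G.μ - ∫ q in U, w (τ q) * G.II τ q ∂G.μ ≤
    ∫ q in U, (|deriv w (τ q)| + |deriv (deriv w) (τ q)|) * G.nu τ q ∂G.μ

def I1 : Prop := ForG fun _ _ _ _ G => Calc G → Push G
def I2 : Prop := ForG fun _ _ _ _ G => Calc G → Flux G
def I3 : Prop := ForG fun _ _ _ _ G => Calc G → Intg G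
def I4 : Prop := ForG fun _ _ _ _ G => Calc G → Rb G

/-- a measure on the line with derivative zero -/
def D0 : Prop := ∀ ν : Measure ℝ, IsFiniteMeasureOnCompacts ν →
  (∀ Ψ, Tst Ψ → ∫ t, deriv Ψ t ∂ν = 0) → ∃ c : ℝ≥0, ν = c • (volume : Measure ℝ)

/-- the growth is subexponential -/
def D1 : Prop := ∀ J : Measure ℝ, IsFiniteMeasureOnCompacts J →
  (∃ C, ∀ φ, Cc (Ici 0) φ → ∫ t, φ t ∂J ≤ C * ∫ t, φ t * Real.exp (2 * t)) →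
  (∀ y ∈ Ioc (0 : ℝ) 1, ∃ C, ∀ ζ, Tst ζ →
    ∫ t, ζ t ^ 2 ∂J ≤ C * ∫ t, (deriv ζ t + y * ζ t) ^ 2 ∂J) →
  ∀ y > (0 : ℝ), IntegrableOn (fun t => Real.exp (-2 * y * t)) (Ici 0) J

/-- the end of the proof -/
def D2 : Prop := ∀ (I J : Measure ℝ) (c₀ c κ C : ℝ), IsFiniteMeasureOnCompacts I →
  IsFiniteMeasureOnCompacts J → 0 ≤ c₀ → 0 < c → 0 ≤ κ → 0 ≤ C →
  (∀ η > (0 : ℝ), ∃ s, ∀ φ, Cc (Iic s) φ → ∫ t, φ t ∂I ≤ (1 + η) * c₀ * ∫ t, φ t) →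
  (∃ B, ∀ φ, Cc (Iic 0) φ → ∫ t, φ t ∂J ≤ B * ∫ t, φ t) →
  (∀ w, Tst w → (∀ t, 0 ≤ w t) →
    c₀ * (∫ t, w t) - ∫ t, w t ∂I ≤ c₀ * ∫ t, (|deriv w t| + |deriv (deriv w) t|)) →
  (∀ y > (0 : ℝ), IntegrableOn (fun t => Real.exp (-2 * y * t)) (Ici 0) I ∧
    IntegrableOn (fun t => Real.exp (-2 * y * t)) (Ici 0) J) →
  (∀ ζ, Tst ζ → ∫ t, (c * ζ t ^ 2 - C * deriv ζ t ^ 2) ∂J ≤
    κ * ∫ t, (2 * ζ t * deriv ζ t + C * deriv ζ t ^ 2) ∂I) → J = 0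

/-- the assembly of the integral part -/
def I5 : Prop := D0 → D1 → D2 → ForG fun _ _ _ _ G => Calc G → Push G → Flux G → Intg G → Rb G →
  G.Stable → ∀ p U τ, Grn G p U τ → Cert G U τ → G.A2 p = 0

/-- **the frame** -/
theorem bern_of (k1 : K1) (k2 : K2) (k3 : K3) (k4 : K4) (k5 : K5) (k6 : K6) (l0 : L0) (l1 : L1)
    (l2 : L2) (x1 : X1) (g1 : G1) (g2 : G2) (g3 : G3) (g4 : G4) (g5 : G5) (g6 : G6) (g7 : G7)
    (g8 : G8) (g9 : G9) (i1 : I1) (i2 : I2) (i3 : I3) (i4 : I4) (i5 : I5) (d0 : D0) (d1 : D1)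
    (d2 : D2) (hm : 4 ≤ m) (hc : CERT m) : BERN m := by
  intro M _ _ _ _ L ok st p
  have c1 := k1 m M L hm ok
  have c3 := k3 m M _ hm c1
  have c4 := k4 m M _ hm c1 c3
  have ch := l0 m M L hm ok c1 c3 c4
  have c2 := k2 m M L hm ok c1 c3 c4 ch
  have C : Calc L.geo := ⟨c1, c2, c3, c4, k5 m M _ hm c1 c3 c4 c2⟩
  obtain ⟨a1, a2, a3⟩ := l1 m M L hm ok ch
  have lc : Loc L.geo := ⟨a1, a2, a3, l2 m M L hm ok C ch⟩
  have up := g2 g1 m M _ hm C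
  obtain ⟨g, hg⟩ := g7 g1 m M _ hm C (x1 m M _ hm C lc) up (g3 g1 m M _ hm C up)
    (g5 m M _ hm C lc up (g4 g1 m M _ hm C up)) (g6 m M _ hm C lc) p
  obtain ⟨U, τ, hτ⟩ := g9 m M _ hm C lc (g8 g1 m M _ hm C lc) p g hg
  exact k6 m M L hm ok p (i5 d0 d1 d2 m M _ hm C (i1 m M _ hm C) (i2 m M _ hm C)
    (i3 m M _ hm C) (i4 m M _ hm C) st p U τ hτ (hc M _ U τ C hτ.opn hτ.sm hτ.eq))

end Vale.Agent.P134L
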