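import Vale.Agent.P134L.Bern
import Vale.Agent.P134I.Cert
import Vale.Agent.P134Q.Cert

/-!
# Complete stable minimal hypersurfaces of dimension six with bounded curvature are flat
-/

namespace Vale.Agent.P134L

/-- **block (Ia)** -/
theorem bern6 : BERN 6 := bern (by norm_num) (P134I.cert6 P134Q.cert)

end Vale.Agent.P134L
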