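import Vale.Agent.P134L.Defs

/-!
# A measure on the line with derivative zero is a multiple of the Lebesgue measure
-/

set_option linter.all false

open MeasureTheory Set Filter Metric Topology
open scoped ContDiff NNReal

noncomputable section

namespace Vale.Agent.P134L

namespace D0

theorem prim {φ : ℝ → ℝ} (h : Tst φ) (h0 : ∫ t, φ t = 0) : ∃ Ψ, Tst Ψ ∧ deriv Ψ = φ := by
  obtain ⟨R, hR⟩ := h.2.isCompact.isBounded.subset_ball 0
  have hz : ∀ t, R ≤ |t| → φ t = 0 := fun t ht => by
    by_contra hne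
    have := hR (subset_tsupport _ hne)
    rw [mem_ball_zero_iff, Real.norm_eq_abs] at this
    linarith
  have hc := h.1.continuous
  have hd : ∀ t, HasDerivAt (fun u => ∫ x in (-|R|)..u, φ x) (φ t) t := fun t =>
    (hc.integral_hasStrictDerivAt _ t).hasDerivAt
  have hD : deriv (fun u => ∫ x in (-|R|)..u, φ x) = φ := funext fun t => (hd t).deriv
  refine ⟨fun u => ∫ x in (-|R|)..u, φ x, ⟨?_, ?_⟩, hD⟩
  · rw [contDiff_infty_iff_deriv, hD]
    exact ⟨fun t => (hd t).differentiableAt, h.1⟩
  · refine HasCompactSupport.intro (isCompact_Icc (a := -|R|) (b := |R|)) fun t ht => ?_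
    rcases lt_or_ge t (-|R|) with h1 | h1
    · rw [intervalIntegral.integral_congr (g := fun _ => 0), intervalIntegral.integral_zero]
      intro x hx
      rw [uIcc_of_ge h1.le] at hx
      refine hz x ((le_abs_self R).trans ?_)
      exact le_abs.2 (Or.inr (by linarith [hx.2]))
    · have h2 : |R| < t := not_le.1 fun h2 => ht ⟨h1, h2⟩
      rw [intervalIntegral.integral_eq_integral_of_support_subset, h0]
      intro x hx
      have h3 : |x| < |R| := (not_le.1 fun h3 => hx (hz x h3)).trans_le (le_abs_self R)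
      have h4 := abs_lt.1 h3
      exact ⟨h4.1, by linarith [h4.2]⟩

theorem lin (ν : Measure ℝ) [IsFiniteMeasureOnCompacts ν]
    (h : ∀ Ψ, Tst Ψ → ∫ t, deriv Ψ t ∂ν = 0) :
    ∃ c : ℝ, 0 ≤ c ∧ ∀ φ, Tst φ → ∫ t, φ t ∂ν = c * ∫ t, φ t := by
  let f : ContDiffBump (0 : ℝ) := ⟨1, 2, one_pos, one_lt_two⟩
  have f1 : ContDiff ℝ ∞ (f.normed volume) := f.contDiff_normed
  have f2 : HasCompactSupport (f.normed volume) := f.hasCompactSupport_normed
  refine ⟨∫ t, f.normed volume t ∂ν, integral_nonneg fun t => f.nonneg_normed t, fun φ hφ => ?_⟩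
  have hi : ∀ (μ : Measure ℝ) [IsFiniteMeasureOnCompacts μ],
      ∫ t, (φ t - (∫ s, φ s) * f.normed volume t) ∂μ =
        ∫ t, φ t ∂μ - (∫ s, φ s) * ∫ t, f.normed volume t ∂μ := fun μ _ => by
    rw [integral_sub (hφ.1.continuous.integrable_of_hasCompactSupport hφ.2)
      ((f1.continuous.integrable_of_hasCompactSupport f2).const_mul _), integral_const_mul]
  obtain ⟨Ψ, h1, h2⟩ := prim (φ := fun t => φ t - (∫ s, φ s) * f.normed volume t)
    ⟨hφ.1.sub (contDiff_const.mul f1), hφ.2.sub f2.mul_left⟩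
    (by rw [hi, f.integral_normed]; ring)
  have h3 := h Ψ h1
  rw [h2, hi] at h3
  linarith

/-- approximations of the indicator function of an interval -/
def ap (a b : ℝ) (n : ℕ) (t : ℝ) : ℝ :=
  Real.smoothTransition (n * (t - a)) * Real.smoothTransition (n * (b - t))

theorem ap_zero {a b t : ℝ} (n : ℕ) (h : t ∉ Ioo a b) : ap a b n t = 0 := by
  have hn : (0 : ℝ) ≤ n := n.cast_nonneg
  rcases le_or_gt t a with h1 | h1
  · rw [ap, Real.smoothTransition.zero_of_nonpos (x := n * (t - a))
      (mul_nonpos_of_nonneg_of_nonpos hn (by linarith)), zero_mul]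
  · have h2 : b ≤ t := not_lt.1 fun h2 => h ⟨h1, h2⟩
    rw [ap, Real.smoothTransition.zero_of_nonpos (x := n * (b - t))
      (mul_nonpos_of_nonneg_of_nonpos hn (by linarith)), mul_zero]

theorem ap_tst (a b : ℝ) (n : ℕ) : Tst (ap a b n) :=
  ⟨(Real.smoothTransition.contDiff.comp (contDiff_const.mul (contDiff_id.sub contDiff_const))).mul
    (Real.smoothTransition.contDiff.comp (contDiff_const.mul (contDiff_const.sub contDiff_id))),
    HasCompactSupport.intro (isCompact_Icc (a := a) (b := b)) fun t ht =>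
      ap_zero n fun h => ht (Ioo_subset_Icc_self h)⟩

theorem ap_lim (a b : ℝ) (μ : Measure ℝ) [IsFiniteMeasureOnCompacts μ] :
    Tendsto (fun n => ∫ t, ap a b n t ∂μ) atTop (𝓝 (μ.real (Ioo a b))) := by
  have hf : μ (Ioo a b) < ⊤ := (measure_mono Ioo_subset_Icc_self).trans_lt
    isCompact_Icc.measure_lt_top
  rw [← integral_indicator_one measurableSet_Ioo]
  refine tendsto_integral_of_dominated_convergence ((Ioo a b).indicator 1)
    (fun n => (ap_tst a b n).1.continuous.aestronglyMeasurable)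
    ((integrable_indicator_iff measurableSet_Ioo).2 (integrableOn_const hf.ne))
    (fun n => Eventually.of_forall fun t => ?_) (Eventually.of_forall fun t => ?_)
  · by_cases ht : t ∈ Ioo a b
    · rw [indicator_of_mem ht, ap, Real.norm_eq_abs, abs_of_nonneg
        (mul_nonneg (Real.smoothTransition.nonneg _) (Real.smoothTransition.nonneg _))]
      exact mul_le_one₀ (Real.smoothTransition.le_one _) (Real.smoothTransition.nonneg _)
        (Real.smoothTransition.le_one _)
    · rw [indicator_of_notMem ht, ap_zero n ht, norm_zero]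
  · by_cases ht : t ∈ Ioo a b
    · rw [indicator_of_mem ht]
      refine tendsto_const_nhds.congr' ?_
      have h1 := (tendsto_natCast_atTop_atTop (R := ℝ)).atTop_mul_const (sub_pos.2 ht.1)
      have h2 := (tendsto_natCast_atTop_atTop (R := ℝ)).atTop_mul_const (sub_pos.2 ht.2)
      filter_upwards [h1.eventually_ge_atTop 1, h2.eventually_ge_atTop 1] with n h3 h4
      rw [ap, Real.smoothTransition.one_of_one_le h3, Real.smoothTransition.one_of_one_le h4]
      simp
    · rw [indicator_of_notMem ht]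
      simpa [ap_zero _ ht] using (tendsto_const_nhds : Tendsto (fun _ : ℕ => (0 : ℝ)) atTop _)

end D0

theorem d0 : D0 := by
  intro ν hν h
  obtain ⟨c, hc, hl⟩ := D0.lin ν h
  lift c to ℝ≥0 using hc
  refine ⟨c, Real.measure_ext_Ioo_rat fun a b => ?_⟩
  have h1 := D0.ap_lim a b ν
  have h2 := (D0.ap_lim a b volume).const_mul (c : ℝ)
  simp only [hl _ (D0.ap_tst _ _ _)] at h1
  have h3 := tendsto_nhds_unique h1 h2
  have hf : ∀ (μ : Measure ℝ) [IsFiniteMeasureOnCompacts μ], μ (Ioo (a : ℝ) b) ≠ ⊤ := fun μ _ =>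
    ((measure_mono Ioo_subset_Icc_self).trans_lt isCompact_Icc.measure_lt_top).ne
  rw [Measure.smul_apply, ENNReal.smul_def, smul_eq_mul,
    ← ENNReal.toReal_eq_toReal_iff' (hf ν) (ENNReal.mul_ne_top ENNReal.coe_ne_top (hf volume)),
    ENNReal.toReal_mul]
  exact h3

end Vale.Agent.P134L
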