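import Vale.Agent.P134L.Defs

/-!
# Subexponential growth of a measure on the line
-/

open MeasureTheory Set Filter Metric Topology
open scoped ContDiff

noncomputable section

namespace Vale.Agent.P134L

namespace D1p

/-- the transition function -/
abbrev st : ℝ → ℝ := Real.smoothTransition

lemma st_sm : ContDiff ℝ ∞ st := Real.smoothTransition.contDiff

lemma st_d (t : ℝ) : HasDerivAt st (deriv st t) t :=
  ((st_sm.differentiable (by simp)) t).hasDerivAt

lemma dst_c : Continuous (deriv st) := st_sm.continuous_deriv (by simp)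

lemma dst0 {t : ℝ} (h : t < 0) : deriv st t = 0 := by
  have : st =ᶠ[𝓝 t] fun _ => (0 : ℝ) := by
    filter_upwards [Iio_mem_nhds h] with s hs
    exact Real.smoothTransition.zero_of_nonpos (le_of_lt hs)
  rw [this.deriv_eq]; simp

lemma dst1 {t : ℝ} (h : 1 < t) : deriv st t = 0 := by
  have : st =ᶠ[𝓝 t] fun _ => (1 : ℝ) := by
    filter_upwards [Ioi_mem_nhds h] with s hs
    exact Real.smoothTransition.one_of_one_le (le_of_lt hs)
  rw [this.deriv_eq]; simp

lemma dst_bd : ∃ B, ∀ t, deriv st t ^ 2 ≤ B := by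
  obtain ⟨B, hB⟩ := (isCompact_Icc (a := (0 : ℝ)) (b := 1)).bddAbove_image
    (dst_c.pow 2).continuousOn
  refine ⟨max B 0, fun t => ?_⟩
  by_cases h0 : t < 0
  · rw [dst0 h0]; simp
  by_cases h1 : 1 < t
  · rw [dst1 h1]; simp
  exact le_max_of_le_left (hB ⟨t, ⟨not_lt.1 h0, not_lt.1 h1⟩, rfl⟩)

lemma hcs {f : ℝ → ℝ} {a b : ℝ} (h1 : ∀ t, t < a → f t = 0) (h2 : ∀ t, b < t → f t = 0) :
    HasCompactSupport f := by
  refine HasCompactSupport.intro (isCompact_Icc (a := a) (b := b)) fun t ht => ?_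
  by_cases h : t < a
  · exact h1 t h
  · exact h2 t (by by_contra h'; exact ht ⟨not_lt.1 h, not_lt.1 h'⟩)

/-- the cut-off function -/
def eta (R t : ℝ) : ℝ := st t * st (R + 1 - t)

lemma eta_sm (R : ℝ) : ContDiff ℝ ∞ (eta R) :=
  st_sm.mul (st_sm.comp (contDiff_const.sub contDiff_id))

lemma eta_nn (R t : ℝ) : 0 ≤ eta R t :=
  mul_nonneg (Real.smoothTransition.nonneg _) (Real.smoothTransition.nonneg _)

lemma eta_le (R t : ℝ) : eta R t ≤ 1 :=
  mul_le_one₀ (Real.smoothTransition.le_one _) (Real.smoothTransition.nonneg _)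
    (Real.smoothTransition.le_one _)

lemma eta0 (R : ℝ) {t : ℝ} (h : t < 0) : eta R t = 0 := by
  simp [eta, st, Real.smoothTransition.zero_of_nonpos h.le]

lemma eta1 {R t : ℝ} (h : R + 1 < t) : eta R t = 0 := by
  simp [eta, st, Real.smoothTransition.zero_of_nonpos (show R + 1 - t ≤ 0 by linarith)]

lemma eta_one {R t : ℝ} (h1 : 1 ≤ t) (h2 : t ≤ R) : eta R t = 1 := by
  simp [eta, st, Real.smoothTransition.one_of_one_le h1,
    Real.smoothTransition.one_of_one_le (show 1 ≤ R + 1 - t by linarith)]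

lemma eta_d (R t : ℝ) : HasDerivAt (eta R)
    (deriv st t * st (R + 1 - t) - st t * deriv st (R + 1 - t)) t := by
  have h1 : HasDerivAt (fun t => st (R + 1 - t)) (deriv st (R + 1 - t) * (-1)) t :=
    (st_d (R + 1 - t)).comp t ((hasDerivAt_id' t).const_sub (R + 1))
  exact ((st_d t).fun_mul h1).congr_deriv (by ring)

variable {J : Measure ℝ} [IsFiniteMeasureOnCompacts J]

lemma intg {f : ℝ → ℝ} (a b : ℝ) (hf : Continuous f) (h1 : ∀ t, t < a → f t = 0)
    (h2 : ∀ t, b < t → f t = 0) : Integrable f J :=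
  hf.integrable_of_hasCompactSupport (hcs h1 h2)

lemma crit {f : ℝ → ℝ} (hf : Continuous f) (h0 : ∀ t, 0 ≤ f t) (I : ℝ)
    (h : ∀ R : ℝ, 1 ≤ R → ∫ t in Ioc 1 R, f t ∂J ≤ I) : IntegrableOn f (Ici 0) J := by
  have h1 : IntegrableOn f (Icc 0 1) J := hf.continuousOn.integrableOn_compact isCompact_Icc
  have h2 : IntegrableOn f (Ioi 1) J := by
    refine integrableOn_Ioi_of_intervalIntegral_norm_bounded (l := atTop) (b := fun R : ℝ => R) I 1
      (fun R => (hf.continuousOn.integrableOn_compact isCompact_Icc).mono_set Ioc_subset_Icc_self)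
      tendsto_id ?_
    filter_upwards [eventually_ge_atTop 1] with R hR
    rw [intervalIntegral.integral_of_le hR]
    simpa [Real.norm_of_nonneg (h0 _)] using h R hR
  refine (h1.union h2).mono_set fun t ht => ?_
  by_cases h : t ≤ 1
  · exact Or.inl ⟨ht, h⟩
  · exact Or.inr (not_le.1 h)

lemma low {f ψ : ℝ → ℝ} {R : ℝ} (hf : Continuous f) (hψ : Integrable ψ J) (h0 : ∀ t, 0 ≤ ψ t)
    (h : ∀ t ∈ Ioc 1 R, f t ≤ ψ t) : ∫ t in Ioc 1 R, f t ∂J ≤ ∫ t, ψ t ∂J :=
  (setIntegral_mono_on ((hf.continuousOn.integrableOn_compact isCompact_Icc).mono_set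
    Ioc_subset_Icc_self) hψ.integrableOn measurableSet_Ioc h).trans
    (setIntegral_le_integral hψ (Eventually.of_forall h0))

omit [IsFiniteMeasureOnCompacts J] in
lemma up {y y' : ℝ} (h : IntegrableOn (fun t => Real.exp (-2 * y * t)) (Ici 0) J) (hy : y ≤ y') :
    IntegrableOn (fun t => Real.exp (-2 * y' * t)) (Ici 0) J := by
  refine Integrable.mono' h (by fun_prop : Continuous _).aestronglyMeasurable ?_
  refine (ae_restrict_iff' measurableSet_Ici).2 (Eventually.of_forall fun t ht => ?_)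
  rw [Real.norm_of_nonneg (Real.exp_pos _).le]
  exact Real.exp_le_exp.2 (by nlinarith [mem_Ici.1 ht])

lemma start {C : ℝ} (hC : ∀ φ, Cc (Ici 0) φ → ∫ t, φ t ∂J ≤ C * ∫ t, φ t * Real.exp (2 * t))
    {y : ℝ} (hy : 1 < y) : IntegrableOn (fun t => Real.exp (-2 * y * t)) (Ici 0) J := by
  have hi : IntegrableOn (fun t => Real.exp (-(2 * (y - 1)) * t)) (Ici 0) :=
    (integrableOn_Ici_iff_integrableOn_Ioi).2 (exp_neg_integrableOn_Ioi 0 (by linarith))
  refine crit (by fun_prop) (fun t => (Real.exp_pos _).le)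
    (max C 0 * ∫ t in Ici 0, Real.exp (-(2 * (y - 1)) * t)) fun R _ => ?_
  have hc : Continuous fun t => eta R t * Real.exp (-2 * y * t) :=
    (eta_sm R).continuous.mul (by fun_prop)
  have hs : HasCompactSupport fun t => eta R t * Real.exp (-2 * y * t) :=
    hcs (a := 0) (b := R + 1) (fun t h => by rw [eta0 R h, zero_mul])
      (fun t h => by rw [eta1 h, zero_mul])
  have hn : ∀ t, 0 ≤ eta R t * Real.exp (-2 * y * t) := fun t =>
    mul_nonneg (eta_nn R t) (Real.exp_pos _).le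
  have h1 := hC _ ⟨hc, hs, hn, fun t ht => by rw [eta0 R (not_le.1 ht), zero_mul]⟩
  have h2 : ∫ t, eta R t * Real.exp (-2 * y * t) * Real.exp (2 * t) ≤
      ∫ t in Ici 0, Real.exp (-(2 * (y - 1)) * t) := by
    rw [← integral_indicator measurableSet_Ici]
    refine integral_mono_of_nonneg (Eventually.of_forall fun t =>
      mul_nonneg (hn t) (Real.exp_pos _).le) (hi.integrable_indicator measurableSet_Ici)
      (Eventually.of_forall fun t => ?_)
    by_cases ht : t < 0
    · simp only [eta0 R ht, zero_mul]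
      exact indicator_nonneg (fun s _ => (Real.exp_pos _).le) t
    · rw [indicator_of_mem (show t ∈ Ici (0 : ℝ) from not_lt.1 ht)]
      have : Real.exp (-2 * y * t) * Real.exp (2 * t) = Real.exp (-(2 * (y - 1)) * t) := by
        rw [← Real.exp_add]; congr 1; ring
      show eta R t * _ * _ ≤ _
      rw [mul_assoc, this]
      exact mul_le_of_le_one_left (Real.exp_pos _).le (eta_le R t)
  have h3 : 0 ≤ ∫ t, eta R t * Real.exp (-2 * y * t) * Real.exp (2 * t) :=
    integral_nonneg fun t => mul_nonneg (hn t) (Real.exp_pos _).le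
  calc _ ≤ ∫ t, eta R t * Real.exp (-2 * y * t) ∂J :=
        low (by fun_prop) (hc.integrable_of_hasCompactSupport hs) hn fun t ht => by
          rw [eta_one ht.1.le ht.2, one_mul]
    _ ≤ _ := h1
    _ ≤ max C 0 * ∫ t, eta R t * Real.exp (-2 * y * t) * Real.exp (2 * t) :=
        mul_le_mul_of_nonneg_right (le_max_left _ _) h3
    _ ≤ _ := mul_le_mul_of_nonneg_left h2 (le_max_right _ _)

/-- the weight -/
def wt (y μ δ t : ℝ) : ℝ := Real.exp (-y * t) / (Real.exp (-μ * t) + δ * Real.exp (μ * t))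

lemma den_pos {δ : ℝ} (hδ : 0 < δ) (μ t : ℝ) : 0 < Real.exp (-μ * t) + δ * Real.exp (μ * t) := by
  positivity

lemma wt_sm {δ : ℝ} (hδ : 0 < δ) (y μ : ℝ) : ContDiff ℝ ∞ (wt y μ δ) := by
  unfold wt
  exact ContDiff.div (by fun_prop) (by fun_prop) fun t => (den_pos hδ μ t).ne'

lemma wt_d {δ : ℝ} (hδ : 0 < δ) (y μ t : ℝ) : ∃ r, r ^ 2 ≤ μ ^ 2 ∧
    HasDerivAt (wt y μ δ) ((r - y) * wt y μ δ t) t := by
  have hd := den_pos hδ μ t
  have h1 : HasDerivAt (fun t => Real.exp (-y * t)) (Real.exp (-y * t) * (-y * 1)) t :=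
    ((hasDerivAt_id' t).const_mul (-y)).exp
  have h2 : HasDerivAt (fun t => Real.exp (-μ * t) + δ * Real.exp (μ * t))
      (Real.exp (-μ * t) * (-μ * 1) + δ * (Real.exp (μ * t) * (μ * 1))) t :=
    ((hasDerivAt_id' t).const_mul (-μ)).exp.fun_add
      (((hasDerivAt_id' t).const_mul μ).exp.const_mul δ)
  refine ⟨μ * ((Real.exp (-μ * t) - δ * Real.exp (μ * t)) /
    (Real.exp (-μ * t) + δ * Real.exp (μ * t))), ?_, ?_⟩
  · rw [mul_pow]
    refine mul_le_of_le_one_right (sq_nonneg _) ?_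
    rw [div_pow, div_le_one (by positivity)]
    have : 0 < Real.exp (-μ * t) * (δ * Real.exp (μ * t)) := by positivity
    nlinarith
  · have h3 := h1.fun_div h2 hd.ne'
    refine h3.congr_deriv ?_
    unfold wt
    field_simp
    ring

lemma wt_le1 {δ : ℝ} (hδ : 0 < δ) (y μ t : ℝ) :
    wt y μ δ t ^ 2 ≤ Real.exp (-2 * (y - μ) * t) := by
  have hd := den_pos hδ μ t
  have h1 : wt y μ δ t ≤ Real.exp (-y * t) / Real.exp (-μ * t) :=
    div_le_div_of_nonneg_left (Real.exp_pos _).le (Real.exp_pos _)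
      (le_add_of_nonneg_right (by positivity))
  have h0 : 0 ≤ wt y μ δ t := by unfold wt; positivity
  refine (pow_le_pow_left₀ h0 h1 2).trans (le_of_eq ?_)
  rw [← Real.exp_sub, ← Real.exp_nat_mul]; congr 1; push_cast; ring

lemma wt_le2 {δ : ℝ} (hδ : 0 < δ) (y μ t : ℝ) :
    wt y μ δ t ^ 2 ≤ δ⁻¹ ^ 2 * Real.exp (-2 * (y + μ) * t) := by
  have hd := den_pos hδ μ t
  have h1 : wt y μ δ t ≤ Real.exp (-y * t) / (δ * Real.exp (μ * t)) :=
    div_le_div_of_nonneg_left (Real.exp_pos _).le (by positivity)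
      (le_add_of_nonneg_left (by positivity))
  have h0 : 0 ≤ wt y μ δ t := by unfold wt; positivity
  refine (pow_le_pow_left₀ h0 h1 2).trans (le_of_eq ?_)
  have : Real.exp (-y * t) / (δ * Real.exp (μ * t)) = δ⁻¹ * Real.exp (-y * t - μ * t) := by
    rw [Real.exp_sub]; field_simp
  rw [this, mul_pow, ← Real.exp_nat_mul]; congr 2; push_cast; ring

lemma wt_ge {μ R t : ℝ} (hμ : 0 ≤ μ) (y : ℝ) (ht : t ≤ R) :
    Real.exp (-2 * (y - μ) * t) ≤ 4 * wt y μ (Real.exp (-2 * μ * R)) t ^ 2 := by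
  have hd := den_pos (Real.exp_pos (-2 * μ * R)) μ t
  have h2 : Real.exp (-2 * μ * R) * Real.exp (μ * t) ≤ Real.exp (-μ * t) := by
    rw [← Real.exp_add]; exact Real.exp_le_exp.2 (by nlinarith)
  have h1 : Real.exp (-y * t) / (2 * Real.exp (-μ * t)) ≤ wt y μ (Real.exp (-2 * μ * R)) t :=
    div_le_div_of_nonneg_left (Real.exp_pos _).le hd (by linarith)
  have h3 := pow_le_pow_left₀ (by positivity) h1 2
  have h4 : Real.exp (-2 * (y - μ) * t) = 4 * (Real.exp (-y * t) / (2 * Real.exp (-μ * t))) ^ 2 := by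
    have : Real.exp (-y * t) / (2 * Real.exp (-μ * t)) = Real.exp (-y * t - -μ * t) / 2 := by
      rw [Real.exp_sub]; field_simp
    rw [this, div_pow, ← Real.exp_nat_mul]
    have : ((2 : ℕ) : ℝ) * (-y * t - -μ * t) = -2 * (y - μ) * t := by push_cast; ring
    rw [this]; ring
  rw [h4]; linarith

lemma ptw {δ : ℝ} (hδ : 0 < δ) (y μ R t : ℝ) :
    (deriv (fun t => eta R t * wt y μ δ t) t + y * (eta R t * wt y μ δ t)) ^ 2 ≤
      2 * μ ^ 2 * (eta R t * wt y μ δ t) ^ 2 +
      4 * (deriv st t ^ 2 * Real.exp (-2 * (y - μ) * t)) +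
      4 * δ⁻¹ ^ 2 * (deriv st (R + 1 - t) ^ 2 * Real.exp (-2 * (y + μ) * t)) := by
  obtain ⟨r, hr, hw⟩ := wt_d hδ y μ t
  rw [((eta_d R t).fun_mul hw).deriv]
  have h1 := wt_le1 hδ y μ t
  have h2 := wt_le2 hδ y μ t
  have a0 := Real.smoothTransition.nonneg t
  have a1 := Real.smoothTransition.le_one t
  have b0 := Real.smoothTransition.nonneg (R + 1 - t)
  have b1 := Real.smoothTransition.le_one (R + 1 - t)
  set w := wt y μ δ t
  set p := deriv st t
  set q := deriv st (R + 1 - t)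
  set η := eta R t
  set a := st t
  set b := st (R + 1 - t)
  have ha : a ^ 2 ≤ 1 := by nlinarith
  have hb : b ^ 2 ≤ 1 := by nlinarith
  have e1 : (p * b - a * q) * w + η * ((r - y) * w) + y * (η * w) =
      (p * b - a * q) * w + r * (η * w) := by ring
  rw [e1]
  have e2 : (p * b - a * q) ^ 2 ≤ 2 * p ^ 2 + 2 * q ^ 2 := by
    nlinarith [sq_nonneg (p * b + a * q), mul_le_of_le_one_right (sq_nonneg p) hb,
      mul_le_of_le_one_right (sq_nonneg q) ha]
  have e3 : ((p * b - a * q) * w) ^ 2 ≤ 2 * (p ^ 2 * Real.exp (-2 * (y - μ) * t)) +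
      2 * δ⁻¹ ^ 2 * (q ^ 2 * Real.exp (-2 * (y + μ) * t)) := by
    rw [mul_pow]
    nlinarith [mul_le_mul_of_nonneg_right e2 (sq_nonneg w),
      mul_le_mul_of_nonneg_left h1 (sq_nonneg p), mul_le_mul_of_nonneg_left h2 (sq_nonneg q)]
  have e4 : (r * (η * w)) ^ 2 ≤ μ ^ 2 * (η * w) ^ 2 := by
    rw [mul_pow]; exact mul_le_mul_of_nonneg_right hr (sq_nonneg _)
  nlinarith [sq_nonneg ((p * b - a * q) * w - r * (η * w))]

omit [IsFiniteMeasureOnCompacts J] in
lemma tail {z : ℝ} (h : IntegrableOn (fun t => Real.exp (-2 * z * t)) (Ici 0) J) :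
    Tendsto (fun R : ℝ => ∫ t, deriv st (R + 1 - t) ^ 2 * Real.exp (-2 * z * t) ∂J) atTop
      (𝓝 0) := by
  obtain ⟨B, hB⟩ := dst_bd
  have hB0 : 0 ≤ B := (sq_nonneg _).trans (hB 0)
  have := tendsto_integral_filter_of_dominated_convergence (μ := J) (l := (atTop : Filter ℝ))
    (F := fun R t => deriv st (R + 1 - t) ^ 2 * Real.exp (-2 * z * t)) (f := fun _ => 0)
    (fun t => B * (Ici (0 : ℝ)).indicator (fun t => Real.exp (-2 * z * t)) t)
    (Eventually.of_forall fun R => (((dst_c.comp (by fun_prop)).pow 2).mul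
      (by fun_prop : Continuous fun t => Real.exp (-2 * z * t))).aestronglyMeasurable)
    ?_ ((h.integrable_indicator measurableSet_Ici).const_mul B) ?_
  · simpa using this
  · filter_upwards [eventually_ge_atTop 0] with R hR
    refine Eventually.of_forall fun t => ?_
    rw [Real.norm_of_nonneg (by positivity)]
    by_cases ht : t < 0
    · rw [dst1 (by linarith), indicator_of_notMem (by simpa using ht)]; simp
    · rw [indicator_of_mem (show t ∈ Ici (0 : ℝ) from not_lt.1 ht)]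
      exact mul_le_mul_of_nonneg_right (hB _) (Real.exp_pos _).le
  · refine Eventually.of_forall fun t => tendsto_const_nhds.congr' ?_
    filter_upwards [eventually_gt_atTop t] with R hR
    rw [dst1 (by linarith)]; simp

lemma step {y μ C : ℝ} (hC : 0 < C) (hμ : 0 ≤ μ) (h4 : 4 * C * μ ^ 2 ≤ 1)
    (H : ∀ ζ, Tst ζ → ∫ t, ζ t ^ 2 ∂J ≤ C * ∫ t, (deriv ζ t + y * ζ t) ^ 2 ∂J)
    (h : IntegrableOn (fun t => Real.exp (-2 * (y + μ) * t)) (Ici 0) J) :
    IntegrableOn (fun t => Real.exp (-2 * (y - μ) * t)) (Ici 0) J := by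
  set K := ∫ t, deriv st t ^ 2 * Real.exp (-2 * (y - μ) * t) ∂J with hK
  refine crit (by fun_prop) (fun t => (Real.exp_pos _).le) (8 * C * (4 * K + 1)) fun R₀ _ => ?_
  set δ := Real.exp (-2 * μ * R₀) with hδ'
  have hδ : 0 < δ := Real.exp_pos _
  have ht := (tail h).const_mul (4 * δ⁻¹ ^ 2)
  rw [mul_zero] at ht
  obtain ⟨R, hR1, hR⟩ := ((ht.eventually (eventually_le_nhds one_pos)).and
    (eventually_ge_atTop R₀)).exists
  have hs : ContDiff ℝ ∞ fun t => eta R t * wt y μ δ t := (eta_sm R).mul (wt_sm hδ y μ)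
  have hc : HasCompactSupport fun t => eta R t * wt y μ δ t :=
    hcs (a := 0) (b := R + 1) (fun t h => by rw [eta0 R h, zero_mul])
      (fun t h => by rw [eta1 h, zero_mul])
  have i1 : Integrable (fun t => (eta R t * wt y μ δ t) ^ 2) J :=
    intg 0 (R + 1) (hs.continuous.pow 2) (fun t h => by rw [eta0 R h]; simp)
      (fun t h => by rw [eta1 h]; simp)
  have i2 : Integrable (fun t => deriv st t ^ 2 * Real.exp (-2 * (y - μ) * t)) J :=
    intg 0 1 ((dst_c.pow 2).mul (by fun_prop)) (fun t h => by rw [dst0 h]; simp)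
      (fun t h => by rw [dst1 h]; simp)
  have i3 : Integrable (fun t => deriv st (R + 1 - t) ^ 2 * Real.exp (-2 * (y + μ) * t)) J :=
    intg R (R + 1) (((dst_c.comp (by fun_prop)).pow 2).mul (by fun_prop))
      (fun t h => by rw [dst1 (by linarith)]; simp) (fun t h => by rw [dst0 (by linarith)]; simp)
  have h1 := H _ ⟨hs, hc⟩
  have h2 := integral_mono_of_nonneg (μ := J) (Eventually.of_forall fun t => sq_nonneg _)
    (((i1.const_mul (2 * μ ^ 2)).add (i2.const_mul 4)).add (i3.const_mul (4 * δ⁻¹ ^ 2)))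
    (Eventually.of_forall fun t => ptw hδ y μ R t)
  simp only [Pi.add_apply] at h2
  have i12 : Integrable (fun t => 2 * μ ^ 2 * (eta R t * wt y μ δ t) ^ 2 +
      4 * (deriv st t ^ 2 * Real.exp (-2 * (y - μ) * t))) J :=
    (i1.const_mul (2 * μ ^ 2)).add (i2.const_mul 4)
  rw [integral_add i12 (i3.const_mul _),
    integral_add (i1.const_mul _) (i2.const_mul _), integral_const_mul, integral_const_mul,
    integral_const_mul, ← hK] at h2
  have h3 : ∫ t in Ioc 1 R₀, Real.exp (-2 * (y - μ) * t) ∂J ≤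
      ∫ t, 4 * (eta R t * wt y μ δ t) ^ 2 ∂J :=
    low (by fun_prop) (i1.const_mul 4) (fun t => by positivity) fun t ht => by
      rw [eta_one ht.1.le (ht.2.trans hR), one_mul]
      exact wt_ge hμ y ht.2
  rw [integral_const_mul] at h3
  have h0 : 0 ≤ ∫ t, (eta R t * wt y μ δ t) ^ 2 ∂J := integral_nonneg fun t => sq_nonneg _
  set Z := ∫ t, (eta R t * wt y μ δ t) ^ 2 ∂J
  have h5 := h1.trans (mul_le_mul_of_nonneg_left (h2.trans (add_le_add le_rfl hR1)) hC.le)
  nlinarith [mul_le_mul_of_nonneg_right h4 h0]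

end D1p

open D1p in
theorem d1 : D1 := by
  rintro J hJ ⟨C, hC⟩ H y₀ hy₀
  by_contra hn
  set B : Set ℝ := {y | ¬ IntegrableOn (fun t => Real.exp (-2 * y * t)) (Ici 0) J} with hB
  have hne : B.Nonempty := ⟨y₀, hn⟩
  have hub : ∀ y ∈ B, y ≤ 1 := fun y hy => by
    by_contra h
    exact hy (start hC (not_le.1 h))
  have hbd : BddAbove B := ⟨1, hub⟩
  have h0 : 0 < sSup B := hy₀.trans_le (le_csSup hbd hn)
  obtain ⟨C₁, hC₁⟩ := H (sSup B) ⟨h0, csSup_le hne hub⟩
  have hp : 0 < max C₁ 1 := lt_max_of_lt_right one_pos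
  have hμ : 0 < 1 / (2 * max C₁ 1) := by positivity
  have h1 : IntegrableOn (fun t => Real.exp (-2 * (sSup B + 1 / (2 * max C₁ 1)) * t)) (Ici 0) J := by
    by_contra h
    have := le_csSup hbd (show sSup B + 1 / (2 * max C₁ 1) ∈ B from h)
    linarith
  have h2 := step hp hμ.le ?_ (fun ζ hζ => (hC₁ ζ hζ).trans (mul_le_mul_of_nonneg_right
    (le_max_left _ _) (integral_nonneg fun t => sq_nonneg _))) h1
  · obtain ⟨b, hb, hlt⟩ := exists_lt_of_lt_csSup hne
      (show sSup B - 1 / (2 * max C₁ 1) < sSup B by linarith)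
    exact hb (up h2 hlt.le)
  · have h3 : 1 ≤ max C₁ 1 := le_max_right _ _
    have : 4 * max C₁ 1 * (1 / (2 * max C₁ 1)) ^ 2 = 1 / max C₁ 1 := by field_simp; ring
    rw [this, div_le_one hp]; exact h3

end Vale.Agent.P134L
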