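import Vale.Agent.P134L.Defs

/-!
# P134L, row D2: the end of the proof on the line
-/

open MeasureTheory Set Filter Metric Topology
open scoped ContDiff

noncomputable section

namespace Vale.Agent.P134L

namespace D2

def st (t : ℝ) : ℝ := Real.smoothTransition t
def d (t : ℝ) : ℝ := deriv st t
def σ (t : ℝ) : ℝ := st t + t * d t
def Θ (t : ℝ) : ℝ := Real.exp (-(t * st t))

@[fun_prop] theorem sm_st : ContDiff ℝ ∞ st := Real.smoothTransition.contDiff
@[fun_prop] theorem sm_d : ContDiff ℝ ∞ d := (contDiff_infty_iff_deriv.1 sm_st).2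
@[fun_prop] theorem sm_σ : ContDiff ℝ ∞ σ := by unfold σ; fun_prop
@[fun_prop] theorem sm_Θ : ContDiff ℝ ∞ Θ := by unfold Θ; fun_prop
@[fun_prop] theorem c_st : Continuous st := sm_st.continuous
@[fun_prop] theorem c_d : Continuous d := sm_d.continuous

variable {t : ℝ}

theorem hst (t : ℝ) : HasDerivAt st (d t) t := (sm_st.differentiable (by simp) t).hasDerivAt
theorem st0 (h : t ≤ 0) : st t = 0 := Real.smoothTransition.zero_of_nonpos h
theorem st1 (h : 1 ≤ t) : st t = 1 := Real.smoothTransition.one_of_one_le h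
theorem st_nn (t : ℝ) : 0 ≤ st t := Real.smoothTransition.nonneg t
theorem st_le (t : ℝ) : st t ≤ 1 := Real.smoothTransition.le_one t
theorem d_nn (t : ℝ) : 0 ≤ d t := Monotone.deriv_nonneg Real.smoothTransition.monotone
theorem d0 (h : t ≤ 0) : d t = 0 :=
  IsLocalMin.deriv_eq_zero (.of_forall fun s => (st0 h).trans_le (st_nn s))
theorem d1 (h : 1 ≤ t) : d t = 0 :=
  IsLocalMax.deriv_eq_zero (.of_forall fun s => (st_le s).trans_eq (st1 h).symm)

theorem cs {f : ℝ → ℝ} (a b : ℝ) (h : ∀ t, t < a ∨ b < t → f t = 0) : HasCompactSupport f :=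
  HasCompactSupport.intro (isCompact_Icc (a := a) (b := b)) fun t ht =>
    h t (by simpa only [mem_Icc, not_and_or, not_le] using ht)

theorem cs_d : HasCompactSupport d := cs 0 1 fun _ h => h.elim (d0 ·.le) (d1 ·.le)

theorem σ0 (h : t ≤ 0) : σ t = 0 := by simp [σ, st0 h, d0 h]
theorem Θ0 (h : t ≤ 0) : Θ t = 1 := by simp [Θ, st0 h]
theorem σ_nn (t : ℝ) : 0 ≤ σ t := by
  rcases le_total t 0 with h | h
  · rw [σ0 h]
  · exact add_nonneg (st_nn t) (mul_nonneg h (d_nn t))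

theorem exK : ∃ K, 0 < K ∧ ∀ t, d t ≤ K ∧ σ t ≤ K := by
  obtain ⟨G, hG⟩ := c_d.bounded_above_of_compact_support cs_d
  have h (t) : d t ≤ G := (le_abs_self _).trans (hG t)
  have G0 : 0 ≤ G := (d_nn 0).trans (h 0)
  refine ⟨1 + G, by linarith, fun t => ⟨by linarith [h t], add_le_add (st_le t) ?_⟩⟩
  rcases le_total t 1 with h1 | h1
  · nlinarith [h t, d_nn t]
  · simpa [d1 h1] using G0

theorem hΘ (t : ℝ) : HasDerivAt Θ (-(σ t * Θ t)) t := by
  refine HasDerivAt.congr_deriv ((hasDerivAt_id' t).fun_mul (hst t)).fun_neg.exp ?_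
  simp only [σ, Θ]
  ring

theorem Θ_pos (t : ℝ) : 0 < Θ t := Real.exp_pos _

theorem Θ_sq (t : ℝ) : Θ t ^ 2 ≤ Real.exp 2 * Real.exp (-2 * t) := by
  rw [Θ, ← Real.exp_add, sq, ← Real.exp_add, Real.exp_le_exp]
  rcases le_total t 1 with h | h
  · rcases le_total t 0 with h0 | h0
    · rw [st0 h0]; linarith
    · nlinarith [st_nn t]
  · rw [st1 h]; linarith

theorem sq_Θ (h : 0 ≤ t) : Real.exp (-2 * t) ≤ Θ t ^ 2 := by
  rw [Θ, sq, ← Real.exp_add, Real.exp_le_exp]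
  nlinarith [st_le t]

theorem scal (g : ℝ → ℝ) (b : ℝ) {ν : ℝ} (hν : 0 < ν) : ∫ t, ν * g (b + ν * t) = ∫ t, g t := by
  rw [integral_const_mul, Measure.integral_comp_mul_left (fun s => g (b + s)),
    integral_add_left_eq_self, abs_of_pos (inv_pos.2 hν), smul_eq_mul, mul_inv_cancel_left₀ hν.ne']

theorem int_sd : ∫ t, 2 * st t * d t = 1 := by
  have := integral_of_hasDerivAt_of_tendsto (f := fun t => st t ^ 2) (m := 0) (n := 1)
    (f' := fun t => 2 * st t * d t) (fun t => ((hst t).fun_pow 2).congr_deriv (by simp))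
    (Continuous.integrable_of_hasCompactSupport (by fun_prop) cs_d.mul_left)
    (tendsto_const_nhds.congr' ((eventually_le_atBot 0).mono fun t h => by simp [st0 h]))
    (tendsto_const_nhds.congr' ((eventually_ge_atTop 1).mono fun t h => by simp [st1 h]))
  simpa using this

/-- the truncated weight -/
def W (r t : ℝ) : ℝ := st (r + 1 - t) * (2 * σ t * Θ t ^ 2)

theorem W_nn (r t : ℝ) : 0 ≤ W r t :=
  mul_nonneg (st_nn _) (mul_nonneg (mul_nonneg zero_le_two (σ_nn t)) (sq_nonneg _))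

theorem W0 {r : ℝ} (h : t ≤ 0 ∨ r + 1 ≤ t) : W r t = 0 :=
  h.elim (fun h => by simp [W, σ0 h]) fun h => by simp [W, st0 (sub_nonpos.2 h)]

theorem tst_W (r : ℝ) : Tst (W r) :=
  ⟨by unfold W; fun_prop, cs 0 (r + 1) fun _ h => W0 (h.imp le_of_lt le_of_lt)⟩

theorem int_W {r : ℝ} (hr : 0 ≤ r) : 1 - Θ r ^ 2 ≤ ∫ t, W r t := by
  have h1 : ∫ t in (0 : ℝ)..r, 2 * σ t * Θ t ^ 2 = -Θ r ^ 2 - -Θ 0 ^ 2 :=
    intervalIntegral.integral_eq_sub_of_hasDerivAt (f := fun t => -Θ t ^ 2)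
      (fun t _ => ((hΘ t).fun_pow 2).fun_neg.congr_deriv (by simp; ring))
      (Continuous.intervalIntegrable (by have := sm_σ.continuous; have := sm_Θ.continuous; fun_prop)
        _ _)
  rw [Θ0 le_rfl, intervalIntegral.integral_of_le hr] at h1
  calc _ = ∫ t in Ioc 0 r, W r t := by
        rw [setIntegral_congr_fun measurableSet_Ioc (g := fun t => 2 * σ t * Θ t ^ 2) fun t ht => by
          simp only [W, st1 (show 1 ≤ r + 1 - t by linarith [ht.2]), one_mul], h1]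
        ring
    _ ≤ _ := setIntegral_le_integral
        ((tst_W r).1.continuous.integrable_of_hasCompactSupport (tst_W r).2) (.of_forall (W_nn r))

theorem cs_sc {w : ℝ → ℝ} (h : HasCompactSupport w) {μ : ℝ} (hμ : 0 < μ) :
    HasCompactSupport fun t => w (μ * t) :=
  h.comp_homeomorph (Homeomorph.mulLeft₀ μ hμ.ne')

/-- the third hypothesis for the scaled weight -/
theorem low {I : Measure ℝ} {c₀ μ : ℝ} {w : ℝ → ℝ} (hc : 0 ≤ c₀) (hw : Tst w) (w0 : ∀ t, 0 ≤ w t)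
    (h : ∀ w, Tst w → (∀ t, 0 ≤ w t) →
      c₀ * (∫ t, w t) - ∫ t, w t ∂I ≤ c₀ * ∫ t, (|deriv w t| + |deriv (deriv w) t|))
    (hμ : 0 < μ) (h1 : μ ≤ 1) :
    c₀ * ((∫ t, w t) - μ * ∫ t, (|deriv w t| + |deriv (deriv w) t|)) ≤ ∫ t, μ * w (μ * t) ∂I := by
  have s1 := (contDiff_infty_iff_deriv.1 hw.1).2
  have s2 := (contDiff_infty_iff_deriv.1 s1).2
  have e1 : deriv (fun t => μ * w (μ * t)) = fun t => μ * μ * deriv w (μ * t) := funext fun t => by
    rw [deriv_const_mul_field, deriv_comp_mul_left, smul_eq_mul, mul_assoc]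
  have e2 (t) : deriv (fun t => μ * μ * deriv w (μ * t)) t =
      μ * μ * μ * deriv (deriv w) (μ * t) := by
    rw [deriv_const_mul_field, deriv_comp_mul_left, smul_eq_mul, ← mul_assoc]
  have := h (fun t => μ * w (μ * t)) ⟨contDiff_const.mul (hw.1.comp (by fun_prop)),
    (cs_sc hw.2 hμ).mul_left⟩ fun t => mul_nonneg hμ.le (w0 _)
  have e0 := scal w 0 hμ
  have e3 := scal (fun t => |deriv w t| + |deriv (deriv w) t|) 0 hμ
  simp only [zero_add] at e0 e3
  rw [e0, e1] at this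
  have i : ∫ t, (|μ * μ * deriv w (μ * t)| + |deriv (fun t => μ * μ * deriv w (μ * t)) t|) ≤
      μ * ∫ t, (|deriv w t| + |deriv (deriv w) t|) := by
    rw [← e3, ← integral_const_mul]
    refine integral_mono_of_nonneg (.of_forall fun t => by positivity)
      (Continuous.integrable_of_hasCompactSupport
        (by have := s1.continuous; have := s2.continuous; fun_prop)
        (cs_sc (hw.2.deriv.abs.add hw.2.deriv.deriv.abs) hμ).mul_left.mul_left)
      (.of_forall fun t => ?_)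
    simp only [e2, abs_mul, abs_of_pos hμ]
    have := mul_le_mul_of_nonneg_right h1
      (show 0 ≤ μ * μ * |deriv (deriv w) (μ * t)| by positivity)
    nlinarith
  nlinarith [mul_le_mul_of_nonneg_left i hc]

/-- the test function -/
def ζ (ν μ R t : ℝ) : ℝ := st (2 + ν * t) * Θ (μ * t) * st (R + 1 - t)

variable {ν μ R : ℝ}

theorem tst_ζ (hν : 0 < ν) : Tst (ζ ν μ R) :=
  ⟨by unfold ζ; fun_prop, cs (-2 / ν) (R + 1) fun t h => h.elim
    (fun h => by rw [lt_div_iff₀ hν] at h; simp [ζ, st0 (show 2 + ν * t ≤ 0 by linarith)])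
    fun h => by simp [ζ, st0 (sub_nonpos.2 h.le)]⟩

theorem dζ (t : ℝ) : deriv (ζ ν μ R) t = ν * d (2 + ν * t) * Θ (μ * t) * st (R + 1 - t) -
    μ * σ (μ * t) * ζ ν μ R t - st (2 + ν * t) * Θ (μ * t) * d (R + 1 - t) := by
  have a := (hst (2 + ν * t)).comp t (((hasDerivAt_id t).const_mul ν).const_add 2)
  have b := (hΘ (μ * t)).comp t ((hasDerivAt_id t).const_mul μ)
  have c := (hst (R + 1 - t)).comp t ((hasDerivAt_id t).const_sub (R + 1))
  refine ((a.mul b).mul c).deriv.trans ?_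
  simp [ζ]
  ring

theorem neg (hμ : 0 < μ) (hR : 0 ≤ R) (h : t ≤ 0) :
    ζ ν μ R t = st (2 + ν * t) ∧ deriv (ζ ν μ R) t = ν * d (2 + ν * t) := by
  have h1 : μ * t ≤ 0 := mul_nonpos_of_nonneg_of_nonpos hμ.le h
  have h2 : 1 ≤ R + 1 - t := by linarith
  simp [dζ, ζ, Θ0 h1, σ0 h1, st1 h2, d1 h2]

/-- the tail -/
def tl (μ R : ℝ) : ℝ → ℝ := (Ici R).indicator fun t => Real.exp (-2 * μ * t)

theorem tl_nn (t : ℝ) : 0 ≤ tl μ R t := indicator_nonneg (fun _ _ => (Real.exp_pos _).le) t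

theorem pos {K : ℝ} (hK : ∀ t, d t ≤ K ∧ σ t ≤ K) (hν : 0 < ν) (h : 0 ≤ t) :
    ζ ν μ R t = Θ (μ * t) * st (R + 1 - t) ∧ d (2 + ν * t) = 0 ∧
    ζ ν μ R t * deriv (ζ ν μ R) t ≤ -(μ * σ (μ * t) * ζ ν μ R t ^ 2) ∧
    deriv (ζ ν μ R) t ^ 2 ≤ 2 * (μ * σ (μ * t) * ζ ν μ R t) ^ 2 +
      2 * (K ^ 2 * Real.exp 2 * tl μ R t) := by
  have h1 : 1 ≤ 2 + ν * t := by nlinarith
  have e : ζ ν μ R t = Θ (μ * t) * st (R + 1 - t) := by simp [ζ, st1 h1]
  have z0 : 0 ≤ ζ ν μ R t := e ▸ mul_nonneg (Θ_pos _).le (st_nn _)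
  have r0 : 0 ≤ Θ (μ * t) * d (R + 1 - t) := mul_nonneg (Θ_pos _).le (d_nn _)
  have r : (Θ (μ * t) * d (R + 1 - t)) ^ 2 ≤ K ^ 2 * Real.exp 2 * tl μ R t := by
    rcases lt_or_ge t R with hR | hR
    · rw [d1 (by linarith), mul_zero, zero_pow two_ne_zero]
      exact mul_nonneg (by positivity) (tl_nn t)
    · rw [tl, indicator_of_mem (mem_Ici.2 hR), mul_pow, mul_comm, mul_assoc, mul_assoc (-2)]
      exact mul_le_mul (pow_le_pow_left₀ (d_nn _) (hK _).1 2) (Θ_sq _) (sq_nonneg _) (sq_nonneg _)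
  refine ⟨e, d1 h1, ?_, ?_⟩ <;> rw [dζ, d1 h1, st1 h1]
  · nlinarith [mul_nonneg z0 r0]
  · nlinarith [sq_nonneg (μ * σ (μ * t) * ζ ν μ R t - Θ (μ * t) * d (R + 1 - t))]

variable {K C c a r : ℝ}

theorem ptI (hK : ∀ t, d t ≤ K ∧ σ t ≤ K) (hν : 0 < ν) (hμ : 0 < μ) (hC : 0 ≤ C)
    (hs : C * μ * K ≤ 1) (hr : 0 ≤ r) (hR : r + 1 ≤ μ * R) (t : ℝ) :
    2 * ζ ν μ R t * deriv (ζ ν μ R) t + C * deriv (ζ ν μ R) t ^ 2 ≤
      ν * (2 * st (2 + ν * t) * d (2 + ν * t) + C * ν * d (2 + ν * t) ^ 2) -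
        (1 - C * μ * K) * (μ * W r (μ * t)) + 2 * C * (K ^ 2 * Real.exp 2) * tl μ R t := by
  have R0 : 0 ≤ R := by nlinarith
  have t0 : 0 ≤ 2 * C * (K ^ 2 * Real.exp 2) * tl μ R t := mul_nonneg (by positivity) (tl_nn t)
  rcases le_total t 0 with h | h
  · rw [(neg hμ R0 h).1, (neg hμ R0 h).2, W0 (.inl (mul_nonpos_of_nonneg_of_nonpos hμ.le h))]
    nlinarith
  obtain ⟨e, e0, h1, h2⟩ := pos (μ := μ) (R := R) hK hν h
  have s0 := σ_nn (μ * t)
  have hw : W r (μ * t) ≤ 2 * σ (μ * t) * ζ ν μ R t ^ 2 := by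
    rcases le_total t R with hR' | hR'
    · rw [e, st1 (by linarith), mul_one]
      exact mul_le_of_le_one_left (by positivity) (st_le _)
    · rw [W0 (.inr (by nlinarith))]
      positivity
  have h3 := mul_le_mul_of_nonneg_left hw (mul_nonneg (sub_nonneg.2 hs) hμ.le)
  have h4 := mul_le_mul_of_nonneg_left h2 hC
  have h5 := mul_le_mul_of_nonneg_left (hK (μ * t)).2
    (show 0 ≤ C * μ ^ 2 * σ (μ * t) * ζ ν μ R t ^ 2 by positivity)
  rw [e0]
  nlinarith

theorem ptJ (hK : ∀ t, d t ≤ K ∧ σ t ≤ K) (hν : 0 < ν) (hμ : 0 < μ) (hC : 0 ≤ C)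
    (hs : 2 * C * μ ^ 2 * K ^ 2 ≤ c) (ha : 0 ≤ a) (hR : a ≤ R) (hν' : ν * a ≤ 1) (t : ℝ) :
    (Icc (-a) a).indicator (fun _ => (c - 2 * C * μ ^ 2 * K ^ 2) * Real.exp (-2 * (μ * a))) t -
      C * (ν * (ν * d (2 + ν * t) ^ 2)) - 2 * C * (K ^ 2 * Real.exp 2) * tl μ R t ≤
      c * ζ ν μ R t ^ 2 - C * deriv (ζ ν μ R) t ^ 2 := by
  have t0 : 0 ≤ 2 * C * (K ^ 2 * Real.exp 2) * tl μ R t := mul_nonneg (by positivity) (tl_nn t)
  have key : (Icc (-a) a).indicator (fun _ => (c - 2 * C * μ ^ 2 * K ^ 2) *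
      Real.exp (-2 * (μ * a))) t ≤ (c - 2 * C * μ ^ 2 * K ^ 2) * ζ ν μ R t ^ 2 := by
    by_cases ht : t ∈ Icc (-a) a
    · rw [indicator_of_mem ht]
      refine mul_le_mul_of_nonneg_left ?_ (sub_nonneg.2 hs)
      rcases le_total t 0 with h | h
      · rw [(neg hμ (ha.trans hR) h).1, st1 (by nlinarith [ht.1]), one_pow, Real.exp_le_one_iff]
        nlinarith [mul_nonneg hμ.le ha]
      · rw [(pos hK hν h).1, st1 (by linarith [ht.2]), mul_one]
        exact le_trans (Real.exp_le_exp.2 (by nlinarith [ht.2])) (sq_Θ (by positivity))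
    · rw [indicator_of_notMem ht]
      exact mul_nonneg (sub_nonneg.2 hs) (sq_nonneg _)
  have p0 : 0 ≤ 2 * C * μ ^ 2 * K ^ 2 * ζ ν μ R t ^ 2 := by positivity
  rcases le_total t 0 with h | h
  · rw [(neg hμ (ha.trans hR) h).2]
    nlinarith
  obtain ⟨-, e0, -, h2⟩ := pos (μ := μ) (R := R) hK hν h
  have h4 := mul_le_mul_of_nonneg_left h2 hC
  have h5 := mul_le_mul_of_nonneg_left (pow_le_pow_left₀ (σ_nn (μ * t)) (hK (μ * t)).2 2)
    (show 0 ≤ C * μ ^ 2 * ζ ν μ R t ^ 2 by positivity)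
  rw [e0]
  nlinarith

theorem tail {I : Measure ℝ} (h : IntegrableOn (fun t => Real.exp (-2 * μ * t)) (Ici 0) I) :
    (∀ R, 0 ≤ R → Integrable (tl μ R) I) ∧ Tendsto (fun R => ∫ t, tl μ R t ∂I) atTop (𝓝 0) := by
  refine ⟨fun R hR => (integrable_indicator_iff measurableSet_Ici).2 (h.mono_set (Ici_subset_Ici.2 hR)),
    ?_⟩
  have := tendsto_setIntegral_of_antitone (s := fun R : ℝ => Ici R) (fun _ => measurableSet_Ici)
    (fun _ _ h => Ici_subset_Ici.2 h) ⟨0, h⟩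
  rw [show ⋂ R : ℝ, Ici R = ∅ from eq_empty_of_forall_notMem fun t ht => by
    linarith [mem_Ici.1 (mem_iInter.1 ht (t + 1))], Measure.restrict_empty,
    integral_zero_measure] at this
  simpa only [tl, integral_indicator measurableSet_Ici] using this

theorem cc {g : ℝ → ℝ} (hg : Continuous g) (g0 : ∀ t, 0 ≤ g t) (h : ∀ t, d t = 0 → g t = 0)
    (hν : 0 < ν) {s : ℝ} (hs : -1 ≤ ν * s) : Cc (Iic s) fun t => ν * g (2 + ν * t) := by
  refine ⟨by fun_prop, cs (-2 / ν) s fun t ht => ?_, fun t => mul_nonneg hν.le (g0 _),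
    fun t ht => ?_⟩
  · rcases ht with ht | ht
    · rw [lt_div_iff₀ hν] at ht
      rw [h _ (d0 (by linarith)), mul_zero]
    · rw [h _ (d1 (by nlinarith)), mul_zero]
  · have : s < t := not_le.1 ht
    exact mul_eq_zero_of_right _ (h _ (d1 (by nlinarith)))

theorem cint {S : Set ℝ} {φ : ℝ → ℝ} (I : Measure ℝ) [IsFiniteMeasureOnCompacts I] (h : Cc S φ) :
    Integrable φ I := h.1.integrable_of_hasCompactSupport h.2.1

/-- the inequality for fixed parameters -/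
theorem step {I J : Measure ℝ} [IsFiniteMeasureOnCompacts I] [IsFiniteMeasureOnCompacts J] {κ : ℝ}
    (hK : ∀ t, d t ≤ K ∧ σ t ≤ K) (hν : 0 < ν) (hμ : 0 < μ) (hC : 0 ≤ C) (hκ : 0 ≤ κ)
    (hs : C * μ * K ≤ 1) (hs' : 2 * C * μ ^ 2 * K ^ 2 ≤ c) (hr : 0 ≤ r) (ha : 0 ≤ a)
    (hν' : ν * a ≤ 1) (hI : IntegrableOn (fun t => Real.exp (-2 * μ * t)) (Ici 0) I)
    (hJ : IntegrableOn (fun t => Real.exp (-2 * μ * t)) (Ici 0) J)
    (h5 : ∀ ζ, Tst ζ → ∫ t, (c * ζ t ^ 2 - C * deriv ζ t ^ 2) ∂J ≤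
      κ * ∫ t, (2 * ζ t * deriv ζ t + C * deriv ζ t ^ 2) ∂I) :
    J.real (Icc (-a) a) * ((c - 2 * C * μ ^ 2 * K ^ 2) * Real.exp (-2 * (μ * a))) -
      C * ∫ t, ν * (ν * d (2 + ν * t) ^ 2) ∂J ≤
      κ * (∫ t, ν * (2 * st (2 + ν * t) * d (2 + ν * t) + C * ν * d (2 + ν * t) ^ 2) ∂I -
        (1 - C * μ * K) * ∫ t, μ * W r (μ * t) ∂I) := by
  obtain ⟨i1, t1⟩ := tail hI
  obtain ⟨i2, t2⟩ := tail hJ
  have k1 := cint I (cc (g := fun t => 2 * st t * d t + C * ν * d t ^ 2) (by fun_prop)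
    (fun t => by have := st_nn t; have := d_nn t; positivity) (fun t h => by simp [h]) hν (s := 0)
    (by simp))
  have k2 := cint J (cc (g := fun t => ν * d t ^ 2) (by fun_prop) (fun t => by positivity)
    (fun t h => by simp [h]) hν (s := 0) (by simp))
  have k3 : Integrable (fun t => μ * W r (μ * t)) I :=
    (((tst_W r).1.continuous.comp (by fun_prop)).integrable_of_hasCompactSupport
      (cs_sc (tst_W r).2 hμ)).const_mul μ
  have k4 (x : ℝ) : Integrable ((Icc (-a) a).indicator fun _ => x) J :=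
    (integrable_indicator_iff measurableSet_Icc).2 (integrableOn_const isCompact_Icc.measure_ne_top)
  set D := 2 * C * (K ^ 2 * Real.exp 2)
  refine le_of_tendsto_of_tendsto (b := atTop)
    (by simpa using (t2.const_mul D).const_sub _) (by simpa using ((t1.const_mul D).const_add _).const_mul κ)
    (f := fun R => J.real (Icc (-a) a) * ((c - 2 * C * μ ^ 2 * K ^ 2) * Real.exp (-2 * (μ * a))) -
      C * ∫ t, ν * (ν * d (2 + ν * t) ^ 2) ∂J - D * ∫ t, tl μ R t ∂J)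
    (g := fun R => κ * (∫ t, ν * (2 * st (2 + ν * t) * d (2 + ν * t) +
      C * ν * d (2 + ν * t) ^ 2) ∂I - (1 - C * μ * K) * ∫ t, μ * W r (μ * t) ∂I +
      D * ∫ t, tl μ R t ∂I)) ?_
  filter_upwards [eventually_ge_atTop a, eventually_ge_atTop ((r + 1) / μ)] with R h1 h2
  rw [div_le_iff₀' hμ] at h2
  obtain ⟨z1, z2⟩ := tst_ζ (μ := μ) (R := R) hν
  have z3 := z1.continuous
  have z4 := (contDiff_infty_iff_deriv.1 z1).2.continuous
  have z5 {f : ℝ → ℝ} (h : HasCompactSupport f) : HasCompactSupport fun t => f t ^ 2 :=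
    h.comp_left (g := fun x => x ^ 2) (by simp)
  refine le_trans ?_ ((h5 _ ⟨z1, z2⟩).trans (mul_le_mul_of_nonneg_left ?_ hκ))
  · refine le_trans (le_of_eq ?_) (integral_mono ((k4 _).sub (k2.const_mul C) |>.sub
      ((i2 R (ha.trans h1)).const_mul D)) (Continuous.integrable_of_hasCompactSupport (by fun_prop)
      ((z5 z2).mul_left.sub (z5 z2.deriv).mul_left)) (ptJ hK hν hμ hC hs' ha h1 hν'))
    rw [integral_sub' ((k4 _).sub (k2.const_mul C)) ((i2 R (ha.trans h1)).const_mul D),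
      integral_sub' (k4 _) (k2.const_mul C), integral_indicator_const _ measurableSet_Icc,
      integral_const_mul C, integral_const_mul D, smul_eq_mul]
  · refine le_trans (integral_mono (Continuous.integrable_of_hasCompactSupport (by fun_prop)
      (z2.deriv.mul_left.add (z5 z2.deriv).mul_left)) (k1.sub (k3.const_mul _) |>.add
      ((i1 R (ha.trans h1)).const_mul D)) (ptI hK hν hμ hC hs hr h2)) (le_of_eq ?_)
    rw [integral_add' (k1.sub (k3.const_mul _)) ((i1 R (ha.trans h1)).const_mul D),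
      integral_sub' k1 (k3.const_mul _), integral_const_mul (1 - _), integral_const_mul D]

end D2

open D2 in
theorem d2 : D2 := by
  rintro I J c₀ c κ C hI hJ hc₀ hc hκ hC h1 ⟨B, h2⟩ h3 h4 h5
  obtain ⟨K, K0, hK⟩ := exK
  suffices H : ∀ a : ℝ, 0 ≤ a → J.real (Icc (-a) a) ≤ 0 by
    rw [← Measure.measure_univ_eq_zero]
    refine measure_mono_null (t := ⋃ n : ℕ, Icc (-(n : ℝ)) n) (fun t _ => ?_)
      (measure_iUnion_null fun n => ?_)
    · obtain ⟨n, hn⟩ := exists_nat_ge |t|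
      exact mem_iUnion.2 ⟨n, abs_le.1 hn⟩
    · exact (measureReal_eq_zero_iff isCompact_Icc.measure_ne_top).1
        ((H n n.cast_nonneg).antisymm measureReal_nonneg)
  intro a ha
  set x := J.real (Icc (-a) a)
  set C2 := ∫ t, d t ^ 2
  have small {f : ℝ → ℝ} {b : ℝ} (hf : Continuous f) (h : f 0 < b) : ∀ᶠ μ in 𝓝[>] 0, f μ ≤ b :=
    ((hf.continuousAt.eventually_lt continuousAt_const h).mono fun _ => le_of_lt).filter_mono
      nhdsWithin_le_nhds
  have lim {f g : ℝ → ℝ} (hf : Continuous f) (hg : Continuous g) (h : ∀ᶠ μ in 𝓝[>] 0, f μ ≤ g μ) :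
      f 0 ≤ g 0 := le_of_tendsto_of_tendsto (hf.continuousAt.mono_left nhdsWithin_le_nhds)
    (hg.continuousAt.mono_left nhdsWithin_le_nhds) h
  have A (r : ℝ) (hr : 0 ≤ r) : x * c ≤ κ * (c₀ * Θ r ^ 2) := by
    set C1 := ∫ t, (|deriv (W r) t| + |deriv (deriv (W r)) t|)
    refine le_trans (by simp) ((lim
      (f := fun μ => x * ((c - 2 * C * μ ^ 2 * K ^ 2) * Real.exp (-2 * (μ * a))))
      (g := fun μ => κ * ((1 + μ) * c₀ - (1 - C * μ * K) * (c₀ * (1 - Θ r ^ 2 - μ * C1))))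
      (by fun_prop) (by fun_prop) ?_).trans_eq (by ring))
    filter_upwards [self_mem_nhdsWithin, small (f := fun μ => μ) (b := 1) (by fun_prop) (by simp),
      small (f := fun μ => C * μ * K) (b := 1) (by fun_prop) (by simp),
      small (f := fun μ => 2 * C * μ ^ 2 * K ^ 2) (b := c) (by fun_prop) (by simpa)]
      with μ hμ m1 m2 m3
    obtain ⟨s, hs⟩ := h1 μ hμ
    have lw := low hc₀ (tst_W r) (W_nn r) h3 hμ m1
    have lw' := mul_le_mul_of_nonneg_left (le_trans (mul_le_mul_of_nonneg_left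
      (sub_le_sub_right (int_W hr) _) hc₀) lw) (sub_nonneg.2 m2)
    refine le_trans (by simp) ((lim (f := fun ν =>
      x * ((c - 2 * C * μ ^ 2 * K ^ 2) * Real.exp (-2 * (μ * a))) - C * (B * (ν * C2)))
      (g := fun ν => κ * ((1 + μ) * c₀ * (1 + C * ν * C2) -
        (1 - C * μ * K) * (c₀ * (1 - Θ r ^ 2 - μ * C1))))
      (by fun_prop) (by fun_prop) ?_).trans_eq (by ring))
    filter_upwards [self_mem_nhdsWithin, small (f := fun ν => ν * a) (b := 1) (by fun_prop) (by simp),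
      small (f := fun ν => -(ν * s)) (b := 1) (by fun_prop) (by simp)] with ν hν n1 n2
    have hν : 0 < ν := hν
    have id : Integrable fun t => d t ^ 2 := Continuous.integrable_of_hasCompactSupport
      (by fun_prop) (cs_d.comp_left (g := fun x => x ^ 2) (by simp))
    have b1 := hs _ (cc (g := fun t => 2 * st t * d t + C * ν * d t ^ 2) (by fun_prop)
      (fun t => by have := st_nn t; have := d_nn t; positivity) (fun t h => by simp [h]) hν
      (by linarith))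
    have b2 := h2 _ (cc (g := fun t => ν * d t ^ 2) (by fun_prop) (fun t => by positivity)
      (fun t h => by simp [h]) hν (by simp))
    rw [scal (fun t => 2 * st t * d t + C * ν * d t ^ 2) 2 hν, integral_add
      (f := fun t => 2 * st t * d t)
      (Continuous.integrable_of_hasCompactSupport (by fun_prop) cs_d.mul_left) (id.const_mul _),
      int_sd, integral_const_mul (C * ν)] at b1
    rw [scal (fun t => ν * d t ^ 2) 2 hν, integral_const_mul ν fun t => d t ^ 2] at b2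
    exact le_trans (sub_le_sub_left (mul_le_mul_of_nonneg_left b2 hC) _)
      ((step hK hν hμ hC hκ m2 m3 hr ha n1 (h4 μ hμ).1 (h4 μ hμ).2 h5).trans
        (mul_le_mul_of_nonneg_left (sub_le_sub b1 lw') hκ))
  have T : Tendsto (fun r : ℝ => κ * (c₀ * (Real.exp 2 * Real.exp (-2 * r)))) atTop
      (𝓝 (κ * (c₀ * (Real.exp 2 * 0)))) :=
    (((Real.tendsto_exp_atBot.comp (tendsto_id.const_mul_atTop_of_neg (by norm_num))).const_mul
      _).const_mul _).const_mul _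
  have := ge_of_tendsto T ((eventually_ge_atTop 0).mono fun r hr => (A r hr).trans
    (mul_le_mul_of_nonneg_left (mul_le_mul_of_nonneg_left (Θ_sq r) hc₀) hκ))
  exact le_of_mul_le_mul_right (by simpa using this) hc

end Vale.Agent.P134L
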