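import Vale.Agent.P134L.Defs

/-!
# The powers of the regularised distance
-/

set_option linter.all false

open MeasureTheory Set Filter Metric Topology
open scoped ContDiff NNReal

noncomputable section

namespace Vale.Agent.P134L

namespace G1

theorem der (c b : ℝ) {t : ℝ} (h : 0 < t + c) :
    HasDerivAt (fun s : ℝ => (s + c) ^ (-b)) (-b * (t + c) ^ (-(b + 1))) t := by
  have h1 := ((hasDerivAt_id t).add_const c).rpow_const (p := -b) (Or.inl h.ne')
  refine h1.congr_deriv ?_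
  rw [show -(b + 1) = -b - 1 by ring]
  simp

theorem ev (c : ℝ) {t : ℝ} (h : 0 < t + c) : ∀ᶠ s in 𝓝 t, 0 < s + c :=
  (continuous_id.add continuous_const).continuousAt.eventually (lt_mem_nhds h)

theorem sm (c b : ℝ) {t : ℝ} (h : 0 < t + c) :
    ∀ᶠ s in 𝓝 t, ContDiffAt ℝ ∞ (fun s : ℝ => (s + c) ^ (-b)) s :=
  (ev c h).mono fun s hs => (contDiffAt_id.add contDiffAt_const).rpow_const_of_ne hs.ne'

end G1

theorem g1 : G1 := by
  intro m M _ _ _ _ G _ C p q e a h
  have hδ : ∀ i, G.δ i (G.W p e a) q = -a * G.W p e (a + 1) q * G.δ i (G.rr p) q := fun i =>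
    C.δcomp (G1.der (e ^ 2) a h) (C.smr p q) i
  refine ⟨C.comp (G1.sm (e ^ 2) a h) (C.smr p q), Real.rpow_pos_of_pos h _, ?_, ?_⟩
  · have h1 := C.gr p q
    simp only [Geo.Gam, hδ] at h1 ⊢
    calc _ = (a * G.W p e (a + 1) q) ^ 2 * ∑ i, G.δ i (G.rr p) q * G.δ i (G.rr p) q := by
          rw [Finset.mul_sum]
          exact Finset.sum_congr rfl fun i _ => by ring
      _ = _ := by rw [h1]; ring
  · have h1 : G.Lap (G.W p e a) q = _ := C.lcomp (F := fun s => (s + e ^ 2) ^ (-a))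
      (F' := fun t => -a * (t + e ^ 2) ^ (-(a + 1))) (G1.sm (e ^ 2) a h)
      ((G1.ev _ h).mono fun s hs => G1.der _ a hs)
      ((G1.der (e ^ 2) (a + 1) h).const_mul (-a)) (C.smr p q)
    have h2 : (G.rr p q + e ^ 2) ^ (-(a + 1)) = G.W p e (a + 2) q * (G.rr p q + e ^ 2) := by
      rw [Geo.W, ← Real.rpow_add_one h.ne']
      congr 1
      ring
    have h3 : (G.rr p q + e ^ 2) ^ (-(a + 1 + 1)) = G.W p e (a + 2) q := by
      rw [Geo.W]
      congr 1
      ring
    rw [h1, C.lr, C.gr, h2, h3]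
    ring

end Vale.Agent.P134L
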