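import Vale.Agent.P134L.Defs

/-!
# Upper bounds for the approximate Green function
-/

set_option linter.all false

open MeasureTheory Set Filter Metric Topology
open scoped ContDiff NNReal

noncomputable section

namespace Vale.Agent.P134L

variable {m : ℕ} {M : Type} [MetricSpace M] [MeasurableSpace M] {G : Geo m M}

/-- the maximum principle on a closed set for functions which decay at infinity -/
theorem Calc.maxp (C : Calc G) {w v : M → ℝ} {S : Set M} {η : ℝ} (hw : ∀ q, G.Sm w q)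
    (hS : IsClosed S) (hv : Tendsto v (cocompact M) (𝓝 0)) (hle : ∀ q ∈ S, w q ≤ v q)
    (hη : 0 ≤ η) (h : ∀ q ∈ S, η < w q → S ∈ 𝓝 q ∧ 0 < G.Lap w q) : ∀ q ∈ S, w q ≤ η := by
  intro q₀ h₀
  by_contra hlt
  have h1 : η < w q₀ := not_le.1 hlt
  obtain ⟨K, hK, hKs⟩ := mem_cocompact.1 (hv.eventually (gt_mem_nhds (hη.trans_lt h1)))
  have hq : q₀ ∈ K ∩ S := ⟨by
    by_contra hn
    have : v q₀ < w q₀ := hKs hn
    linarith [hle q₀ h₀], h₀⟩
  obtain ⟨q₁, h2, h3⟩ := (hK.inter_right hS).exists_isMaxOn ⟨q₀, hq⟩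
    (f := w) fun q _ => (C.cont (hw q)).continuousWithinAt
  have h4 : w q₀ ≤ w q₁ := h3 hq
  obtain ⟨h5, h6⟩ := h q₁ h2.2 (h1.trans_le h4)
  have h7 : IsLocalMax w q₁ := by
    filter_upwards [h5] with q hq
    by_cases hk : q ∈ K
    · exact h3 ⟨hk, hq⟩
    · have : v q < w q₀ := hKs hk
      linarith [hle q hq]
  linarith [(C.mx (hw q₁) h7).2]

theorem g2 : G2 := by
  intro g1 m M _ _ _ _ G hm C p χ e u hχ hu
  have hm4 : (4 : ℝ) ≤ m := by exact_mod_cast hm
  have hr : ∀ q, 0 < G.rr p q + e ^ 2 := fun q =>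
    add_pos_of_nonneg_of_pos (sq_nonneg _) (pow_pos hu.e0 2)
  have hW : ∀ a q, 0 < G.W p e a q := fun a q => (g1 m M G hm C p q e a (hr q)).2.1
  have hmm : 0 ≤ (m : ℝ) * (m - 2) := mul_nonneg (by linarith) (by linarith)
  have hs : ∀ q, 0 ≤ (m : ℝ) * (m - 2) * e ^ 2 * G.W p e ((m + 2) / 2) q := fun q =>
    mul_nonneg (mul_nonneg hmm (sq_nonneg _)) (hW _ q).le
  refine ⟨fun q => ⟨?_, ?_⟩, fun d η hd hη hb => ?_⟩
  · have := C.maxp (w := fun q => -1 * u q) (v := fun q => -1 * u q) (S := univ) (η := 0)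
      (fun q => C.mul (C.smc _ q) (hu.sm q)) isClosed_univ
      (by simpa using hu.dec.const_mul (-1)) (fun _ _ => le_rfl) le_rfl
      (fun q _ hq => ⟨univ_mem, by
        rw [C.lsm _ (hu.sm q)]
        have h1 := hu.eq q
        have h2 := mul_nonneg (hχ.mem q).1 (hs q)
        have h3 := mul_pos hu.e0 hq
        linarith⟩) q (mem_univ q)
    linarith
  · have := C.maxp (w := fun q => u q - G.W p e ((m - 2) / 2) q) (v := u) (S := univ) (η := 0)
      (fun q => C.sub (hu.sm q) (g1 m M G hm C p q e _ (hr q)).1) isClosed_univ hu.dec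
      (fun q _ => by linarith [hW ((m - 2) / 2) q]) le_rfl
      (fun q _ hq => ⟨univ_mem, by
        rw [C.lsub (hu.sm q) (g1 m M G hm C p q e _ (hr q)).1,
          (g1 m M G hm C p q e _ (hr q)).2.2.2, show ((m : ℝ) - 2) / 2 + 2 = (m + 2) / 2 by ring]
        have h1 := hu.eq q
        have h2 := mul_le_of_le_one_left (hs q) (hχ.mem q).2
        have h3 : 0 < e * u q := mul_pos hu.e0 (by linarith [hW ((m - 2) / 2) q])
        have h4 : 0 ≤ (m : ℝ) * (m - 2) * G.JJ p q ^ 2 * G.W p e ((m + 2) / 2) q :=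
          mul_nonneg (mul_nonneg hmm (sq_nonneg _)) (hW _ q).le
        have h5 : G.W p e ((m + 2) / 2) q * (4 * (((m : ℝ) - 2) / 2) * ((m - 2) / 2 + 1) *
            (G.rr p q - G.JJ p q ^ 2) - 2 * m * ((m - 2) / 2) * (G.rr p q + e ^ 2)) =
            -((m : ℝ) * (m - 2) * G.JJ p q ^ 2 * G.W p e ((m + 2) / 2) q) -
              (m : ℝ) * (m - 2) * e ^ 2 * G.W p e ((m + 2) / 2) q := by ring
        rw [h5]
        linarith⟩) q (mem_univ q)
    linarith
  · refine C.maxp (w := u) (v := u) (S := {q | d ≤ dist q p}) hu.sm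
      (isClosed_le continuous_const (by fun_prop)) hu.dec (fun _ _ => le_rfl) hη fun q hq h => ?_
    have h1 : d < dist q p := lt_of_le_of_ne hq fun h1 => absurd (hb q h1.symm) (not_le.2 h)
    have h0 : IsOpen {q | d < dist q p} := isOpen_lt continuous_const (by fun_prop)
    refine ⟨mem_of_superset (h0.mem_nhds h1) fun z (h : d < dist z p) => h.le, ?_⟩
    have h2 := hu.eq q
    rw [hχ.zero q (hd.trans hq), zero_mul] at h2
    have h3 : 0 < e * u q := mul_pos hu.e0 (hη.trans_lt h)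
    linarith

end Vale.Agent.P134L
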