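import Vale.Agent.P134L.Defs

/-!
# The lower bound of the approximate Green function at the pole
-/

open MeasureTheory Set Filter Metric Topology

noncomputable section

namespace Vale.Agent.P134L

variable {m : ℕ} {M : Type} [MetricSpace M] [MeasurableSpace M]

namespace G3a

theorem W_sub (G : Geo m M) (p q : M) (e a b : ℝ) (k : ℕ) (h : 0 < G.rr p q + e ^ 2)
    (hb : b = a - k / 2) : G.W p e b q = G.W p e a q * √(G.rr p q + e ^ 2) ^ k := by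
  rw [Geo.W, Geo.W, Real.sqrt_eq_rpow, ← Real.rpow_natCast _ k, ← Real.rpow_mul h.le,
    ← Real.rpow_add h, hb]
  congr 1
  ring

theorem alg {n x t r J e u C LV Lu LW : ℝ} (hn : 4 ≤ n) (hx : 0 < x) (ht : 0 < t) (ht2 : t ≤ 2)
    (hs : t ^ 2 = r + e ^ 2) (hr : 0 ≤ r) (hJ : |J| ≤ 2 * r) (e1 : e ≤ 1) (u0 : 0 ≤ u)
    (hu : u ≤ x * t ^ 4) (hC : C = 2 * (4 * (n * (n - 2)) + 1) + 8)
    (hV : LV = x * (4 * ((n - 2) / 2) * ((n - 2) / 2 + 1) * (r - J ^ 2) -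
      2 * n * ((n - 2) / 2) * (r + e ^ 2)))
    (hL : e * u - Lu = 1 * (n * (n - 2) * e ^ 2 * x))
    (hW : LW = x * t ^ 1 * (4 * ((n - 3) / 2) * ((n - 3) / 2 + 1) * (r - J ^ 2) -
      2 * n * ((n - 3) / 2) * (r + e ^ 2))) : 0 < LV - Lu - C * LW := by
  have n2 : 0 ≤ n * (n - 2) := mul_nonneg (by linarith) (by linarith)
  have hJ2 : J ^ 2 ≤ 4 * t ^ 4 := by
    have h1 : J ^ 2 ≤ (2 * r) ^ 2 := sq_le_sq' (abs_le.1 hJ).1 (abs_le.1 hJ).2
    have h2 : r ^ 2 ≤ (t ^ 2) ^ 2 := pow_le_pow_left₀ hr (by nlinarith [sq_nonneg e]) 2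
    nlinarith
  have h1 : LV - Lu = -(n * (n - 2)) * x * J ^ 2 - e * u := by
    rw [hV]; linear_combination hL
  have h2 : LW ≤ -(x * t ^ 3) := by
    have h3 : 4 * ((n - 3) / 2) * ((n - 3) / 2 + 1) * (r - J ^ 2) -
        2 * n * ((n - 3) / 2) * (r + e ^ 2) =
        -t ^ 2 - (n - 4) * t ^ 2 - (n - 3) * (n - 1) * (J ^ 2 + e ^ 2) := by
      rw [hs]; ring
    have h4 : 0 ≤ (n - 4) * t ^ 2 := mul_nonneg (by linarith) (sq_nonneg t)
    have h5 : 0 ≤ (n - 3) * (n - 1) * (J ^ 2 + e ^ 2) :=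
      mul_nonneg (mul_nonneg (by linarith) (by linarith)) (by positivity)
    rw [hW, h3]
    have h6 : 0 < x * t ^ 1 := by positivity
    nlinarith
  have h3 : e * u ≤ x * t ^ 4 := by nlinarith
  have h4 : n * (n - 2) * x * J ^ 2 ≤ n * (n - 2) * x * (4 * t ^ 4) := by gcongr
  have h5 : x * t ^ 4 ≤ 2 * (x * t ^ 3) := by
    have : 0 < x * t ^ 3 := by positivity
    nlinarith
  have h6 : 0 < x * t ^ 3 := by positivity
  have h7 : C * LW ≤ C * -(x * t ^ 3) := mul_le_mul_of_nonneg_left h2 (by linarith)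
  have h8 : n * (n - 2) * (x * t ^ 4) ≤ n * (n - 2) * (2 * (x * t ^ 3)) := by gcongr
  rw [h1]
  rw [hC] at h7 ⊢
  nlinarith

end G3a

open G3a

theorem g3 : G3 := by
  intro g1 m M _ _ _ _ G hm c up p χ hχ
  have hn : (4 : ℝ) ≤ m := by exact_mod_cast hm
  obtain ⟨C, hC⟩ : ∃ C : ℝ, C = 2 * (4 * (m * (m - 2)) + 1) + 8 := ⟨_, rfl⟩
  have C8 : 8 ≤ C := by nlinarith
  refine ⟨C, fun e u s q hq => ?_⟩
  have r0 (z : M) : 0 ≤ G.rr p z := sq_nonneg _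
  have s0 (z : M) : 0 < G.rr p z + e ^ 2 := add_pos_of_nonneg_of_pos (r0 z) (pow_pos s.e0 2)
  have w1 (z : M) (a : ℝ) := g1 m M G hm c p z e a (s0 z)
  have hu := (up p χ e u hχ s).1
  have sw (z : M) : G.Sm (fun q => C * G.W p e ((m - 3) / 2) q) z :=
    c.mul (c.smc C z) (w1 z _).1
  have sv (z : M) : G.Sm (fun q => G.W p e ((m - 2) / 2) q - u q) z := c.sub (w1 z _).1 (s.sm z)
  have sm (z : M) : G.Sm
      (fun q => G.W p e ((m - 2) / 2) q - u q - C * G.W p e ((m - 3) / 2) q) z :=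
    c.sub (sv z) (sw z)
  obtain ⟨z, hz, hmax⟩ := (isCompact_closedBall p (1 / 4)).exists_isMaxOn ⟨q, hq⟩
    (fun z _ => (c.cont (sm z)).continuousWithinAt)
  have hz' : dist z p ≤ 1 / 4 := hz
  have nr := c.near p z (by linarith)
  have t0 : 0 < √(G.rr p z + e ^ 2) := Real.sqrt_pos.2 (s0 z)
  have t2 : √(G.rr p z + e ^ 2) ^ 2 = G.rr p z + e ^ 2 := Real.sq_sqrt (s0 z).le
  have x0 := (w1 z ((m - 2) / 2 + 2)).2.1
  have e4 := W_sub G p z e ((m - 2) / 2 + 2) ((m - 2) / 2) 4 (s0 z) (by push_cast; ring)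
  suffices h : G.W p e ((m - 2) / 2) z - u z - C * G.W p e ((m - 3) / 2) z ≤ 0 by
    have : G.W p e ((m - 2) / 2) q - u q - C * G.W p e ((m - 3) / 2) q ≤ _ := hmax hq
    linarith
  rcases hz'.eq_or_lt with h | h
  · have e5 := W_sub G p z e ((m - 2) / 2) ((m - 3) / 2) 1 (s0 z) (by push_cast; ring)
    have h1 : (1 / 8 : ℝ) ^ 2 ≤ G.rr p z := pow_le_pow_left₀ (by norm_num) (by linarith [nr.1]) 2
    have h2 : 1 / 8 ≤ √(G.rr p z + e ^ 2) := Real.le_sqrt_of_sq_le (by nlinarith [sq_nonneg e])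
    have h3 := (w1 z ((m - 2) / 2)).2.1
    have h4 : 1 ≤ C * √(G.rr p z + e ^ 2) := by nlinarith
    rw [e5]
    nlinarith [(hu z).1]
  · exfalso
    have lm : IsLocalMax
        (fun q => G.W p e ((m - 2) / 2) q - u q - C * G.W p e ((m - 3) / 2) q) z :=
      hmax.isLocalMax (mem_of_superset (isOpen_ball.mem_nhds h) ball_subset_closedBall)
    have h1 := (c.mx (sm z) lm).2
    rw [c.lsub (sv z) (sw z), c.lsub (w1 z _).1 (s.sm z), c.lsm C (w1 z _).1] at h1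
    have e1 := W_sub G p z e ((m - 2) / 2 + 2) ((m - 3) / 2 + 2) 1 (s0 z) (by push_cast; ring)
    have h2 : G.rr p z ≤ (1 / 4) ^ 2 := pow_le_pow_left₀ (norm_nonneg _) ((c.lip p z).trans hz') 2
    have h3 : √(G.rr p z + e ^ 2) ≤ 2 :=
      Real.sqrt_le_iff.2 ⟨by norm_num, by nlinarith [s.e0, s.e1]⟩
    have h4 := s.eq z
    rw [hχ.one z hz', show ((m : ℝ) + 2) / 2 = (m - 2) / 2 + 2 by ring] at h4
    refine (alg hn x0 t0 h3 t2 (r0 z) nr.2 s.e1 (hu z).1 (e4 ▸ (hu z).2) hC (w1 z _).2.2.2 h4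
      ?_).not_ge h1
    rw [← e1]
    exact (w1 z _).2.2.2

end Vale.Agent.P134L
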