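import Vale.Agent.P134L.Defs

/-!
# Row G4: the volume of the level sets of the approximate Green function
-/

open MeasureTheory Set Filter Metric Topology
open scoped ContDiff InnerProductSpace NNReal

noncomputable section

namespace Vale.Agent.P134L

namespace G4p

/-- the primitive of the smooth transition function -/
def pr (s : ℝ) : ℝ := ∫ t in (0 : ℝ)..s, Real.smoothTransition t

theorem pr_der (s : ℝ) : HasDerivAt pr (Real.smoothTransition s) s :=
  (Real.smoothTransition.continuous.integral_hasStrictDerivAt 0 s).hasDerivAt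

theorem pr_sm : ContDiff ℝ ∞ pr := by
  rw [contDiff_infty_iff_deriv]
  refine ⟨fun s => (pr_der s).differentiableAt, ?_⟩
  rw [show deriv pr = Real.smoothTransition from funext fun s => (pr_der s).deriv]
  exact Real.smoothTransition.contDiff

theorem pr_zero {s : ℝ} (h : s ≤ 0) : pr s = 0 := by
  rw [pr, intervalIntegral.integral_congr (g := fun _ => 0), intervalIntegral.integral_zero]
  intro t ht
  rw [uIcc_of_ge h] at ht
  exact Real.smoothTransition.zero_of_nonpos ht.2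

theorem pr_mono : Monotone pr :=
  monotone_of_deriv_nonneg (fun s => (pr_der s).differentiableAt) fun s => by
    rw [(pr_der s).deriv]; exact Real.smoothTransition.nonneg s

theorem pr_pos {s : ℝ} (h : 0 < s) : 0 < pr s :=
  intervalIntegral.intervalIntegral_pos_of_pos_on
    (Real.smoothTransition.continuous.intervalIntegrable _ _)
    (fun _ ht => Real.smoothTransition.pos_of_pos ht.1) h

theorem pr_nn (s : ℝ) : 0 ≤ pr s := by
  rcases le_total s 0 with h | h
  · exact (pr_zero h).ge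
  · exact (pr_zero le_rfl).ge.trans (pr_mono h)

variable {m : ℕ} {M : Type} [MetricSpace M] [ProperSpace M] [MeasurableSpace M] [BorelSpace M]
  {G : Geo m M}

omit [MetricSpace M] [ProperSpace M] [BorelSpace M] in
theorem rr0 (p q : M) : 0 ≤ G.rr p q := sq_nonneg _

theorem smW (g1 : G1) (hm : 4 ≤ m) (C : Calc G) (p q : M) {e : ℝ} (he : 0 < e) (a : ℝ) :
    G.Sm (G.W p e a) q ∧ 0 < G.W p e a q :=
  have h := g1 m M G hm C p q e a (by have := rr0 (G := G) p q; positivity)
  ⟨h.1, h.2.1⟩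

theorem lapW (g1 : G1) (hm : 4 ≤ m) (C : Calc G) (p q : M) {e : ℝ} (he : 0 < e) :
    m * (m - 2) * e ^ 2 * G.W p e ((m + 2) / 2) q ≤ -G.Lap (G.W p e ((m - 2) / 2)) q := by
  have h := (g1 m M G hm C p q e ((m - 2) / 2) (by have := rr0 (G := G) p q; positivity)).2.2.2
  have h1 := (smW g1 hm C p q he ((m + 2) / 2)).2
  have h2 : (4 : ℝ) ≤ m := by exact_mod_cast hm
  rw [show ((m : ℝ) - 2) / 2 + 2 = (m + 2) / 2 by ring] at h
  have h3 : 0 ≤ (m * (m - 2) : ℝ) * G.JJ p q ^ 2 * G.W p e ((m + 2) / 2) q :=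
    mul_nonneg (mul_nonneg (mul_nonneg (by linarith) (by linarith)) (sq_nonneg _)) h1.le
  rw [h]
  nlinarith

omit [ProperSpace M] [BorelSpace M] in
theorem lap_loc (C : Calc G) {f : M → ℝ} {q : M} {c : ℝ} (h : ∀ᶠ z in 𝓝 q, f z = c) :
    G.Lap f q = 0 := (C.lcg (g := fun _ => c) h).trans (C.lc c q)

omit [ProperSpace M] [BorelSpace M] in
theorem intg (C : Calc G) {K : Set M} {f : M → ℝ} (hK : IsCompact K) (hf : ∀ q, G.Sm f q)
    (h0 : ∀ q, q ∉ K → f q = 0) : Integrable f G.μ := by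
  rw [← integrableOn_univ]
  exact C.int isOpen_univ hK (subset_univ _) (fun q _ => (C.cont (hf q)).continuousWithinAt)
    fun q _ => h0 q

omit [ProperSpace M] [BorelSpace M] in
theorem green (C : Calc G) {K : Set M} {f g : M → ℝ} (hK : IsCompact K) (hf : ∀ q, G.Sm f q)
    (hg : ∀ q, G.Sm g q) (h0 : ∀ q, q ∉ K → f q = 0) :
    ∫ q, f q * G.Lap g q ∂G.μ = ∫ q, G.Lap f q * g q ∂G.μ := by
  simpa using C.gr2 isOpen_univ hK (subset_univ _) (fun q _ => ⟨hf q, hg q⟩) fun q _ => h0 q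

/-- the source -/
def src (G : Geo m M) (p : M) (χ : M → ℝ) (e : ℝ) (q : M) : ℝ :=
  χ q * (m * (m - 2) * e ^ 2 * G.W p e ((m + 2) / 2) q)

theorem src_bd (g1 : G1) (hm : 4 ≤ m) (C : Calc G) {p : M} {χ : M → ℝ} (hχ : Bmp G p χ) :
    ∃ C₀ : ℝ, ∀ e, 0 < e → (∀ q, 0 ≤ src G p χ e q) ∧ Integrable (src G p χ e) G.μ ∧
      ∫ q, src G p χ e q ∂G.μ ≤ C₀ := by
  have h2 : (4 : ℝ) ≤ m := by exact_mod_cast hm
  have hK := isCompact_closedBall p 1
  have z0 : ∀ q, q ∉ closedBall p 1 → χ q = 0 := fun q hq =>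
    hχ.zero q (not_le.1 fun h => hq h).le
  have z1 : ∀ q, q ∉ closedBall p 1 → G.Lap χ q = 0 := fun q hq => lap_loc C (c := 0) (by
    filter_upwards [isClosed_closedBall.isOpen_compl.mem_nhds hq] with z hz using z0 z hz)
  have z2 : ∀ q, dist q p < 1 / 4 → G.Lap χ q = 0 := fun q hq => lap_loc C (c := 1) (by
    filter_upwards [isOpen_ball.mem_nhds (show q ∈ ball p (1 / 4) from hq)] with z hz
      using hχ.one z (le_of_lt hz))
  have i1 := intg C hK (fun q => C.smL (hχ.sm q)) z1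
  refine ⟨∫ q, |G.Lap χ q| * (1 / 64 : ℝ) ^ (-(((m : ℝ) - 2) / 2)) ∂G.μ, fun e he => ?_⟩
  have sW := fun q a => smW g1 hm C p q he a
  have i2 : Integrable (src G p χ e) G.μ := intg C hK
    (fun q => C.mul (hχ.sm q) (C.mul (C.smc _ q) (sW q _).1)) fun q hq => by simp [src, z0 q hq]
  refine ⟨fun q => mul_nonneg (hχ.mem q).1 (mul_nonneg (mul_nonneg (mul_nonneg (by linarith)
    (by linarith)) (sq_nonneg _)) (sW q _).2.le), i2, ?_⟩
  have i3 := intg C hK (fun q => C.mul (hχ.sm q) (C.smL (sW q ((m - 2) / 2)).1))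
    fun q hq => by simp [z0 q hq]
  have i4 := intg C hK (fun q => C.mul (C.smL (hχ.sm q)) (sW q ((m - 2) / 2)).1)
    fun q hq => by simp [z1 q hq]
  calc ∫ q, src G p χ e q ∂G.μ ≤ ∫ q, -(χ q * G.Lap (G.W p e ((m - 2) / 2)) q) ∂G.μ := by
        refine integral_mono i2 i3.neg fun q => ?_
        have := mul_le_mul_of_nonneg_left (lapW g1 hm C p q he) (hχ.mem q).1
        simpa [src] using this
    _ = ∫ q, -(G.Lap χ q * G.W p e ((m - 2) / 2) q) ∂G.μ := by
        rw [integral_neg, integral_neg, green C hK hχ.sm (fun q => (sW q _).1) z0]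
    _ ≤ _ := by
        refine integral_mono i4.neg (i1.abs.mul_const _) fun q => ?_
        dsimp only
        by_cases h0 : G.Lap χ q = 0
        · simp [h0]
        have a1 : 1 / 4 ≤ dist q p := not_lt.1 fun h => h0 (z2 q h)
        have a2 : dist q p ≤ 1 := by
          by_contra h
          exact h0 (z1 q h)
        have a3 := (C.near p q (by linarith)).1
        have a4 : 1 / 64 ≤ G.rr p q + e ^ 2 := by
          rw [Geo.rr]
          nlinarith [sq_nonneg e]
        have a5 : G.W p e ((m - 2) / 2) q ≤ (1 / 64 : ℝ) ^ (-(((m : ℝ) - 2) / 2)) :=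
          Real.rpow_le_rpow_of_nonpos (by norm_num) a4 (by linarith)
        rw [← neg_mul]
        exact mul_le_mul (neg_le_abs _) a5 (sW q _).2.le (abs_nonneg _)

end G4p

open G4p in
/-- **G4** -/
theorem g4 : G4 := by
  intro g1 m M _ _ _ _ G hm C up p χ hχ η hη
  have h2 : (4 : ℝ) ≤ m := by exact_mod_cast hm
  obtain ⟨C₀, h₀⟩ := src_bd g1 hm C hχ
  obtain ⟨a, ha⟩ : ∃ a : ℝ, a = (m - 2) / 2 := ⟨_, rfl⟩
  have a0 : 0 < a := by linarith
  obtain ⟨ρ, ρ0, hρ⟩ : ∃ ρ : ℝ, 0 < ρ ∧ (ρ ^ 2) ^ (-a) = η := by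
    refine ⟨√(η ^ (-a)⁻¹), Real.sqrt_pos.2 (Real.rpow_pos_of_pos hη _), ?_⟩
    rw [Real.sq_sqrt (Real.rpow_nonneg hη.le _), Real.rpow_inv_rpow hη.le (by linarith)]
  obtain ⟨ε, ε0, hε⟩ : ∃ ε : ℝ, 0 < ε ∧
      ε = pr (η / 2) * (m * (m - 2) * ρ ^ 2 * (2 * ρ ^ 2) ^ (-(((m : ℝ) + 2) / 2))) :=
    ⟨_, mul_pos (pr_pos (half_pos hη)) (mul_pos (mul_pos (mul_pos (by linarith) (by linarith))
      (pow_pos ρ0 2)) (Real.rpow_pos_of_pos (by positivity) _)), rfl⟩
  refine ⟨(C₀ * η / ε).toNNReal, fun e u hu => ?_⟩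
  obtain ⟨s0, s1, s2⟩ := h₀ e hu.e0
  have u0 := (up p χ e u hχ hu).1
  have cu : Continuous u := continuous_iff_continuousAt.2 fun q => C.cont (hu.sm q)
  have kc : IsClosed {q | η / 2 ≤ u q} := isClosed_le continuous_const cu
  have hK : IsCompact {q | η / 2 ≤ u q} := by
    obtain ⟨K, hK, hs⟩ := mem_cocompact.1 (hu.dec (Iio_mem_nhds (half_pos hη)))
    refine hK.of_isClosed_subset kc fun q hq => ?_
    by_contra h
    exact (not_lt.2 (show η / 2 ≤ u q from hq)) (show u q < η / 2 from hs h)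
  have cF : ContDiff ℝ ∞ fun t => pr (t - η / 2) := pr_sm.comp (contDiff_id.sub contDiff_const)
  have sb : ∀ q, G.Sm (fun q => pr (u q - η / 2)) q := fun q =>
    C.comp (F := fun t => pr (t - η / 2)) (Eventually.of_forall fun _ => cF.contDiffAt) (hu.sm q)
  have z0 : ∀ q, q ∉ {q | η / 2 ≤ u q} → pr (u q - η / 2) = 0 := fun q hq =>
    pr_zero (by linarith [not_le.1 (show ¬ η / 2 ≤ u q from hq)])
  have z1 : ∀ q, q ∉ {q | η / 2 ≤ u q} → G.Lap (fun q => pr (u q - η / 2)) q = 0 := fun q hq =>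
    lap_loc C (c := 0) (by
      filter_upwards [kc.isOpen_compl.mem_nhds hq] with z hz using z0 z hz)
  have lb : ∀ q, -G.Lap (fun q => pr (u q - η / 2)) q ≤ src G p χ e q := fun q => by
    have d2 : HasDerivAt (fun t => Real.smoothTransition (t - η / 2))
        (deriv Real.smoothTransition (u q - η / 2)) (u q) :=
      ((Real.smoothTransition.contDiff (n := 1)).differentiable (by simp) _).hasDerivAt.comp_sub_const
        _ _
    rw [C.lcomp (F := fun t => pr (t - η / 2)) (F' := fun t => Real.smoothTransition (t - η / 2))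
      (Eventually.of_forall fun _ => cF.contDiffAt)
      (Eventually.of_forall fun t => (pr_der _).comp_sub_const _ _) d2 (hu.sm q)]
    have b1 : 0 ≤ deriv Real.smoothTransition (u q - η / 2) * G.Gam u u q :=
      mul_nonneg Real.smoothTransition.monotone.deriv_nonneg
        (Finset.sum_nonneg fun i _ => mul_self_nonneg _)
    have b2 : G.Lap u q = e * u q - src G p χ e q := by
      have := hu.eq q
      rw [src]; linarith
    have b3 := Real.smoothTransition.nonneg (u q - η / 2)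
    have b4 := Real.smoothTransition.le_one (u q - η / 2)
    have b5 := mul_nonneg b3 (mul_nonneg hu.e0.le (u0 q).1)
    have b6 := mul_le_of_le_one_left (s0 q) b4
    rw [b2]
    nlinarith
  have sW := fun q a => smW g1 hm C p q ρ0 a
  have i3 := intg C hK (fun q => C.mul (sb q) (C.smL (sW q ((m - 2) / 2)).1))
    fun q hq => by simp [z0 q hq]
  have i4 := intg C hK (fun q => C.mul (C.smL (sb q)) (sW q ((m - 2) / 2)).1)
    fun q hq => by simp [z1 q hq]
  have n0 : ∀ q, 0 ≤ (m * (m - 2) : ℝ) * ρ ^ 2 * G.W p ρ ((m + 2) / 2) q := fun q =>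
    mul_nonneg (mul_nonneg (mul_nonneg (by linarith) (by linarith)) (sq_nonneg _)) (sW q _).2.le
  have e1 : ∫ q, -(pr (u q - η / 2) * G.Lap (G.W p ρ ((m - 2) / 2)) q) ∂G.μ ≤ C₀ * η := by
    rw [integral_neg, green C hK sb (fun q => (sW q _).1) z0, ← integral_neg]
    refine le_trans ?_ (mul_le_mul_of_nonneg_right s2 hη.le)
    rw [← integral_mul_const]
    refine integral_mono i4.neg (s1.mul_const _) fun q => ?_
    have a5 : G.W p ρ ((m - 2) / 2) q ≤ η := by
      rw [← hρ, ← ha]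
      exact Real.rpow_le_rpow_of_nonpos (pow_pos ρ0 2) (by linarith [rr0 (G := G) p q])
        (by linarith)
    dsimp only
    rw [← neg_mul]
    exact mul_le_mul (lb q) a5 (sW q _).2.le (s0 q)
  have e2 := mul_meas_ge_le_integral_of_nonneg (μ := G.μ)
    (f := fun q => -(pr (u q - η / 2) * G.Lap (G.W p ρ ((m - 2) / 2)) q))
    (Eventually.of_forall fun q => by
      have := mul_nonneg (pr_nn (u q - η / 2)) ((n0 q).trans (lapW g1 hm C p q ρ0))
      simpa using this) i3.neg ε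
  have := C.fin
  have f1 : G.μ {q | ε ≤ -(pr (u q - η / 2) * G.Lap (G.W p ρ ((m - 2) / 2)) q)} ≠ ⊤ := by
    refine ((measure_mono fun q hq => ?_).trans_lt hK.measure_lt_top).ne
    by_contra h
    have h1 : ε ≤ -(pr (u q - η / 2) * G.Lap (G.W p ρ ((m - 2) / 2)) q) := hq
    rw [z0 q h] at h1
    linarith
  have f2 : {q | η ≤ u q} ⊆ {q | ε ≤ -(pr (u q - η / 2) * G.Lap (G.W p ρ ((m - 2) / 2)) q)} := by
    intro q hq
    have b0 : η ≤ u q := hq
    have r0 := rr0 (G := G) p q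
    have b1 : G.rr p q + e ^ 2 ≤ ρ ^ 2 := by
      have := b0.trans (u0 q).2
      rw [← hρ, ← ha, Geo.W] at this
      have e0 := hu.e0
      exact (Real.rpow_le_rpow_iff_of_neg (pow_pos ρ0 2) (by positivity) (by linarith)).1 this
    have b2 : (2 * ρ ^ 2) ^ (-(((m : ℝ) + 2) / 2)) ≤ G.W p ρ ((m + 2) / 2) q :=
      Real.rpow_le_rpow_of_nonpos (by positivity) (by nlinarith [sq_nonneg e]) (by linarith)
    have b3 : pr (η / 2) ≤ pr (u q - η / 2) := pr_mono (by linarith)
    change ε ≤ _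
    rw [hε, ← mul_neg]
    refine mul_le_mul b3 (le_trans ?_ (lapW g1 hm C p q ρ0)) ?_ (pr_nn _)
    · exact mul_le_mul_of_nonneg_left b2
        (mul_nonneg (mul_nonneg (by linarith) (by linarith)) (sq_nonneg _))
    · exact mul_nonneg (mul_nonneg (mul_nonneg (by linarith) (by linarith)) (sq_nonneg _))
        (Real.rpow_nonneg (by positivity) _)
  refine (measure_mono f2).trans ?_
  change _ ≤ ENNReal.ofReal _
  rw [← ofReal_measureReal f1]
  refine ENNReal.ofReal_le_ofReal ?_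
  rw [le_div_iff₀ ε0, mul_comm]
  exact e2.trans e1

end Vale.Agent.P134L
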