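import Vale.Agent.P134L.Defs

/-!
# Row G5: uniform decay of the approximate Green functions
-/

set_option linter.all false

open MeasureTheory Set Filter Metric Topology
open scoped ContDiff InnerProductSpace NNReal

namespace Vale.Agent.P134L

/-- row G5 -/
theorem g5 : G5 := by
  intro m M _ _ _ _ G hm C lc up vol p χ hχ η hη
  obtain ⟨R0, hR0, H, hH, har⟩ := lc.har
  obtain ⟨c, hc, hv⟩ := C.vol
  obtain ⟨C', hC'⟩ := vol p χ hχ (η / H) (by positivity)
  have r0 : 0 < min R0 1 := lt_min hR0 one_pos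
  have r1 : min R0 1 ≤ 1 := min_le_right _ _
  have r2 : min R0 1 ≤ R0 := min_le_left _ _
  generalize min R0 1 = R at r0 r1 r2
  have a0 : 0 < c * (R / 16) ^ m := by positivity
  obtain ⟨n, hn⟩ := exists_nat_gt (C' / (c * (R / 16) ^ m))
  refine ⟨2 + 2 * n, fun e u hu q hq => ?_⟩
  by_contra hlt
  obtain ⟨u0, u1⟩ := up p χ e u hχ hu
  have ex : ∀ j : Fin n, ∃ z, dist z p = 2 + 2 * ((j : ℕ) : ℝ) ∧ η < u z := fun j => by
    by_contra h
    push Not at h
    have j0 : (0 : ℝ) ≤ (j : ℕ) := Nat.cast_nonneg _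
    have j1 : ((j : ℕ) : ℝ) ≤ n := Nat.cast_le.2 j.2.le
    exact hlt (u1 _ η (by linarith) hη.le h q (by linarith))
  choose z hz hz' using ex
  have sub : ∀ j, ball (z j) (R / 16) ⊆ {q | η / H ≤ u q} := fun j w hw => by
    have k := (har u (z j) R r0 r2 (fun w hw => ⟨hu.sm w, (u0 w).1, ?_⟩) w hw).2
    · rw [mem_setOf_eq, div_le_iff₀' hH]
      exact (hz' j).le.trans k
    · have j0 : (0 : ℝ) ≤ (j : ℕ) := Nat.cast_nonneg _
      have t := dist_triangle (z j) w p
      have e1 := hu.eq w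
      rw [mem_ball, dist_comm] at hw
      rw [hχ.zero w (by linarith [hz j]), zero_mul, sub_eq_zero] at e1
      rw [← e1, abs_of_nonneg (mul_nonneg hu.e0.le (u0 w).1)]
      exact mul_le_of_le_one_left (u0 w).1 hu.e1
  have dis : Pairwise (Function.onFun Disjoint fun j => ball (z j) (R / 16)) := fun i j hij => by
    refine ball_disjoint_ball (le_trans ?_ (abs_dist_sub_le (z i) (z j) p))
    rw [hz, hz]
    rcases lt_or_gt_of_ne (Fin.val_ne_of_ne hij) with h | h
    · have : ((i : ℕ) : ℝ) + 1 ≤ (j : ℕ) := by exact_mod_cast h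
      exact le_abs.2 (Or.inr (by linarith))
    · have : ((j : ℕ) : ℝ) + 1 ≤ (i : ℕ) := by exact_mod_cast h
      exact le_abs.2 (Or.inl (by linarith))
  have k := (measure_mono (iUnion_subset sub)).trans (hC' e u hu)
  rw [measure_iUnion dis fun _ => measurableSet_ball, tsum_fintype] at k
  have k2 := (Finset.sum_le_sum fun j _ => hv (z j) (R / 16) (by positivity) (by linarith)).trans k
  rw [Finset.sum_const, Finset.card_univ, Fintype.card_fin, nsmul_eq_mul, ← ENNReal.ofReal_natCast,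
    ← ENNReal.ofReal_mul (Nat.cast_nonneg _), ENNReal.ofReal_le_iff_le_toReal ENNReal.coe_ne_top,
    ENNReal.coe_toReal] at k2
  rw [div_lt_iff₀ a0] at hn
  linarith

end Vale.Agent.P134L
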