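import Vale.Agent.P134L.Defs

/-!
# Row G6: limits of almost harmonic functions
-/

open MeasureTheory Set Filter Metric Topology

noncomputable section

namespace Vale.Agent.P134L

variable {m : ℕ} {M : Type} [MetricSpace M] [MeasurableSpace M] {G : Geo m M}

namespace G6

/-- a uniform Lipschitz estimate -/
theorem lip [ProperSpace M] (L : Loc G) {O : Set M} {u : ℕ → M → ℝ} (hO : IsOpen O)
    (sm : ∀ k, ∀ q ∈ O, G.Sm (u k) q)
    (bd : ∀ K ⊆ O, IsCompact K → ∃ C, ∀ k, ∀ q ∈ K, |u k q| ≤ C ∧ |G.Lap (u k) q| ≤ C)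
    {p : M} (hp : p ∈ O) : ∃ r > (0 : ℝ), ∃ K ≥ (0 : ℝ), ball p r ⊆ O ∧
      ∀ k, ∀ q ∈ ball p r, |u k q - u k p| ≤ K * dist q p := by
  obtain ⟨R, R0, c, c0, grd⟩ := L.grd
  obtain ⟨ε, ε0, hε⟩ := Metric.isOpen_iff.1 hO p hp
  obtain ⟨r, r0, r1, r2, r3⟩ : ∃ r > (0 : ℝ), r ≤ 1 ∧ r ≤ R ∧ 3 * r < ε :=
    ⟨min 1 (min R (ε / 4)), by positivity, min_le_left _ _,
      (min_le_right _ _).trans (min_le_left _ _),
      by linarith [(min_le_right 1 (min R (ε / 4))).trans (min_le_right _ _)]⟩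
  have sub := (closedBall_subset_ball r3).trans hε
  obtain ⟨B, hB⟩ := bd _ sub (isCompact_closedBall p _)
  have B0 : 0 ≤ B := (abs_nonneg _).trans (hB 0 p (mem_closedBall_self (by positivity))).1
  refine ⟨r, r0, 2 * (c * (B / r + r * B)), by positivity,
    (ball_subset_ball (by linarith)).trans hε, fun k => L.lipz (u k) p r _ r1 (by positivity)
      fun y hy => ⟨sm k y (hε (ball_subset_ball (by linarith) hy)),
        grd (u k) y r B B r0 r2 B0 fun z hz => ?_⟩⟩
  have : z ∈ closedBall p (3 * r) := by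
    rw [mem_ball] at hy hz
    rw [mem_closedBall]
    linarith [dist_triangle z y p]
  exact ⟨sm k z (sub this), hB k z this⟩

omit [MetricSpace M] in
theorem small {μ : Measure M} {K : Set M} {a b : M → ℝ} {η : ℝ} (ia : Integrable a μ)
    (h0 : ∀ q ∉ K, a q = 0) (hb : ∀ q ∈ K, |b q| ≤ η) :
    |∫ q, a q * b q ∂μ| ≤ η * ∫ q, |a q| ∂μ := by
  rw [← integral_const_mul, ← Real.norm_eq_abs]
  refine norm_integral_le_of_norm_le (ia.abs.const_mul η) (.of_forall fun q => ?_)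
  by_cases h : q ∈ K
  · rw [Real.norm_eq_abs, abs_mul, mul_comm]
    exact mul_le_mul_of_nonneg_right (hb q h) (abs_nonneg _)
  · simp [h0 q h]

end G6

open G6 in
theorem g6 : G6 := by
  intro m M _ _ _ _ G _ C L O u F hO sm bd
  have ex : ∀ q, ∃ a, q ∈ O → Tendsto (fun k => u k q) F (𝓝 a) := fun q => by
    by_cases h : q ∈ O
    · obtain ⟨B, hB⟩ := (bd {q} (singleton_subset_iff.2 h) isCompact_singleton).1
      obtain ⟨a, -, ha⟩ := (isCompact_Icc (a := -B) (b := B)).ultrafilter_le_nhds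
        (F.map fun k => u k q) (le_principal_iff.2 (mem_map.2 (univ_mem' fun k =>
          abs_le.1 (hB k q rfl).1)))
      exact ⟨a, fun _ => ha⟩
    · exact ⟨0, fun h' => (h h').elim⟩
  choose w hw using ex
  have lp : ∀ p ∈ O, ∃ r > (0 : ℝ), ∃ K ≥ (0 : ℝ), ∀ q ∈ ball p r,
      (∀ k, |u k q - u k p| ≤ K * dist q p) ∧ |w q - w p| ≤ K * dist q p := fun p hp => by
    obtain ⟨r, r0, K, K0, h1, h2⟩ := lip L hO sm (fun K a b => (bd K a b).1) hp
    exact ⟨r, r0, K, K0, fun q hq => ⟨fun k => h2 k q hq,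
      le_of_tendsto' ((hw q (h1 hq)).sub (hw p hp)).abs fun k => h2 k q hq⟩⟩
  have lp' : ∀ p ∈ O, ∀ η > (0 : ℝ), ∀ᶠ q in 𝓝 p,
      (∀ k, |u k q - u k p| < η) ∧ |w q - w p| < η := fun p hp η hη => by
    obtain ⟨r, r0, K, -, h⟩ := lp p hp
    have t : Tendsto (fun q => K * dist q p) (𝓝 p) (𝓝 (K * dist p p)) :=
      Continuous.tendsto (by fun_prop) p
    rw [dist_self, mul_zero] at t
    filter_upwards [ball_mem_nhds p r0, t.eventually (gt_mem_nhds hη)] with q h1 h2
    exact ⟨fun k => ((h q h1).1 k).trans_lt h2, (h q h1).2.trans_lt h2⟩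
  have cw : ContinuousOn w O := fun p hp => ContinuousAt.continuousWithinAt
    (Metric.tendsto_nhds.2 fun η hη => (lp' p hp η hη).mono fun q h => h.2)
  have un : ∀ K ⊆ O, IsCompact K → ∀ η > (0 : ℝ), ∀ᶠ k in F, ∀ q ∈ K, |w q - u k q| ≤ η := by
    intro K hK cK η hη
    refine cK.induction_on (p := fun s => ∀ᶠ k in F, ∀ q ∈ s, |w q - u k q| ≤ η)
      (.of_forall fun _ _ h => h.elim) (fun s t st h => h.mono fun k hk q hq => hk q (st hq))
      (fun s t hs ht => (hs.and ht).mono fun k hk q hq => hq.elim (hk.1 q) (hk.2 q))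
      fun p hp => ⟨_, mem_nhdsWithin_of_mem_nhds (lp' p (hK hp) (η / 3) (by positivity)), ?_⟩
    filter_upwards [Metric.tendsto_nhds.1 (hw p (hK hp)) (η / 3) (by positivity)] with k hk q hq
    have h1 := abs_lt.1 (hq.1 k)
    have h2 := abs_lt.1 hq.2
    have h3 := abs_lt.1 (Real.dist_eq _ _ ▸ hk)
    exact abs_le.2 ⟨by linarith, by linarith⟩
  have := C.fin
  have := C.pos
  have cs : ∀ {f : M → ℝ}, (∀ q ∈ O, G.Sm f q) → ContinuousOn f O := fun h q hq =>
    (C.cont (h q hq)).continuousWithinAt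
  obtain ⟨v, hv, e⟩ := L.hyp O w (fun _ => 0) 0 hO (cw.locallyIntegrableOn hO.measurableSet)
    (fun q _ => C.smc 0 q) fun ψ s1 s2 s3 => by
      have z1 : ∀ q ∉ tsupport ψ, ψ q = 0 := fun q h => image_eq_zero_of_notMem_tsupport h
      have z2 : ∀ q ∉ tsupport ψ, G.Lap ψ q = 0 := fun q h =>
        (C.lcg (notMem_tsupport_iff_eventuallyEq.1 h)).trans (C.lc 0 q)
      have cl : ContinuousOn (G.Lap ψ) O := cs fun q _ => C.smL (s1 q)
      have i1 := C.int hO s2 s3 (cs fun q _ => s1 q) fun q _ => z1 q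
      have i2 := C.int hO s2 s3 cl fun q _ => z2 q
      have i3 : ∀ {f : M → ℝ}, ContinuousOn f O →
          IntegrableOn (fun q => G.Lap ψ q * f q) O G.μ := fun h =>
        C.int hO s2 s3 (cl.mul h) fun q _ h' => by rw [z2 q h', zero_mul]
      have key : ∫ q in O, G.Lap ψ q * w q ∂G.μ = 0 := by
        set A := ∫ q in O, |G.Lap ψ q| ∂G.μ + ∫ q in O, |ψ q| ∂G.μ
        have t : Tendsto (fun η : ℝ => η * A) (𝓝[>] 0) (𝓝 (0 * A)) :=
          (Continuous.tendsto (by fun_prop) 0).mono_left nhdsWithin_le_nhds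
        rw [zero_mul] at t
        refine abs_nonpos_iff.1 (ge_of_tendsto t (eventually_mem_nhdsWithin.mono fun η hη => ?_))
        obtain ⟨k, k1, k2⟩ := ((un _ s3 s2 η hη).and ((bd _ s3 s2).2 η hη)).exists
        have a1 := small i2 z2 k1
        have a2 := small i1 z1 k2
        rw [C.gr2 hO s2 s3 (fun q h => ⟨s1 q, sm k q h⟩) fun q _ => z1 q] at a2
        simp only [mul_sub] at a1
        rw [integral_sub (i3 cw) (i3 (cs (sm k)))] at a1
        rw [mul_add]
        exact abs_le.2 ⟨by linarith [abs_le.1 a1, abs_le.1 a2],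
          by linarith [abs_le.1 a1, abs_le.1 a2]⟩
      rw [setIntegral_eq_integral_of_forall_compl_eq_zero fun q h => by
        rw [z2 q fun h' => h (s3 h'), zero_mul]] at key
      simp only [zero_mul, zero_sub, neg_mul, integral_neg, integral_zero, mul_comm (w _), key,
        neg_zero]
  have ev := Measure.eqOn_open_of_ae_eq ((ae_restrict_iff' hO.measurableSet).2 e) hO
    (cs fun q h => (hv q h).1) cw
  exact ⟨v, fun q h => ⟨(hv q h).1, by simpa using (hv q h).2, ev h ▸ hw q h⟩⟩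

end Vale.Agent.P134L
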