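import Vale.Agent.P134L.Defs

/-!
# Row G7: the Green function as a limit of the approximate Green functions
-/

open MeasureTheory Set Filter Metric Topology

noncomputable section

namespace Vale.Agent.P134L

variable {m : ℕ} {M : Type} [MetricSpace M] [MeasurableSpace M] {G : Geo m M} {p q : M}

namespace G7

theorem rr_ge (C : Core G) {ρ : ℝ} (h0 : 0 ≤ ρ) (h : ρ ≤ dist q p) (h' : dist q p < 2) :
    ρ ^ 2 / 4 ≤ G.rr p q := by
  have := h.trans (C.near p q h').1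
  have := pow_le_pow_left₀ h0 this 2
  unfold Geo.rr
  linarith

theorem W_le {e a s : ℝ} (ha : 0 ≤ a) (hs : 0 < s) (h : s ≤ G.rr p q) :
    G.W p e a q ≤ s ^ (-a) :=
  Real.rpow_le_rpow_of_nonpos hs (h.trans (le_add_of_nonneg_right (sq_nonneg e)))
    (neg_nonpos.2 ha)

theorem W_nn (e a : ℝ) : 0 ≤ G.W p e a q :=
  Real.rpow_nonneg (add_nonneg (sq_nonneg _) (sq_nonneg e)) _

theorem W_lim {e : ℕ → ℝ} {F : Filter ℕ} (he : Tendsto e F (𝓝 0)) (a : ℝ) (h : 0 < G.rr p q) :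
    Tendsto (fun k => G.W p (e k) a q) F (𝓝 (G.W p 0 a q)) :=
  (tendsto_const_nhds.add (he.pow 2)).rpow_const (.inl (by simpa using h.ne'))

/-- uniform bounds away from the pole -/
theorem bound (hm : 4 ≤ m) (C : Core G) (up : Up G) {χ : M → ℝ} (hχ : Bmp G p χ) {ρ : ℝ}
    (h0 : 0 < ρ) : ∃ B, ∀ e u, Sol G p χ e u → ∀ q, ρ ≤ dist q p →
      |u q| ≤ B ∧ |G.Lap u q| ≤ e * B := by
  wlog h1 : ρ ≤ 1 generalizing ρ
  · obtain ⟨B, hB⟩ := this one_pos le_rfl
    exact ⟨B, fun e u hu q hq => hB e u hu q ((not_le.1 h1).le.trans hq)⟩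
  have m4 : (4 : ℝ) ≤ m := by exact_mod_cast hm
  have s0 : 0 < ρ ^ 2 / 4 := by positivity
  have w : ∀ e a q, 0 ≤ a → ρ ≤ dist q p → dist q p ≤ 1 → G.W p e a q ≤ (ρ ^ 2 / 4) ^ (-a) :=
    fun e a q ha h h' => W_le ha s0 (rr_ge C h0.le h (by linarith))
  set B₁ := (ρ ^ 2 / 4) ^ (-(((m : ℝ) - 2) / 2))
  set B₂ := m * (m - 2) * (ρ ^ 2 / 4) ^ (-(((m : ℝ) + 2) / 2))
  have b1 : 0 ≤ B₁ := Real.rpow_nonneg s0.le _
  have mm : 0 ≤ (m : ℝ) * (m - 2) := mul_nonneg (by linarith) (by linarith)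
  have b2 : 0 ≤ B₂ := mul_nonneg mm (Real.rpow_nonneg s0.le _)
  refine ⟨B₁ + B₂, fun e u hu q hq => ?_⟩
  obtain ⟨u1, u2⟩ := up p χ e u hχ hu
  have e0 := hu.e0
  have k1 : u q ≤ B₁ := by
    rcases le_total (dist q p) 1 with h | h
    · exact (u1 q).2.trans (w _ _ _ (by linarith) hq h)
    · exact u2 1 B₁ le_rfl b1
        (fun z hz => (u1 z).2.trans (w _ _ _ (by linarith) (hz ▸ h1) hz.le)) q h
  have k2 : 0 ≤ e * u q - G.Lap u q ∧ e * u q - G.Lap u q ≤ e * B₂ := by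
    rw [hu.eq]
    have n := mul_nonneg (mul_nonneg mm (sq_nonneg e)) (W_nn (G := G) (p := p) (q := q) e ((m + 2) / 2))
    refine ⟨mul_nonneg (hχ.mem q).1 n, ?_⟩
    rcases le_total (dist q p) 1 with h | h
    · refine (mul_le_of_le_one_left n (hχ.mem q).2).trans ?_
      have e2 : e ^ 2 ≤ e := by nlinarith [hu.e1]
      calc _ ≤ m * (m - 2) * e * (ρ ^ 2 / 4) ^ (-(((m : ℝ) + 2) / 2)) :=
            mul_le_mul (mul_le_mul_of_nonneg_left e2 mm) (w _ _ _ (by linarith) hq h) (W_nn _ _)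
              (mul_nonneg mm e0.le)
        _ = _ := by ring
    · rw [hχ.zero q h, zero_mul]; positivity
  have k3 := mul_nonneg e0.le (u1 q).1
  have k4 := mul_le_mul_of_nonneg_left k1 e0.le
  have k5 := mul_nonneg e0.le b1
  have k6 := mul_nonneg e0.le b2
  exact ⟨abs_le.2 ⟨by linarith [(u1 q).1], by linarith⟩,
    abs_le.2 ⟨by linarith [k2.2], by linarith [k2.1]⟩⟩

end G7

open G7 in
theorem g7 : G7 := by
  intro g1 m M _ _ _ _ G hm C res up low far lim p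
  have m4 : (4 : ℝ) ≤ m := by exact_mod_cast hm
  obtain ⟨χ, c1, c2, c3, c4⟩ := C.bump p 1 one_pos one_le_two
  have hχ : Bmp G p χ := ⟨c1, c2, c3, c4⟩
  let e : ℕ → ℝ := fun k => 1 / (k + 1)
  have e0 : ∀ k, 0 < e k := fun k => Nat.one_div_pos_of_nat
  have e1 : ∀ k, e k ≤ 1 := fun k => (div_le_one (Nat.cast_add_one_pos k)).2
    (le_add_of_nonneg_left k.cast_nonneg)
  have he : Tendsto e (hyperfilter ℕ) (𝓝 0) :=
    tendsto_one_div_add_atTop_nhds_zero_nat.mono_left Nat.hyperfilter_le_atTop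
  choose u hu hd using fun k => res (e k)
    (fun q => χ q * (m * (m - 2) * e k ^ 2 * G.W p (e k) ((m + 2) / 2) q)) (e0 k)
    (fun q => C.mul (c1 q) (C.mul (C.smc _ q) (g1 m M G hm C p q _ _
      (add_pos_of_nonneg_of_pos (sq_nonneg _) (pow_pos (e0 k) 2))).1))
    (.intro (isCompact_closedBall p 1) fun q hq => by
      rw [c4 q (not_le.1 (mt mem_closedBall.2 hq)).le, zero_mul])
  have sol : ∀ k, Sol G p χ (e k) (u k) := fun k =>
    ⟨e0 k, e1 k, fun q => (hu k q).1, fun q => (hu k q).2, hd k⟩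
  obtain ⟨g, hg⟩ := lim {p}ᶜ u (hyperfilter ℕ) isOpen_compl_singleton (fun k q _ => (hu k q).1)
    fun K hK cK => by
      obtain ⟨ρ, h0, hρ⟩ := Metric.isOpen_iff.1 cK.isClosed.isOpen_compl p fun h => hK h rfl
      obtain ⟨B, hB⟩ := bound hm C.toCore up hχ h0
      have hq : ∀ k, ∀ q ∈ K, |u k q| ≤ B ∧ |G.Lap (u k) q| ≤ e k * B := fun k q hq =>
        hB _ _ (sol k) q (not_lt.1 fun h => hρ h hq)
      refine ⟨⟨B, fun k q h => ⟨(hq k q h).1, (hq k q h).2.trans (mul_le_of_le_one_left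
        ((abs_nonneg _).trans (hq k q h).1) (e1 k))⟩⟩, fun η hη => ?_⟩
      have := he.mul_const B
      rw [zero_mul] at this
      exact (this.eventually (ge_mem_nhds hη)).mono fun k hk q h => (hq k q h).2.trans hk
  have ne : ∀ {ρ q}, 0 < ρ → ρ ≤ dist q p → q ≠ p := fun h h' => dist_pos.1 (h.trans_le h')
  refine ⟨g, fun q h => (hg q h).1, fun q h => (hg q h).2.1,
    fun q h => ge_of_tendsto' (hg q h).2.2 fun k => ((up p χ _ _ hχ (sol k)).1 q).1,
    fun q h r0 => le_of_tendsto_of_tendsto' (hg q h).2.2 (W_lim he _ r0)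
      fun k => ((up p χ _ _ hχ (sol k)).1 q).2, ?_, fun ρ h0 => ?_, fun η hη => ?_⟩
  · obtain ⟨c, hc⟩ := low p χ hχ
    refine ⟨c, fun q h h' => ?_⟩
    have d0 := dist_pos.2 h
    have r0 : 0 < G.rr p q :=
      lt_of_lt_of_le (by positivity) (rr_ge C.toCore d0.le le_rfl (by linarith))
    exact le_of_tendsto_of_tendsto' ((W_lim he _ r0).sub ((W_lim he _ r0).const_mul c))
      (hg q h).2.2 fun k => hc _ _ (sol k) q h'
  · obtain ⟨B, hB⟩ := bound hm C.toCore up hχ h0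
    exact ⟨B, fun q h => le_of_tendsto' (hg q (ne h0 h)).2.2
      fun k => (le_abs_self _).trans (hB _ _ (sol k) q h).1⟩
  · obtain ⟨d, hd⟩ := far p χ hχ η hη
    exact ⟨max d 1, fun q h => le_of_tendsto' (hg q (ne one_pos (le_of_max_le_right h))).2.2
      fun k => hd _ _ (sol k) q (le_of_max_le_left h)⟩

end Vale.Agent.P134L
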