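import Vale.Agent.P134L.Defs

/-!
# The gradient of the Green function at the pole
-/

open MeasureTheory Set Filter Metric Topology

noncomputable section

namespace Vale.Agent.P134L

namespace G8p

variable {n : ℕ} {M : Type} [MetricSpace M] [MeasurableSpace M] {G : Geo (n + 3) M}
  {g : M → ℝ} {p q : M}

omit [MetricSpace M] in
theorem Wk (h : 0 < ‖G.x q - G.x p‖) (k : ℕ) {a : ℝ} (ha : a = k / 2) :
    G.W p 0 a q = (‖G.x q - G.x p‖ ^ k)⁻¹ := by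
  rw [Geo.W, Geo.rr, ha, zero_pow two_ne_zero, add_zero, ← Real.rpow_natCast _ 2,
    ← Real.rpow_mul h.le, ← Real.rpow_natCast, ← Real.rpow_neg h.le]
  congr 1
  push_cast
  ring

theorem sq_add {ι : Type} [Fintype ι] (a b : ι → ℝ) {t : ℝ} (ht : 0 < t) :
    |∑ i, (a i + b i) * (a i + b i) - ∑ i, a i * a i| ≤
      t * ∑ i, a i * a i + (1 + t⁻¹) * ∑ i, b i * b i := by
  rw [← Finset.sum_sub_distrib, Finset.mul_sum, Finset.mul_sum, ← Finset.sum_add_distrib]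
  refine (Finset.abs_sum_le_sum_abs _ _).trans (Finset.sum_le_sum fun i _ => ?_)
  have e : ∀ s : ℝ, 0 ≤ t⁻¹ * (t * a i + s * b i) ^ 2 := fun s => by positivity
  have e1 := e 1
  have e2 := e (-1)
  have : t⁻¹ * t = 1 := inv_mul_cancel₀ ht.ne'
  have f : ∀ s : ℝ, t⁻¹ * (t * a i + s * b i) ^ 2 =
      t * (a i * a i) + 2 * s * (a i * b i) + s ^ 2 * t⁻¹ * (b i * b i) := fun s => by
    field_simp
    ring
  rw [f] at e1 e2
  rw [abs_le]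
  constructor <;> nlinarith [mul_self_nonneg (b i)]

theorem num {r J b K Γ : ℝ} (r0 : 0 < r) (r1 : r ≤ 1) (n2 : |J| ≤ 2 * r ^ 2)
    (b1 : b ≤ (K / r ^ (n + 1)) ^ 2)
    (a3 : |Γ - 4 * ((n + 3 - 2) / 2) ^ 2 * ((r ^ (n + 3)) ^ 2)⁻¹ * (r ^ 2 - J ^ 2)| ≤
      r * (4 * ((n + 3 - 2) / 2) ^ 2 * ((r ^ (n + 3)) ^ 2)⁻¹ * (r ^ 2 - J ^ 2)) + (1 + r⁻¹) * b) :
    |r ^ (2 * (n + 2)) * Γ / (n + 1) ^ 2 - 1| ≤ (5 + 2 * K ^ 2) * r := by
  have j : J ^ 2 ≤ 4 * r ^ 4 := by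
    rw [← sq_abs]
    exact (pow_le_pow_left₀ (abs_nonneg _) n2 2).trans_eq (by ring)
  have e : 4 * (((n : ℝ) + 3 - 2) / 2) ^ 2 * ((r ^ (n + 3)) ^ 2)⁻¹ * (r ^ 2 - J ^ 2) =
      (r ^ (2 * (n + 2)) / (n + 1) ^ 2)⁻¹ * (1 - J ^ 2 / r ^ 2) := by
    field_simp; ring
  have j1 : J ^ 2 / r ^ 2 ≤ 4 * r := by
    rw [div_le_iff₀ (by positivity)]
    nlinarith [mul_le_mul_of_nonneg_left r1 (pow_pos r0 3).le]
  have j0 : 0 ≤ J ^ 2 / r ^ 2 := by positivity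
  rw [e] at a3
  generalize J ^ 2 / r ^ 2 = t at *
  have b2 : r ^ (2 * (n + 2)) / (n + 1) ^ 2 * ((1 + r⁻¹) * b) ≤ 2 * K ^ 2 * r :=
    calc _ ≤ r ^ (2 * (n + 2)) / (n + 1) ^ 2 * ((1 + r⁻¹) * (K / r ^ (n + 1)) ^ 2) := by gcongr
      _ ≤ r ^ (2 * (n + 2)) / 1 * ((r⁻¹ + r⁻¹) * (K / r ^ (n + 1)) ^ 2) := by
          gcongr
          exacts [one_le_pow₀ (by simp), one_le_inv₀ r0 |>.2 r1]
      _ = _ := by field_simp; ring
  rw [mul_div_right_comm]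
  have s0 : 0 < r ^ (2 * (n + 2)) / (n + 1) ^ 2 := by positivity
  generalize r ^ (2 * (n + 2)) / (n + 1) ^ 2 = s at *
  have a4 := mul_le_mul_of_nonneg_left a3 s0.le
  have e1 : s * |Γ - s⁻¹ * (1 - t)| = |s * Γ - (1 - t)| := by
    rw [← abs_of_pos s0, ← abs_mul, abs_of_pos s0, mul_sub, mul_inv_cancel_left₀ s0.ne']
  rw [e1, mul_add, mul_left_comm, mul_inv_cancel_left₀ s0.ne', abs_le] at a4
  rw [abs_le]
  constructor <;> nlinarith [mul_nonneg r0.le j0]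

variable (g1 : G1) [ProperSpace M] [BorelSpace M] (c : Calc G) (hn : 4 ≤ n + 3) (P : Pre G p g)
include g1 c hn P

theorem loc : ∃ C ≥ (0 : ℝ), ∀ q, dist q p ≤ 1 / 4 → ∀ ρ, 0 < ρ → ρ ≤ ‖G.x q - G.x p‖ →
    G.Sm (fun q => g q - G.W p 0 ((((n + 3 : ℕ) : ℝ) - 2) / 2) q) q ∧
    |g q - G.W p 0 ((((n + 3 : ℕ) : ℝ) - 2) / 2) q| ≤ C * (ρ ^ n)⁻¹ ∧
    |G.Lap (fun q => g q - G.W p 0 ((((n + 3 : ℕ) : ℝ) - 2) / 2) q) q| ≤ C * (ρ ^ (n + 1))⁻¹ := by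
  obtain ⟨C, hC⟩ := P.lo
  refine ⟨|C| + 4 * ((n + 3) * (n + 1)), by positivity, fun q d ρ ρ0 l => ?_⟩
  have r0 := ρ0.trans_le l
  have ne : q ≠ p := fun e => by simp [e] at r0
  have rp : 0 < G.rr p q := pow_pos r0 2
  obtain ⟨s, -, -, lap⟩ := g1 _ M G hn c p q 0 ((((n + 3 : ℕ) : ℝ) - 2) / 2) (by simpa using rp)
  refine ⟨c.sub (P.sm q ne) s, ?_, ?_⟩
  · have a1 := P.up q ne rp
    have a2 := hC q ne d
    rw [Wk r0 n (a := (((n + 3 : ℕ) : ℝ) - 3) / 2) (by simp)] at a2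
    have a3 : (‖G.x q - G.x p‖ ^ n)⁻¹ ≤ (ρ ^ n)⁻¹ := by gcongr
    have a4 : C * (‖G.x q - G.x p‖ ^ n)⁻¹ ≤ |C| * (ρ ^ n)⁻¹ :=
      mul_le_mul (le_abs_self C) a3 (by positivity) (abs_nonneg C)
    have a5 : (0 : ℝ) ≤ 4 * ((n + 3) * (n + 1)) * (ρ ^ n)⁻¹ := by positivity
    rw [abs_sub_comm, abs_of_nonneg (sub_nonneg.2 a1), add_mul]
    linarith
  · have j := (c.near p q (by linarith)).2
    have j2 : G.JJ p q ^ 2 ≤ 4 * ‖G.x q - G.x p‖ ^ 4 := by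
      rw [← sq_abs]
      refine (pow_le_pow_left₀ (abs_nonneg _) j 2).trans_eq ?_
      rw [Geo.rr]; ring
    rw [c.lsub (P.sm q ne) s, P.har q ne, lap, Wk r0 (n + 5) (by push_cast; ring), zero_sub, abs_neg]
    have e : 4 * ((((n + 3 : ℕ) : ℝ) - 2) / 2) * ((((n + 3 : ℕ) : ℝ) - 2) / 2 + 1) *
        (G.rr p q - G.JJ p q ^ 2) - 2 * ((n + 3 : ℕ) : ℝ) * ((((n + 3 : ℕ) : ℝ) - 2) / 2) *
          (G.rr p q + 0 ^ 2) = -((n + 3) * (n + 1) * G.JJ p q ^ 2) := by push_cast; ring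
    rw [e, mul_neg, abs_neg, abs_of_nonneg (by positivity)]
    calc _ ≤ (‖G.x q - G.x p‖ ^ (n + 5))⁻¹ * ((n + 3) * (n + 1) * (4 * ‖G.x q - G.x p‖ ^ 4)) := by
          gcongr
      _ = 4 * ((n + 3) * (n + 1)) * (‖G.x q - G.x p‖ ^ (n + 1))⁻¹ := by field_simp; ring
      _ ≤ _ := by gcongr; linarith [abs_nonneg C]

theorem est (l : Loc G) : ∃ C : ℝ, ∀ᶠ q in 𝓝[≠] p, 0 < ‖G.x q - G.x p‖ ∧
    |g q * ‖G.x q - G.x p‖ ^ (n + 1) - 1| ≤ C * ‖G.x q - G.x p‖ ∧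
    |‖G.x q - G.x p‖ ^ (2 * (n + 2)) * G.Gam g g q / (n + 1) ^ 2 - 1| ≤ C * ‖G.x q - G.x p‖ := by
  obtain ⟨C, C0, hC⟩ := loc g1 c hn P
  obtain ⟨R, R0, C', C'0, h⟩ := l.grd
  set K := C' * (2 * C * 2 ^ (n + 1)) with hK
  refine ⟨C + 5 + 2 * K ^ 2, ?_⟩
  filter_upwards [self_mem_nhdsWithin, mem_nhdsWithin_of_mem_nhds
    (ball_mem_nhds p (lt_min R0 (by norm_num : (0 : ℝ) < 1 / 8)))] with q ne d
  obtain ⟨d1, d2⟩ := lt_min_iff.1 (mem_ball.1 d)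
  obtain ⟨n1, n2⟩ := c.near p q (by linarith)
  have n3 := c.lip p q
  have d0 := dist_pos.2 ne
  have r0 : 0 < ‖G.x q - G.x p‖ := by linarith
  obtain ⟨s, -, gam, -⟩ := g1 _ M G hn c p q 0 ((((n + 3 : ℕ) : ℝ) - 2) / 2)
    (by simpa [Geo.rr] using pow_pos r0 2)
  obtain ⟨s', a1, -⟩ := hC q (by linarith) _ r0 le_rfl
  have a2 := h _ q (‖G.x q - G.x p‖ / 2) _ _ (by linarith) (by linarith) (by positivity)
    fun q' b => hC q' (by linarith [dist_triangle q' q p, mem_ball.1 b]) (‖G.x q - G.x p‖ / 2)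
      (by linarith) (by
        have := norm_sub_le (G.x q' - G.x p) (G.x q' - G.x q)
        rw [sub_sub_sub_cancel_left] at this
        linarith [c.lip q q', mem_ball.1 b])
  rw [Wk r0 (n + 1) (by push_cast; ring)] at a1
  rw [Wk r0 (n + 3) (by push_cast; ring)] at gam
  have a3 := sq_add (fun i => G.δ i (G.W p 0 ((((n + 3 : ℕ) : ℝ) - 2) / 2)) q)
    (fun i => G.δ i (fun q => g q - G.W p 0 ((((n + 3 : ℕ) : ℝ) - 2) / 2) q) q) r0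
  simp only [c.δsub (P.sm q ne) s, add_sub_cancel] at a3
  simp only [← c.δsub (P.sm q ne) s] at a3
  change |G.Gam g g q - G.Gam _ _ q| ≤ _ * G.Gam _ _ q + _ * G.Gam _ _ q at a3
  rw [gam, Geo.rr] at a3
  rw [Geo.rr] at n2
  generalize G.Gam (fun q => g q - _) _ q = b at a2 a3
  generalize ‖G.x q - G.x p‖ = r at *
  have r1 : r ≤ 1 := by linarith
  refine ⟨r0, ?_, ?_⟩
  · have e : g q * r ^ (n + 1) - 1 = (g q - (r ^ (n + 1))⁻¹) * r ^ (n + 1) := by field_simp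
    rw [e, abs_mul, abs_of_pos (pow_pos r0 _)]
    calc _ ≤ C * (r ^ n)⁻¹ * r ^ (n + 1) := by gcongr
      _ = C * r := by field_simp; ring
      _ ≤ _ := by gcongr; nlinarith [sq_nonneg K]
  have b1 : b ≤ (K / r ^ (n + 1)) ^ 2 := by
    refine a2.trans (pow_le_pow_left₀ (by positivity) ?_ 2)
    calc _ ≤ C' * (C * ((r / 2) ^ n)⁻¹ / (r / 2) + 1 * (C * ((r / 2) ^ (n + 1))⁻¹)) := by
          gcongr; linarith
      _ = _ := by rw [hK, div_pow, div_pow]; field_simp; ring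
  refine (num r0 r1 n2 b1 (by simpa using a3)).trans ?_
  gcongr
  linarith

end G8p

open G8p in
theorem g8 : G8 := fun g1 m M _ _ _ _ G hm c l p g P η η0 => by
  obtain ⟨n, rfl⟩ : ∃ n, m = n + 3 := ⟨m - 3, by omega⟩
  obtain ⟨C, h⟩ := est g1 c hm P l
  have t0 : Tendsto (fun q => C * ‖G.x q - G.x p‖) (𝓝[≠] p) (𝓝 0) := by
    have : Tendsto (fun q => ‖G.x q - G.x p‖) (𝓝 p) (𝓝 0) :=
      squeeze_zero (fun _ => norm_nonneg _) (c.lip p) (tendsto_iff_dist_tendsto_zero.1 tendsto_id)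
    simpa using (this.const_mul C).mono_left nhdsWithin_le_nhds
  have t1 := tendsto_iff_dist_tendsto_zero.2 (squeeze_zero' (.of_forall fun _ => dist_nonneg)
    (h.mono fun q a => (Real.dist_eq _ _).trans_le a.2.1) t0)
  have t2 := tendsto_iff_dist_tendsto_zero.2 (squeeze_zero' (.of_forall fun _ => dist_nonneg)
    (h.mono fun q a => (Real.dist_eq _ _).trans_le a.2.2) t0)
  have t3 := (t1.rpow_const (p := -(2 * (((n + 3 : ℕ) : ℝ) - 1) / (((n + 3 : ℕ) : ℝ) - 2)))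
    (.inl one_ne_zero)).mul t2
  rw [Real.one_rpow, one_mul] at t3
  filter_upwards [h, self_mem_nhdsWithin, t3.eventually (closedBall_mem_nhds 1 η0)] with q a ne b
  refine le_of_eq_of_le ?_ (mem_closedBall.1 b)
  have e : (‖G.x q - G.x p‖ ^ (n + 1)) ^ (-(2 * (((n + 3 : ℕ) : ℝ) - 1) / (((n + 3 : ℕ) : ℝ) - 2))) =
      (‖G.x q - G.x p‖ ^ (2 * (n + 2)))⁻¹ := by
    rw [← Real.rpow_natCast, ← Real.rpow_mul a.1.le, ← Real.rpow_natCast, ← Real.rpow_neg a.1.le]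
    congr 1
    have : (n : ℝ) + 3 - 2 ≠ 0 := by linarith [(Nat.cast_nonneg n : (0 : ℝ) ≤ n)] |> ne_of_gt
    push_cast
    field_simp
    ring
  rw [Real.dist_eq, Real.mul_rpow (P.nn q ne) (by positivity), e]
  have := a.1.ne'
  generalize g q ^ (-(2 * (((n + 3 : ℕ) : ℝ) - 1) / (((n + 3 : ℕ) : ℝ) - 2))) = s
  rw [show ((n + 3 : ℕ) : ℝ) - 2 = n + 1 by push_cast; ring]
  congr 2
  field_simp

end Vale.Agent.P134L
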