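import Vale.Agent.P134L.Defs

/-!
# The logarithm of the Green function
-/

set_option linter.all false

open MeasureTheory Set Filter Metric Topology
open scoped ContDiff NNReal

noncomputable section

namespace Vale.Agent.P134L

namespace G9

variable {m : ℕ} {M : Type} [MetricSpace M] [MeasurableSpace M] {G : Geo m M} {p : M} {g : M → ℝ}

theorem rr_pos (C : Calc G) {q : M} (hq : q ≠ p) (h : dist q p < 2) : 0 < G.rr p q := by
  have h1 := (C.near p q h).1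
  have h2 := dist_pos.2 hq
  exact pow_pos (by linarith) 2

theorem blow (hm : 4 ≤ m) (C : Calc G) (hg : Pre G p g) (B : ℝ) :
    ∃ ρ > (0 : ℝ), ∀ q ≠ p, dist q p < ρ → B < g q := by
  have hm4 : (4 : ℝ) ≤ m := by exact_mod_cast hm
  obtain ⟨c, hc⟩ := hg.lo
  have hK : 0 < |B| + 1 + |c| := by positivity
  refine ⟨min (1 / 4) (|B| + 1 + |c|)⁻¹, by positivity, fun q hq hd => ?_⟩
  have h1 : dist q p < 1 / 4 := hd.trans_le (min_le_left _ _)
  have h2 : dist q p < (|B| + 1 + |c|)⁻¹ := hd.trans_le (min_le_right _ _)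
  have h3 := rr_pos C hq (by linarith)
  have h4 := C.lip p q
  have h5 : 0 < ‖G.x q - G.x p‖ := by
    have := (C.near p q (by linarith)).1
    linarith [dist_pos.2 hq]
  have h6 : G.rr p q ≤ 1 := pow_le_one₀ h5.le (by linarith)
  have h7 : 1 ≤ G.W p 0 ((m - 3) / 2) q := by
    rw [Geo.W, zero_pow two_ne_zero, add_zero]
    exact Real.one_le_rpow_of_pos_of_le_one_of_nonpos h3 h6 (by linarith)
  have h8 : G.W p 0 ((m - 2) / 2) q = G.W p 0 ((m - 3) / 2) q * ‖G.x q - G.x p‖⁻¹ := by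
    rw [Geo.W, Geo.W, zero_pow two_ne_zero, add_zero,
      show -(((m : ℝ) - 2) / 2) = -((m - 3) / 2) + -(1 / 2) by ring, Real.rpow_add h3]
    congr 1
    rw [Real.rpow_neg h3.le, ← Real.sqrt_eq_rpow, Geo.rr, Real.sqrt_sq h5.le]
  have h9 : |B| + 1 + |c| ≤ ‖G.x q - G.x p‖⁻¹ := by
    rw [le_inv_comm₀ hK h5]; linarith
  have h10 := hc q hq h1.le
  rw [h8] at h10
  have h11 : |B| + 1 ≤ ‖G.x q - G.x p‖⁻¹ - c := by linarith [le_abs_self c]
  have h12 : 1 * (|B| + 1) ≤ G.W p 0 ((m - 3) / 2) q * (‖G.x q - G.x p‖⁻¹ - c) :=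
    mul_le_mul h7 h11 (by positivity) (by linarith)
  linarith [le_abs_self B]

theorem der (k : ℝ) {t : ℝ} (h : 0 < t) :
    HasDerivAt (fun s => -k⁻¹ * Real.log s) (-k⁻¹ * t⁻¹) t :=
  (Real.hasDerivAt_log h.ne').const_mul _

theorem smF (k : ℝ) {t : ℝ} (h : 0 < t) :
    ∀ᶠ s in 𝓝 t, ContDiffAt ℝ ∞ (fun s => -k⁻¹ * Real.log s) s :=
  (lt_mem_nhds h).mono fun s hs => contDiffAt_const.mul (Real.contDiffAt_log.2 hs.ne')

theorem gam (C : Calc G) (k : ℝ) {q : M} (hs : G.Sm g q) (h : 0 < g q) :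
    G.Gam (fun q => -k⁻¹ * Real.log (g q)) (fun q => -k⁻¹ * Real.log (g q)) q =
      (k⁻¹ * (g q)⁻¹) ^ 2 * G.Gam g g q := by
  have hδ : ∀ i, G.δ i (fun q => -k⁻¹ * Real.log (g q)) q = -k⁻¹ * (g q)⁻¹ * G.δ i g q :=
    fun i => C.δcomp (der k h) hs i
  simp only [Geo.Gam, hδ]
  rw [Finset.mul_sum]
  exact Finset.sum_congr rfl fun i _ => by ring

theorem le_iff {k x s : ℝ} (hk : 0 < k) (hx : 0 < x) :
    -k⁻¹ * Real.log x ≤ s ↔ Real.exp (-(k * s)) ≤ x := by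
  rw [← Real.le_log_iff_exp_le hx, neg_mul, neg_le, ← div_eq_inv_mul, le_div_iff₀ hk]
  constructor <;> intro h <;> linarith

theorem ge_iff {k x s : ℝ} (hk : 0 < k) (hx : 0 < x) :
    s ≤ -k⁻¹ * Real.log x ↔ x ≤ Real.exp (-(k * s)) := by
  rw [← Real.log_le_iff_le_exp hx, neg_mul, le_neg, ← div_eq_inv_mul, div_le_iff₀ hk]
  constructor <;> intro h <;> linarith

end G9

open G9 in
theorem g9 : G9 := by
  intro m M _ _ _ _ G hm C lc hP p g hg
  have hm4 : (4 : ℝ) ≤ m := by exact_mod_cast hm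
  have hk : 0 < (m : ℝ) - 2 := by linarith
  have hc : ∀ q ≠ p, ContinuousAt g q := fun q hq => C.cont (hg.sm q hq)
  have hfar : ∀ B, ∃ ρ > (0 : ℝ), ∀ q ≠ p, g q ≤ B → ρ ≤ dist q p := fun B => by
    obtain ⟨ρ, h1, h2⟩ := blow hm C hg B
    exact ⟨ρ, h1, fun q hq h => not_lt.1 fun h3 => absurd (h2 q hq h3) (not_lt.2 h)⟩
  refine ⟨{q | q ≠ p ∧ 0 < g q}, fun q => -((m : ℝ) - 2)⁻¹ * Real.log (g q), ?_,
    fun q hq => C.comp (f := g) (smF ((m : ℝ) - 2) hq.2) (hg.sm q hq.1), fun q hq => ?_,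
    fun s t => ?_,
    fun q hq => ?_, ?_, fun η hη => ?_, fun s => ?_⟩
  · exact isOpen_iff_mem_nhds.2 fun q hq =>
      (eventually_ne_nhds hq.1).and ((hc q hq.1).eventually (lt_mem_nhds hq.2))
  · have h1 : G.Lap (fun q => -((m : ℝ) - 2)⁻¹ * Real.log (g q)) q = _ :=
      C.lcomp (F := fun s => -((m : ℝ) - 2)⁻¹ * Real.log s)
        (F' := fun t => -((m : ℝ) - 2)⁻¹ * t⁻¹) (smF _ hq.2)
        ((lt_mem_nhds hq.2).mono fun s hs => der _ hs)
        ((hasDerivAt_inv hq.2.ne').const_mul _) (hg.sm q hq.1)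
    rw [h1, gam C _ (hg.sm q hq.1) hq.2, hg.har q hq.1]
    have := hq.2.ne'
    field_simp
    ring
  · obtain ⟨ρ, h1, h2⟩ := hfar (Real.exp (-((m - 2) * s)))
    obtain ⟨d, h3⟩ := hg.far (Real.exp (-((m - 2) * t)) / 2) (by positivity)
    have hne : ∀ q, ρ ≤ dist q p → q ≠ p := fun q h => dist_pos.1 (h1.trans_le h)
    have e : {q | q ∈ {q | q ≠ p ∧ 0 < g q} ∧ -((m : ℝ) - 2)⁻¹ * Real.log (g q) ∈ Icc s t} =
        {q | ρ ≤ dist q p} ∩
          g ⁻¹' Icc (Real.exp (-((m - 2) * t))) (Real.exp (-((m - 2) * s))) := by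
      ext q
      constructor
      · rintro ⟨⟨h4, h5⟩, h6, h7⟩
        exact ⟨h2 q h4 ((ge_iff hk h5).1 h6), (le_iff hk h5).1 h7, (ge_iff hk h5).1 h6⟩
      · rintro ⟨h4, h5, h6⟩
        have h7 : 0 < g q := (Real.exp_pos _).trans_le h5
        exact ⟨⟨hne q h4, h7⟩, (ge_iff hk h7).2 h6, (le_iff hk h7).2 h5⟩
    rw [e]
    refine (isCompact_closedBall p d).of_isClosed_subset
      (ContinuousOn.preimage_isClosed_of_isClosed
        (fun q hq => (hc q (hne q hq)).continuousWithinAt)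
        (isClosed_le continuous_const (by fun_prop)) isClosed_Icc) fun q hq => ?_
    refine mem_closedBall.2 (not_lt.1 fun h4 => ?_)
    have h5 := h3 q h4.le
    have h6 := hq.2.1
    linarith [Real.exp_pos (-(((m : ℝ) - 2) * t))]
  · have h0 : 0 ≤ G.rr p q := sq_nonneg _
    rcases h0.eq_or_lt with h | h
    · rw [← h]; exact (Real.exp_pos _).le
    · have h1 := hg.up q hq.1 h
      rw [Geo.W, zero_pow two_ne_zero, add_zero] at h1
      have h2 := Real.log_le_log hq.2 h1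
      rw [Real.log_rpow h] at h2
      rw [← Real.log_le_iff_le_exp h]
      have h3 : Real.log (G.rr p q) / 2 ≤ -((m : ℝ) - 2)⁻¹ * Real.log (g q) := by
        rw [neg_mul, le_neg, ← div_eq_inv_mul, div_le_iff₀ hk]
        linarith
      linarith
  · obtain ⟨ρ, h1, h2⟩ := hfar 1
    obtain ⟨R₁, hR₁, C₁, hC₁, hH⟩ := lc.har
    obtain ⟨R₂, hR₂, C₂, hC₂, hG⟩ := lc.grd
    obtain ⟨R, hR, a1, a2, a3⟩ : ∃ R > (0 : ℝ), R ≤ ρ ∧ R ≤ R₁ ∧ R ≤ R₂ :=
      ⟨min ρ (min R₁ R₂), by positivity, min_le_left _ _,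
        (min_le_right _ _).trans (min_le_left _ _), (min_le_right _ _).trans (min_le_right _ _)⟩
    refine ⟨(((m : ℝ) - 2)⁻¹ * (C₂ * (C₁ / (R / 16)))) ^ 2, fun q hq h0 => ?_⟩
    have h3 : g q ≤ 1 := by simpa using (ge_iff hk hq.2).1 h0
    have h4 := h2 q hq.1 h3
    have hne : ∀ z ∈ ball q R, z ≠ p := fun z hz h => by
      rw [h, mem_ball, dist_comm] at hz
      linarith
    have h5 := hH g q R hR a2 fun z hz => ⟨hg.sm z (hne z hz), hg.nn z (hne z hz), by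
      rw [hg.har z (hne z hz), abs_zero]; exact hg.nn z (hne z hz)⟩
    have h6 := hG g q (R / 16) (C₁ * g q) 0 (by positivity) (by linarith) le_rfl fun z hz => by
      have hz' : z ≠ p := hne z (ball_subset_ball (by linarith) hz)
      exact ⟨hg.sm z hz', by rw [abs_of_nonneg (hg.nn z hz')]; exact (h5 z hz).1,
        by rw [hg.har z hz', abs_zero]⟩
    rw [gam C _ (hg.sm q hq.1) hq.2]
    refine (mul_le_mul_of_nonneg_left h6 (sq_nonneg _)).trans (le_of_eq ?_)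
    have := hq.2.ne'
    field_simp
    ring
  · obtain ⟨ρ, h1, h2⟩ := Metric.eventually_nhds_iff.1
      (eventually_nhdsWithin_iff.1 (hP p g hg η hη))
    obtain ⟨B, hB⟩ := hg.bd ρ h1
    refine ⟨-((m : ℝ) - 2)⁻¹ * Real.log (|B| + 1), fun q hq h => ?_⟩
    have h3 := (le_iff hk hq.2).1 h
    rw [show -(((m : ℝ) - 2) * (-((m : ℝ) - 2)⁻¹ * Real.log (|B| + 1))) = Real.log (|B| + 1) by
      field_simp, Real.exp_log (by positivity)] at h3
    have h4 : dist q p < ρ := not_le.1 fun h4 => by linarith [hB q h4, le_abs_self B]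
    have h5 := h2 h4 hq.1
    rw [gam C _ (hg.sm q hq.1) hq.2]
    have h6 : g q ^ (-(2 * (m - 1) / (m - 2) : ℝ)) =
        Real.exp (2 * (-((m : ℝ) - 2)⁻¹ * Real.log (g q))) * (g q)⁻¹ ^ 2 := by
      rw [show -(2 * (m - 1) / (m - 2) : ℝ) = 2 * -((m : ℝ) - 2)⁻¹ + -2 by field_simp; ring,
        Real.rpow_add hq.2, Real.rpow_neg hq.2.le, Real.rpow_two, inv_pow,
        Real.rpow_def_of_pos hq.2]
      congr 2
      ring
    rw [h6] at h5
    convert h5 using 3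
    field_simp
  · obtain ⟨ρ, h1, h2⟩ := blow hm C hg (Real.exp (-((m - 2) * s)))
    filter_upwards [self_mem_nhdsWithin, mem_nhdsWithin_of_mem_nhds (ball_mem_nhds p h1)]
      with q h3 h4
    have h5 := h2 q h3 h4
    have h6 : 0 < g q := (Real.exp_pos _).trans h5
    exact ⟨⟨h3, h6⟩, (le_iff hk h6).2 h5.le⟩

end Vale.Agent.P134L
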