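import Vale.Agent.P134L.Defs

/-!
# Integrals on the levels of the Green function
-/

open MeasureTheory Set Filter Metric Topology

namespace Vale.Agent.P134L

theorem i1 : I1 := fun m M _ _ _ _ G _ C p U τ h w wc w0 => by
  have mU := h.opn.measurableSet
  have tc : ContinuousOn τ U := fun q hq => (C.cont (h.sm q hq)).continuousWithinAt
  have tm := tc.aemeasurable (μ := G.μ) mU
  have wm := (wc.aemeasurable (μ := G.μ) mU).ennreal_ofReal
  have tn := tm.mono_ac (withDensity_absolutelyContinuous _ fun q => ENNReal.ofReal (w q))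
  have := C.fin
  have := C.pos
  refine ⟨⟨fun K hK => ?_⟩, fun φ φc φs => ⟨?_, ?_⟩, fun e q hq => ?_⟩
  · obtain ⟨s, t, k⟩ : ∃ s t, K ⊆ Icc s t := ⟨_, _, hK.isBounded.subset_Icc_sInf_sSup⟩
    rw [Geo.push, Measure.map_apply_of_aemeasurable tn hK.measurableSet,
      withDensity_apply₀ _ (tm.nullMeasurable hK.measurableSet), Measure.restrict_restrict' mU]
    have b := ((wc.mono fun q hq => hq.1).integrableOn_compact (μ := G.μ)
      (h.lev s t)).setLIntegral_lt_top
    exact lt_of_le_of_lt (lintegral_mono_set fun q hq => by exact ⟨hq.2, k hq.1⟩) b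
  · obtain ⟨s, t, k⟩ : ∃ s t, tsupport φ ⊆ Icc s t := ⟨_, _, φs.isBounded.subset_Icc_sInf_sSup⟩
    exact C.int h.opn (h.lev s t) (fun q hq => hq.1) ((φc.comp_continuousOn tc).mul wc)
      fun q hq n => mul_eq_zero_of_left (image_eq_zero_of_notMem_tsupport fun e => n ⟨hq, k e⟩) _
  · rw [Geo.push, integral_map tn φc.aestronglyMeasurable,
      integral_withDensity_eq_integral_toReal_smul₀ wm (.of_forall fun _ => ENNReal.ofReal_lt_top)]
    exact setIntegral_congr_fun mU fun q hq => by
      simp only [ENNReal.toReal_ofReal (w0 q hq), smul_eq_mul, mul_comm]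
  · rw [Geo.push, Measure.map_eq_zero_iff tn, withDensity_eq_zero_iff wm] at e
    refine Measure.eqOn_open_of_ae_eq (μ := G.μ) (g := fun _ => 0) ?_ h.opn wc continuousOn_const hq
    filter_upwards [e, ae_restrict_mem mU] with q a b
    exact le_antisymm (ENNReal.ofReal_eq_zero.1 a) (w0 q b)

end Vale.Agent.P134L
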