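import Vale.Agent.P134L.Defs

/-!
# The flux is constant
-/

open MeasureTheory Set Filter Metric Topology
open scoped ContDiff InnerProductSpace NNReal

noncomputable section

namespace Vale.Agent.P134L

theorem i2_icc {Ψ : ℝ → ℝ} (h : Tst Ψ) : ∃ s t, ∀ r ∉ Icc s t, Ψ r = 0 := by
  obtain ⟨r, hr⟩ := h.2.isCompact.isBounded.subset_closedBall 0
  rw [Real.closedBall_eq_Icc] at hr
  exact ⟨_, _, fun a ha => image_eq_zero_of_notMem_tsupport fun b => ha (hr b)⟩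

theorem i2 : I2 := by
  intro m M _ _ _ _ G _ C p U τ g Ψ hΨ
  obtain ⟨s, t, h0⟩ := i2_icc hΨ
  have sΦ : ContDiff ℝ ∞ fun r : ℝ => Ψ r * Real.exp (-((m : ℝ) - 2) * r) :=
    hΨ.1.mul (by fun_prop)
  have sf : ∀ q ∈ U, G.Sm (fun q => Ψ (τ q) * Real.exp (-((m : ℝ) - 2) * τ q)) q := fun q hq =>
    C.comp (F := fun r : ℝ => Ψ r * Real.exp (-((m : ℝ) - 2) * r))
      (.of_forall fun _ => sΦ.contDiffAt) (g.sm q hq)
  rw [← C.div (X := fun i q => Ψ (τ q) * Real.exp (-((m : ℝ) - 2) * τ q) * G.δ i τ q) g.opn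
    (g.lev s t) (fun q hq => hq.1) (fun q hq i => C.mul (sf q hq) (C.smδ (g.sm q hq) i))
    fun q hq hK i => by rw [h0 _ fun a => hK ⟨hq, a⟩, zero_mul, zero_mul]]
  refine setIntegral_congr_fun g.opn.measurableSet fun q hq => ?_
  have d := ((hΨ.1.differentiable (by simp)) (τ q)).hasDerivAt.fun_mul
    ((hasDerivAt_id' (τ q)).const_mul (-((m : ℝ) - 2))).exp
  have e : G.Div (fun i => G.δ i τ) q = (m - 2) * G.Gam τ τ q := g.eq q hq
  rw [C.dmul (sf q hq) fun i => C.smδ (g.sm q hq) i, e]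
  simp only [C.δcomp d (g.sm q hq), mul_assoc, ← Finset.mul_sum]
  simp only [Geo.nu, Geo.Gam]
  ring

end Vale.Agent.P134L
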