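import Vale.Agent.P134L.Defs

/-!
# The row I3: the integrated certificate
-/

open MeasureTheory Set Filter Metric Topology
open scoped ContDiff

set_option linter.unusedSectionVars false
set_option linter.unusedVariables false

namespace Vale.Agent.P134L.I3a

theorem two_sum {ι : Type} [Fintype ι] (u v : ι → ℝ) {ε : ℝ} (h : 0 < ε) :
    |2 * ∑ i, u i * v i| ≤ ε * ∑ i, u i * u i + (∑ i, v i * v i) / ε := by
  have key : ∀ s : ℝ, s * s = 1 → s * (2 * ∑ i, u i * v i) ≤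
      ε * ∑ i, u i * u i + (∑ i, v i * v i) / ε := by
    intro s hs
    rw [Finset.mul_sum, Finset.mul_sum, Finset.mul_sum, Finset.sum_div, ← Finset.sum_add_distrib]
    refine Finset.sum_le_sum fun i _ => ?_
    have e : ε * (u i * u i) + v i * v i / ε - s * (2 * (u i * v i)) =
        (ε * u i - s * v i) ^ 2 / ε + (1 - s * s) * (v i * v i / ε) := by field_simp; ring
    have : 0 ≤ (ε * u i - s * v i) ^ 2 / ε := by positivity
    rw [hs] at e; linarith
  rw [abs_le]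
  have h1 := key 1 (by norm_num)
  have h2 := key (-1) (by norm_num)
  constructor <;> linarith

theorem sq3 {ι : Type} [Fintype ι] (u v w : ι → ℝ) (α β γ : ℝ) :
    ∑ i, (α * u i + β * v i + γ * w i) * (α * u i + β * v i + γ * w i) =
      α ^ 2 * ∑ i, u i * u i + β ^ 2 * ∑ i, v i * v i + γ ^ 2 * ∑ i, w i * w i +
      2 * α * β * ∑ i, u i * v i + 2 * α * γ * ∑ i, u i * w i + 2 * β * γ * ∑ i, v i * w i := by
  simp only [Finset.mul_sum, ← Finset.sum_add_distrib]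
  exact Finset.sum_congr rfl fun i _ => by ring

theorem lin2 {ι : Type} [Fintype ι] (u v X : ι → ℝ) (α β : ℝ) :
    ∑ i, (α * u i + β * v i) * X i = α * ∑ i, u i * X i + β * ∑ i, X i * v i := by
  simp only [Finset.mul_sum, ← Finset.sum_add_distrib]
  exact Finset.sum_congr rfl fun i _ => by ring

/-- the algebra -/
theorem alg {a b c ρ ε R θ d A g uu vv ww uv uw vw uX Xv : ℝ} (hR : 0 < R) (e : R ^ 2 = ρ + ε)
    (hε : 0 < ε) (hθ : 0 ≤ θ) (hw : ww ≤ 4 * ρ * θ) (hA : 0 ≤ A)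
    (hg : g ≤ a ^ 2 * (d + A * ρ - θ) - a * b * (vw - 2 * Xv) - b ^ 2 * (ρ * vv)) :
    c ^ 2 * g ≤ (2 * c * a ^ 2 * uX + 2 * c ^ 2 * a * b * Xv + c ^ 2 * a ^ 2 * d) +
      A * (c * a * R) ^ 2 - ((a * R) ^ 2 * uu + (c * b * R) ^ 2 * vv + (c * a / (2 * R)) ^ 2 * ww +
      2 * (a * R) * (c * b * R) * uv + 2 * (a * R) * (c * a / (2 * R)) * uw +
      2 * (c * b * R) * (c * a / (2 * R)) * vw) + (ε * (c ^ 2 * b ^ 2 * vv) +
      (-(c * a ^ 2 * (2 * uX)) + c * a * b * (ρ + ε) * (2 * uv) + c * a ^ 2 / 2 * (2 * uw) +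
        a ^ 2 * (ρ + ε) * uu)) := by
  have h1 : (c * a / (2 * R)) ^ 2 * ww ≤ c ^ 2 * a ^ 2 * θ := by
    have : (c * a / (2 * R)) ^ 2 * ww = c ^ 2 * a ^ 2 * (ww / (4 * R ^ 2)) := by field_simp; ring
    rw [this]
    refine mul_le_mul_of_nonneg_left ?_ (by positivity)
    rw [div_le_iff₀ (by positivity), e]
    nlinarith [mul_nonneg hθ hε.le]
  have h2 : 2 * (a * R) * (c * a / (2 * R)) = c * a ^ 2 := by field_simp
  have h3 : 2 * (c * b * R) * (c * a / (2 * R)) = c ^ 2 * a * b := by field_simp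
  have h4 := mul_le_mul_of_nonneg_left hg (sq_nonneg c)
  have h5 : 0 ≤ A * (c ^ 2 * a ^ 2) * ε := by positivity
  have h6 : 2 * (a * R) * (c * b * R) = 2 * a * b * c * (ρ + ε) := by rw [← e]; ring
  rw [h2, h3, h6, mul_pow (c * a) R, mul_pow a R, mul_pow (c * b) R, e]
  nlinarith

/-- the error terms -/
theorem err {a b c ρ ε σ Z B C uu vv ww XX uv uw uX : ℝ} (hε : 0 < ε) (hε1 : ε ≤ 1)
    (c0 : 0 ≤ c) (c1 : c ≤ 1) (ha : |a| ≤ Z) (hb : |b| ≤ Z) (hC : 0 ≤ C) (hσ : σ ≤ 2 * ε)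
    (ρ0 : 0 ≤ ρ) (h1 : ρ ≤ C * σ) (h2 : ww ≤ C * σ) (h3 : XX ≤ C * σ) (h4 : vv ≤ σ)
    (u0 : 0 ≤ uu) (hu : ε * uu ≤ B) (k1 : |2 * uX| ≤ ε * uu + XX / ε)
    (k2 : |2 * uv| ≤ ε * uu + vv / ε) (k3 : |2 * uw| ≤ ε * uu + ww / ε) :
    -(c * a ^ 2 * (2 * uX)) + c * a * b * (ρ + ε) * (2 * uv) + c * a ^ 2 / 2 * (2 * uw) +
      a ^ 2 * (ρ + ε) * uu ≤ Z ^ 2 * (2 * (B + 2 * C) + (2 * C + 1) * (2 * B + 2)) := by
  have Z0 : 0 ≤ Z := (abs_nonneg _).trans ha
  have B0 : 0 ≤ B := (mul_nonneg hε.le u0).trans hu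
  have hσ' : C * σ ≤ 2 * C * ε := by nlinarith
  have d1 : XX / ε ≤ 2 * C := by rw [div_le_iff₀ hε]; linarith
  have d2 : vv / ε ≤ 2 := by rw [div_le_iff₀ hε]; linarith
  have d3 : ww / ε ≤ 2 * C := by rw [div_le_iff₀ hε]; linarith
  have a2 : a ^ 2 ≤ Z ^ 2 := by rw [← sq_abs a]; gcongr
  have r1 : ρ + ε ≤ (2 * C + 1) * ε := by linarith
  have r2 : ρ + ε ≤ 2 * C + 1 := r1.trans (by nlinarith)
  have t1 : |c * a ^ 2 * (2 * uX)| ≤ 1 * Z ^ 2 * (B + 2 * C) := by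
    rw [abs_mul, abs_of_nonneg (by positivity : 0 ≤ c * a ^ 2)]
    gcongr
    linarith
  have t2 : |c * a * b * (ρ + ε) * (2 * uv)| ≤ 1 * Z * Z * (2 * C + 1) * (B + 2) := by
    rw [abs_mul, abs_mul, abs_mul, abs_mul, abs_of_nonneg c0,
      abs_of_nonneg (by positivity : 0 ≤ ρ + ε)]
    gcongr
    linarith
  have t3 : |c * a ^ 2 / 2 * (2 * uw)| ≤ 1 * Z ^ 2 / 2 * (B + 2 * C) := by
    rw [abs_mul, abs_of_nonneg (by positivity : 0 ≤ c * a ^ 2 / 2)]
    gcongr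
    linarith
  have t4 : a ^ 2 * (ρ + ε) * uu ≤ Z ^ 2 * ((2 * C + 1) * B) := by
    calc _ ≤ Z ^ 2 * ((2 * C + 1) * ε) * uu := by gcongr
      _ = Z ^ 2 * ((2 * C + 1) * (ε * uu)) := by ring
      _ ≤ _ := by gcongr
  have := neg_abs_le (c * a ^ 2 * (2 * uX))
  have := le_abs_self (c * a * b * (ρ + ε) * (2 * uv))
  have := le_abs_self (c * a ^ 2 / 2 * (2 * uw))
  have : 0 ≤ Z ^ 2 * (B + 2 * C) := by positivity
  nlinarith

/-- the derivative of the transition function -/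
theorem st_der : ∃ B ≥ (0 : ℝ), ∀ t, |deriv Real.smoothTransition t| ≤ B ∧
    (t ∉ Icc (0 : ℝ) 1 → deriv Real.smoothTransition t = 0) := by
  have hc : Continuous (deriv Real.smoothTransition) :=
    (Real.smoothTransition.contDiff (n := 1)).continuous_deriv le_rfl
  obtain ⟨B, hB⟩ := (isCompact_Icc (a := (0 : ℝ)) (b := 1)).exists_bound_of_continuousOn
    hc.continuousOn
  have z : ∀ t ∉ Icc (0 : ℝ) 1, deriv Real.smoothTransition t = 0 := by
    intro t ht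
    rcases not_and_or.1 ht with h | h
    · have : Real.smoothTransition =ᶠ[𝓝 t] fun _ => 0 :=
        (gt_mem_nhds (not_le.1 h)).mono fun s hs => Real.smoothTransition.zero_of_nonpos hs.le
      rw [this.deriv_eq, deriv_const]
    · have : Real.smoothTransition =ᶠ[𝓝 t] fun _ => 1 :=
        (lt_mem_nhds (not_le.1 h)).mono fun s hs => Real.smoothTransition.one_of_one_le hs.le
      rw [this.deriv_eq, deriv_const]
  have B0 : 0 ≤ B := (norm_nonneg _).trans (hB 0 (by norm_num))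
  refine ⟨B, B0, fun t => ⟨?_, z t⟩⟩
  by_cases h : t ∈ Icc (0 : ℝ) 1
  · exact hB t h
  · rw [z t h, abs_zero]; exact B0

variable {m : ℕ} {M : Type} [MetricSpace M] [MeasurableSpace M] {G : Geo m M} {U K : Set M}
  {τ ρ : M → ℝ} {X : Fin (m + 1) → M → ℝ} {ζ : ℝ → ℝ} {q : M} {ε : ℝ}

theorem gam_nn (f : M → ℝ) (q : M) : 0 ≤ G.Gam f f q :=
  Finset.sum_nonneg fun _ _ => mul_self_nonneg _

theorem a2_nn (q : M) : 0 ≤ G.A2 q :=
  Finset.sum_nonneg fun _ _ => Finset.sum_nonneg fun _ _ => sq_nonneg _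

theorem sm_sg (hC : Calc G) (h : G.Sm τ q) : G.Sm (G.sg τ) q := hC.add (hC.smG h h) (hC.smA q)

theorem gam_sg (hC : Calc G) (h : ∀ q ∈ K, G.Sm τ q) (hK : IsCompact K) :
    ∃ C ≥ (0 : ℝ), ∀ q ∈ K, G.Gam (G.sg τ) (G.sg τ) q ≤ C * G.sg τ q := by
  let f : Fin (m + 1) ⊕ Fin (m + 1) × Fin (m + 1) → M → ℝ :=
    Sum.elim (fun i => G.δ i τ) fun j => G.A j.1 j.2
  have e : G.sg τ = fun q => ∑ α, f α q * f α q := by
    funext q
    simp [f, Geo.sg, Geo.Gam, Geo.A2, Fintype.sum_prod_type, sq]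
  have sf : ∀ q ∈ K, ∀ α, G.Sm (f α) q := by
    rintro q hq (i | j)
    · exact hC.smδ (h q hq) i
    · exact hC.smδ (hC.smN q j.2) j.1
  have c : ContinuousOn (fun q => ∑ α, G.Gam (f α) (f α) q) K := fun q hq =>
    (hC.cont (hC.sum fun α _ => hC.smG (sf q hq α) (sf q hq α))).continuousWithinAt
  obtain ⟨B, hB⟩ := hK.exists_bound_of_continuousOn c
  refine ⟨4 * |B|, by positivity, fun q hq => ?_⟩
  have k : ∀ i, G.δ i (G.sg τ) q * G.δ i (G.sg τ) q ≤
      4 * G.sg τ q * ∑ α, G.δ i (f α) q * G.δ i (f α) q := by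
    intro i
    have e1 : G.δ i (G.sg τ) q = 2 * ∑ α, f α q * G.δ i (f α) q := by
      rw [e, hC.δsum fun α _ => hC.mul (sf q hq α) (sf q hq α), Finset.mul_sum]
      exact Finset.sum_congr rfl fun α _ => by rw [hC.δmul (sf q hq α) (sf q hq α)]; ring
    have := Finset.sum_mul_sq_le_sq_mul_sq Finset.univ (fun α => f α q) fun α => G.δ i (f α) q
    simp only [sq (f _ q), sq (G.δ i _ q)] at this
    rw [e1, congrFun e q]
    nlinarith
  have s0 : 0 ≤ G.sg τ q := add_nonneg (gam_nn _ _) (a2_nn _)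
  calc G.Gam (G.sg τ) (G.sg τ) q ≤ ∑ i, 4 * G.sg τ q * ∑ α, G.δ i (f α) q * G.δ i (f α) q :=
        Finset.sum_le_sum fun i _ => k i
    _ = 4 * G.sg τ q * ∑ α, G.Gam (f α) (f α) q := by
        rw [← Finset.mul_sum, Finset.sum_comm]; rfl
    _ ≤ 4 * G.sg τ q * |B| := by
        gcongr
        exact ((le_abs_self _).trans (hB q hq)).trans (le_abs_self _)
    _ = _ := by ring

/-- the cut-off function -/
noncomputable def chi (G : Geo m M) (τ : M → ℝ) (ε : ℝ) (q : M) : ℝ :=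
  Real.smoothTransition (G.sg τ q / ε - 1)

theorem sm_chi (hC : Calc G) (h : G.Sm τ q) : G.Sm (chi G τ ε) q :=
  hC.comp (F := fun t => Real.smoothTransition (t / ε - 1)) (Eventually.of_forall fun _ =>
    (Real.smoothTransition.contDiff.comp
      ((contDiff_id.div_const ε).sub contDiff_const)).contDiffAt) (sm_sg hC h)

theorem δ_chi (hC : Calc G) (h : G.Sm τ q) (i : Fin (m + 1)) : G.δ i (chi G τ ε) q =
    deriv Real.smoothTransition (G.sg τ q / ε - 1) * (1 / ε) * G.δ i (G.sg τ) q :=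
  hC.δcomp (F := fun t => Real.smoothTransition (t / ε - 1))
    ((((Real.smoothTransition.contDiff (n := 1)).differentiable (by simp)) _).hasDerivAt.comp _
      (((hasDerivAt_id _).div_const ε).sub_const 1)) (sm_sg hC h) i

theorem chi_ev (hC : Calc G) (h : G.Sm τ q) (hε : 0 < ε) (h0 : G.sg τ q < ε) :
    ∀ᶠ r in 𝓝 q, chi G τ ε r = 0 :=
  ((hC.cont (sm_sg hC h)).eventually (gt_mem_nhds h0)).mono fun r hr =>
    Real.smoothTransition.zero_of_nonpos (by rw [sub_nonpos, div_le_one hε]; exact hr.le)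

theorem sm_z (hC : Calc G) (h : G.Sm τ q) (hζ : Tst ζ) : G.Sm (fun r => ζ (τ r)) q :=
  hC.comp (Eventually.of_forall fun _ => hζ.1.contDiffAt) h

theorem δ_z (hC : Calc G) (h : G.Sm τ q) (hζ : Tst ζ) (i : Fin (m + 1)) :
    G.δ i (fun r => ζ (τ r)) q = deriv ζ (τ q) * G.δ i τ q :=
  hC.δcomp ((hζ.1.differentiable (by simp)) _).hasDerivAt h i

theorem sm_R (hC : Calc G) (h : G.Sm ρ q) (h0 : 0 < ρ q + ε) : G.Sm (fun r => √(ρ r + ε)) q :=
  hC.comp (F := fun t => √(t + ε)) (((continuous_id.add continuous_const).continuousAt.eventually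
    (lt_mem_nhds h0)).mono fun t ht =>
      (contDiffAt_id.add contDiffAt_const).sqrt (ne_of_gt ht)) h

theorem δ_R (hC : Calc G) (h : G.Sm ρ q) (h0 : 0 < ρ q + ε) (i : Fin (m + 1)) :
    G.δ i (fun r => √(ρ r + ε)) q = 1 / (2 * √(ρ q + ε)) * G.δ i ρ q :=
  hC.δcomp (F := fun t => √(t + ε)) (((hasDerivAt_id _).add_const ε).sqrt h0.ne') h i

/-- the test function -/
noncomputable def psi (G : Geo m M) (τ ρ : M → ℝ) (ζ : ℝ → ℝ) (ε : ℝ) (q : M) : ℝ :=
  chi G τ ε q * ζ (τ q) * √(ρ q + ε)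

/-- the field -/
noncomputable def fld (G : Geo m M) (τ : M → ℝ) (X : Fin (m + 1) → M → ℝ) (ζ : ℝ → ℝ) (ε : ℝ)
    (i : Fin (m + 1)) (q : M) : ℝ := chi G τ ε q * ζ (τ q) * (chi G τ ε q * ζ (τ q)) * X i q

theorem zero_of_ev (hC : Calc G) {f : M → ℝ} (h : ∀ᶠ r in 𝓝 q, f r = 0) :
    G.Sm f q ∧ ∀ i, G.δ i f q = 0 :=
  ⟨hC.scg (hC.smc 0 q) (EventuallyEq.symm h), fun i => (hC.cgr h i).trans (hC.δc 0 q i)⟩

variable {gain : M → ℝ → ℝ → ℝ}

theorem sm_psi (hC : Calc G) (hM : Mult G U τ ρ X gain) (hq : q ∈ U) (h : G.Sm τ q) (hζ : Tst ζ)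
    (hε : 0 < ε) : G.Sm (psi G τ ρ ζ ε) q ∧ ∀ i, G.Sm (fld G τ X ζ ε i) q := by
  by_cases h0 : 0 < G.sg τ q
  · have a := hC.mul (sm_chi (ε := ε) hC h) (sm_z hC h hζ)
    exact ⟨hC.mul a (sm_R hC (hM.sm q hq h0).1 (add_pos_of_nonneg_of_pos (hM.nn q hq h0) hε)),
      fun i => hC.mul (hC.mul a a) ((hM.sm q hq h0).2 i)⟩
  · have a := chi_ev hC h hε ((not_lt.1 h0).trans_lt hε)
    exact ⟨(zero_of_ev hC (a.mono fun r hr => by simp [psi, hr])).1,
      fun i => (zero_of_ev hC (a.mono fun r hr => by simp [fld, hr])).1⟩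

/-- the pointwise inequality -/
theorem pw (hC : Calc G) (hM : Mult G U τ ρ X gain) (hq : q ∈ U) (h : G.Sm τ q) (hζ : Tst ζ)
    (hε : 0 < ε) (hε1 : ε ≤ 1) (h0 : 0 < G.sg τ q) {Z B C C' : ℝ} (hZ : ∀ t, |ζ t| ≤ Z)
    (hZ' : ∀ t, |deriv ζ t| ≤ Z) (hB : ∀ t, |deriv Real.smoothTransition t| ≤ B ∧
      (t ∉ Icc (0 : ℝ) 1 → deriv Real.smoothTransition t = 0)) (C0 : 0 ≤ C) (C0' : 0 ≤ C')
    (h1 : ρ q ≤ C * G.sg τ q ∧ G.Gam ρ ρ q ≤ C * G.sg τ q ∧ ∑ i, X i q ^ 2 ≤ C * G.sg τ q)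
    (h2 : G.Gam (G.sg τ) (G.sg τ) q ≤ C' * G.sg τ q) :
    chi G τ ε q ^ 2 * gain q (ζ (τ q)) (deriv ζ (τ q)) ≤ G.Div (fld G τ X ζ ε) q +
      G.A2 q * psi G τ ρ ζ ε q ^ 2 - G.Gam (psi G τ ρ ζ ε) (psi G τ ρ ζ ε) q +
      (ε * (Z ^ 2 * G.sg τ q) + if G.sg τ q ≤ 2 * ε then
        Z ^ 2 * (2 * (2 * B ^ 2 * C' + 2 * C) + (2 * C + 1) * (2 * (2 * B ^ 2 * C') + 2)) else 0) := by
  obtain ⟨θ, θ0, t1, t2⟩ := hM.pt q hq h0
  have ρ0 := hM.nn q hq h0
  have p0 := add_pos_of_nonneg_of_pos ρ0 hε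
  have sc := sm_chi (ε := ε) hC h
  have sz := sm_z hC h hζ
  have a := hC.mul sc sz
  have sρ := (hM.sm q hq h0).1
  have c0 : 0 ≤ chi G τ ε q := Real.smoothTransition.nonneg _
  have c1 : chi G τ ε q ≤ 1 := Real.smoothTransition.le_one _
  have vv : G.Gam τ τ q ≤ G.sg τ q := le_add_of_nonneg_right (a2_nn q)
  have e1 : G.Div (fld G τ X ζ ε) q = 2 * chi G τ ε q * ζ (τ q) ^ 2 *
      ∑ i, G.δ i (chi G τ ε) q * X i q + 2 * chi G τ ε q ^ 2 * ζ (τ q) * deriv ζ (τ q) *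
      ∑ i, X i q * G.δ i τ q + chi G τ ε q ^ 2 * ζ (τ q) ^ 2 * G.Div X q := by
    rw [← lin2]
    refine (hC.dmul (hC.mul a a) (hM.sm q hq h0).2).trans ?_
    congr 1
    · refine Finset.sum_congr rfl fun i _ => ?_
      rw [hC.δmul a a, hC.δmul sc sz, δ_z hC h hζ]; ring
    · ring
  have e2 := sq3 (fun i => G.δ i (chi G τ ε) q) (fun i => G.δ i τ q) (fun i => G.δ i ρ q)
    (ζ (τ q) * √(ρ q + ε)) (chi G τ ε q * deriv ζ (τ q) * √(ρ q + ε))
    (chi G τ ε q * ζ (τ q) / (2 * √(ρ q + ε)))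
  have e3 : G.Gam (psi G τ ρ ζ ε) (psi G τ ρ ζ ε) q = _ := Eq.trans (Finset.sum_congr rfl
    fun i _ => by
      have : G.δ i (psi G τ ρ ζ ε) q = ζ (τ q) * √(ρ q + ε) * G.δ i (chi G τ ε) q +
          chi G τ ε q * deriv ζ (τ q) * √(ρ q + ε) * G.δ i τ q +
          chi G τ ε q * ζ (τ q) / (2 * √(ρ q + ε)) * G.δ i ρ q := by
        refine (hC.δmul a (sm_R hC sρ p0) i).trans ?_
        rw [hC.δmul sc sz, δ_z hC h hζ, δ_R hC sρ p0]; ring
      rw [this]) e2
  rw [e1, e3]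
  refine (alg (c := chi G τ ε q) (Real.sqrt_pos.2 p0) (Real.sq_sqrt p0.le) hε θ0 t1 (a2_nn q)
    (t2 _ _)).trans (add_le_add le_rfl (add_le_add ?_ ?_))
  · have : deriv ζ (τ q) ^ 2 ≤ Z ^ 2 := by rw [← sq_abs]; gcongr; exact hZ' _
    have c2 : chi G τ ε q ^ 2 ≤ 1 := by nlinarith
    have := gam_nn (G := G) τ q
    calc _ ≤ ε * (1 * Z ^ 2 * G.sg τ q) := by gcongr
      _ = _ := by ring
  · split_ifs with hs
    · refine err hε hε1 c0 c1 (hZ _) (hZ' _) C0 hs ρ0 h1.1 h1.2.1 (XX := ∑ i, X i q * X i q)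
        (by simpa only [sq] using h1.2.2) vv (gam_nn _ _) ?_ (two_sum _ _ hε) (two_sum _ _ hε)
        (two_sum _ _ hε)
      have e4 : ε * ∑ i, G.δ i (chi G τ ε) q * G.δ i (chi G τ ε) q = deriv Real.smoothTransition
          (G.sg τ q / ε - 1) ^ 2 * (G.Gam (G.sg τ) (G.sg τ) q / ε) := by
        simp only [δ_chi hC h, Geo.Gam, Finset.mul_sum, Finset.sum_div]
        exact Finset.sum_congr rfl fun i _ => by field_simp
      have b1 : deriv Real.smoothTransition (G.sg τ q / ε - 1) ^ 2 ≤ B ^ 2 := by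
        rw [← sq_abs]; gcongr; exact (hB _).1
      have b2 : G.Gam (G.sg τ) (G.sg τ) q / ε ≤ 2 * C' := by
        rw [div_le_iff₀ hε]; nlinarith
      have := gam_nn (G := G) (G.sg τ) q
      rw [e4]
      calc _ ≤ B ^ 2 * (2 * C') := by gcongr
        _ = _ := by ring
    · have : ∀ i, G.δ i (chi G τ ε) q = 0 := fun i => by
        rw [δ_chi hC h, (hB _).2 fun k => hs ?_, zero_mul, zero_mul]
        have := k.2
        rw [sub_le_iff_le_add, div_le_iff₀ hε] at this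
        linarith
      simp [this]

end I3a

open I3a in
/-- **I3** -/
theorem i3 : I3 := by
  intro m M _ _ _ _ G hm hC hst p U τ hg ρ X gain hM g0 g1 ζ hζ gc
  obtain ⟨s, hs⟩ := hζ.2.isCompact.isBounded.subset_closedBall 0
  rw [Real.closedBall_eq_Icc] at hs
  set K := {q | q ∈ U ∧ τ q ∈ Icc (0 - s) (0 + s)}
  have hK : IsCompact K := hg.lev _ _
  have KU : K ⊆ U := fun q hq => hq.1
  have z0 : ∀ q ∈ U, q ∉ K → ζ (τ q) = 0 ∧ deriv ζ (τ q) = 0 := fun q hq h => by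
    have : τ q ∉ tsupport ζ := fun k => h ⟨hq, hs k⟩
    exact ⟨image_eq_zero_of_notMem_tsupport this,
      image_eq_zero_of_notMem_tsupport fun k => this (tsupport_deriv_subset k)⟩
  obtain ⟨Z₁, hZ₁⟩ := hζ.1.continuous.bounded_above_of_compact_support hζ.2
  obtain ⟨Z₂, hZ₂⟩ := (hζ.1.continuous_deriv (by simp)).bounded_above_of_compact_support hζ.2.deriv
  obtain ⟨B, B0, hB⟩ := st_der
  obtain ⟨C, hC1⟩ := hM.bd K KU hK
  obtain ⟨C', C0', hC2⟩ := gam_sg hC (fun q hq => hg.sm q (KU hq)) hK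
  have cs : ContinuousOn (G.sg τ) K := fun q hq =>
    (hC.cont (sm_sg hC (hg.sm q (KU hq)))).continuousWithinAt
  obtain ⟨S, hS⟩ := hK.exists_bound_of_continuousOn cs
  obtain ⟨Γ, hΓ⟩ := hK.exists_bound_of_continuousOn (gc.mono KU)
  set Z := max Z₁ Z₂
  set C₂ := Z ^ 2 * (2 * (2 * B ^ 2 * C' + 2 * |C|) + (2 * |C| + 1) * (2 * (2 * B ^ 2 * C') + 2))
  set g := fun q => gain q (ζ (τ q)) (deriv ζ (τ q))
  set ν := G.μ.restrict U
  have := hC.fin
  have fK : ν K ≠ ⊤ := ((Measure.restrict_apply_le _ _).trans_lt hK.measure_lt_top).ne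
  let T : ℝ → Set M := fun ε => (K ∩ G.sg τ ⁻¹' Iic (2 * ε)) \ (K ∩ G.sg τ ⁻¹' Iic 0)
  have mT : ∀ ε, MeasurableSet (T ε) := fun ε =>
    (cs.preimage_isClosed_of_isClosed hK.isClosed isClosed_Iic).measurableSet.diff
      (cs.preimage_isClosed_of_isClosed hK.isClosed isClosed_Iic).measurableSet
  have fT : ∀ ε, ν (T ε) ≠ ⊤ := fun ε => measure_ne_top_of_subset (fun q hq => hq.1.1) fK
  have ig : IntegrableOn g U G.μ := hC.int hg.opn hK KU gc fun q hq h => by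
    simp only [g, (z0 q hq h).1, (z0 q hq h).2, g0 q hq]
  have op : IsOpen (U ∩ Kᶜ) := hg.opn.inter hK.isClosed.isOpen_compl
  have main : ∀ ε > (0 : ℝ), ε ≤ 1 → ∫ q, g q ∂ν ≤
      ν.real K * (ε * (Z ^ 2 * |S|)) + ν.real (T ε) * (C₂ + |Γ|) := by
    intro ε hε hε1
    have sm := fun q hq => sm_psi (ζ := ζ) hC hM hq (hg.sm q hq) hζ hε
    have p0 : ∀ q ∈ U, q ∉ K → psi G τ ρ ζ ε q = 0 := fun q hq h => by simp [psi, (z0 q hq h).1]
    have f0 : ∀ q ∈ U, q ∉ K → ∀ i, fld G τ X ζ ε i q = 0 := fun q hq h i => by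
      simp [fld, (z0 q hq h).1]
    have d0 : ∀ q ∈ U, q ∉ K → G.Div (fld G τ X ζ ε) q = 0 := fun q hq h =>
      Finset.sum_eq_zero fun i _ => (zero_of_ev hC (eventually_of_mem (op.mem_nhds ⟨hq, h⟩)
        fun r hr => f0 r hr.1 hr.2 i)).2 i
    have G0 : ∀ q ∈ U, q ∉ K → G.Gam (psi G τ ρ ζ ε) (psi G τ ρ ζ ε) q = 0 := fun q hq h =>
      Finset.sum_eq_zero fun i _ => by
        rw [(zero_of_ev hC (eventually_of_mem (op.mem_nhds ⟨hq, h⟩)
          fun r hr => p0 r hr.1 hr.2)).2 i, zero_mul]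
    have i1 : Integrable (G.Div (fld G τ X ζ ε)) ν := hC.int hg.opn hK KU (fun q hq =>
      (hC.cont (hC.sum fun i _ => hC.smδ ((sm q hq).2 i) i)).continuousWithinAt) d0
    have i2 : Integrable (fun q => G.A2 q * psi G τ ρ ζ ε q ^ 2) ν :=
      hC.int hg.opn hK KU (fun q hq => ((hC.cont (hC.smA q)).mul
        ((hC.cont (sm q hq).1).pow 2)).continuousWithinAt) fun q hq h => by simp [p0 q hq h]
    have i3 : Integrable (G.Gam (psi G τ ρ ζ ε) (psi G τ ρ ζ ε)) ν := hC.int hg.opn hK KU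
      (fun q hq => (hC.cont (hC.smG (sm q hq).1 (sm q hq).1)).continuousWithinAt) G0
    have i4 : Integrable (K.indicator fun _ => ε * (Z ^ 2 * |S|)) ν :=
      (integrable_indicator_iff hK.measurableSet).2 (integrableOn_const fK)
    have i5 : Integrable ((T ε).indicator fun _ => C₂ + |Γ|) ν :=
      (integrable_indicator_iff (mT ε)).2 (integrableOn_const (fT ε))
    have j1 := hC.div hg.opn hK KU (fun q hq => (sm q hq).2) f0
    have j2 := hC.stb hst hg.opn hK KU (fun q hq => (sm q hq).1) p0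
    have C20 : 0 ≤ C₂ := by positivity
    have le := setIntegral_mono_on ig (((i1.add i2).sub i3).add (i4.add i5)) hg.opn.measurableSet
      fun q hq => by
        simp only [Pi.add_apply, Pi.sub_apply]
        by_cases h : q ∈ K
        · rw [indicator_of_mem h]
          by_cases h0 : 0 < G.sg τ q
          · obtain ⟨a1, a2, a3⟩ := hC1 q h h0
            have b : C * G.sg τ q ≤ |C| * G.sg τ q := by gcongr; exact le_abs_self _
            have k := pw hC hM hq (hg.sm q hq) hζ hε hε1 h0 (Z := Z)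
              (fun t => (hZ₁ t).trans (le_max_left _ _)) (fun t => (hZ₂ t).trans (le_max_right _ _))
              hB (abs_nonneg C) C0' ⟨a1.trans b, a2.trans b, a3.trans b⟩ (hC2 q h)
            have k1 : ε * (Z ^ 2 * G.sg τ q) ≤ ε * (Z ^ 2 * |S|) := by
              gcongr
              exact ((le_abs_self _).trans (hS q h)).trans (le_abs_self _)
            split_ifs at k with h2
            · rw [indicator_of_mem (show q ∈ T ε from ⟨⟨h, h2⟩, fun k => h0.not_ge k.2⟩)]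
              have c0 : 0 ≤ chi G τ ε q := Real.smoothTransition.nonneg _
              have c1 : chi G τ ε q ≤ 1 := Real.smoothTransition.le_one _
              have c2 : 0 ≤ 1 - chi G τ ε q ^ 2 := by nlinarith
              have c3 : (1 - chi G τ ε q ^ 2) * g q ≤ 1 * |Γ| :=
                (mul_le_mul_of_nonneg_left (le_abs_self _) c2).trans (mul_le_mul
                  (by nlinarith) ((hΓ q h).trans (le_abs_self _)) (abs_nonneg _) zero_le_one)
              simp only [g] at c3 ⊢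
              linarith
            · rw [indicator_of_notMem (show q ∉ T ε from fun k => h2 k.1.2)]
              have c : chi G τ ε q = 1 := Real.smoothTransition.one_of_one_le (by
                rw [le_sub_iff_add_le, le_div_iff₀ hε]; linarith [not_le.1 h2])
              rw [c] at k
              simp only [g]
              linarith
          · have s0 : G.sg τ q = 0 := (not_lt.1 h0).antisymm (add_nonneg (gam_nn _ _) (a2_nn _))
            have a := chi_ev hC (hg.sm q hq) hε (s0.trans_lt hε)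
            have a1 : G.Div (fld G τ X ζ ε) q = 0 := Finset.sum_eq_zero fun i _ =>
              (zero_of_ev hC (a.mono fun r hr => by simp [fld, hr])).2 i
            have a2 : G.Gam (psi G τ ρ ζ ε) (psi G τ ρ ζ ε) q = 0 :=
              Finset.sum_eq_zero fun i _ => by
                rw [(zero_of_ev hC (f := psi G τ ρ ζ ε)
                  (a.mono fun r hr => by simp [psi, hr])).2 i, zero_mul]
            have a3 : 0 ≤ (T ε).indicator (fun _ => C₂ + |Γ|) q :=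
              indicator_nonneg (fun _ _ => by positivity) q
            have a4 := a2_nn (G := G) q
            have a5 : 0 ≤ G.A2 q * psi G τ ρ ζ ε q ^ 2 := by positivity
            have a6 : 0 ≤ ε * (Z ^ 2 * |S|) := by positivity
            simp only [g, g1 q hq s0, a1, a2]
            linarith
        · rw [indicator_of_notMem h, indicator_of_notMem (show q ∉ T ε from fun k => h k.1.1),
            d0 q hq h, G0 q hq h, p0 q hq h]
          simp [g, (z0 q hq h).1, (z0 q hq h).2, g0 q hq]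
    rw [integral_add' ((i1.add i2).sub i3) (i4.add i5), integral_sub' (i1.add i2) i3,
      integral_add' i1 i2, integral_add' i4 i5, integral_indicator_const _ hK.measurableSet,
      integral_indicator_const _ (mT ε)] at le
    simp only [smul_eq_mul] at le
    linarith
  have l1 : Tendsto (fun n : ℕ => ν (T (1 / (n + 1)))) atTop (𝓝 0) := by
    have := tendsto_measure_iInter_atTop (μ := ν) (s := fun n : ℕ => T (1 / (n + 1)))
      (fun n => (mT _).nullMeasurableSet) (fun n k h q hq => ⟨⟨hq.1.1, le_trans (a := G.sg τ q) hq.1.2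
        (mul_le_mul_of_nonneg_left (Nat.one_div_le_one_div h) zero_le_two)⟩, hq.2⟩) ⟨0, fT _⟩
    have e : ⋂ n : ℕ, T (1 / (n + 1)) = ∅ := eq_empty_of_forall_notMem fun q hq => by
      have h := mem_iInter.1 hq
      refine (h 0).2 ⟨(h 0).1.1, ?_⟩
      have l := (tendsto_one_div_add_atTop_nhds_zero_nat (𝕜 := ℝ)).const_mul 2
      rw [mul_zero] at l
      exact ge_of_tendsto' l fun n => (h n).1.2
    rwa [e, measure_empty] at this
  have l2 := (((tendsto_one_div_add_atTop_nhds_zero_nat (𝕜 := ℝ)).mul_const (Z ^ 2 * |S|)).const_mul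
    (ν.real K)).add (((ENNReal.tendsto_toReal ENNReal.zero_ne_top).comp l1).mul_const (C₂ + |Γ|))
  simp only [zero_mul, mul_zero, ENNReal.toReal_zero, add_zero] at l2
  exact ge_of_tendsto' l2 fun n => main _ Nat.one_div_pos_of_nat (by
    rw [div_le_one (by positivity)]; linarith [n.cast_nonneg (α := ℝ)])

end Vale.Agent.P134L
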