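import Vale.Agent.P134L.Defs

/-!
# Row I4: the comparison with the extrinsic distance
-/

open MeasureTheory Set Filter Metric Topology
open scoped ContDiff

noncomputable section

namespace Vale.Agent.P134L

theorem i4 : I4 := by
  intro m M _ _ _ _ G hm C p U τ g w hw w0
  have m4 : (4 : ℝ) ≤ m := by exact_mod_cast hm
  obtain ⟨d0, s1⟩ := contDiff_infty_iff_deriv.1 hw.1
  obtain ⟨d1, s2⟩ := contDiff_infty_iff_deriv.1 s1
  obtain ⟨s, t, st⟩ : ∃ s t, tsupport w ⊆ Icc s t :=
    ⟨_, _, hw.2.isCompact.isBounded.subset_Icc_sInf_sSup⟩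
  have K := g.lev s t
  have KU : {q | q ∈ U ∧ τ q ∈ Icc s t} ⊆ U := fun _ h => h.1
  have z : ∀ q ∈ U, q ∉ {q | q ∈ U ∧ τ q ∈ Icc s t} →
      w (τ q) = 0 ∧ deriv w (τ q) = 0 ∧ deriv (deriv w) (τ q) = 0 := fun q hq h => by
    have : τ q ∉ tsupport w := fun e => h ⟨hq, st e⟩
    exact ⟨image_eq_zero_of_notMem_tsupport this,
      Function.notMem_support.1 fun e => this (support_deriv_subset e),
      Function.notMem_support.1 fun e => this (tsupport_deriv_subset (support_deriv_subset e))⟩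
  have cτ : ContinuousOn τ U := fun q hq => (C.cont (g.sm q hq)).continuousWithinAt
  have cΓ : ContinuousOn (G.Gam τ τ) U := fun q hq =>
    (C.cont (C.smG (g.sm q hq) (g.sm q hq))).continuousWithinAt
  have Γ0 : ∀ q, 0 ≤ G.Gam τ τ q := fun q => Finset.sum_nonneg fun _ _ => mul_self_nonneg _
  have ce : ∀ a : ℝ, ContinuousOn (fun q => Real.exp (a * τ q)) U := fun a =>
    (cτ.const_mul a).rexp
  have cw := hw.1.continuous.comp_continuousOn cτ
  have de : ∀ a t : ℝ, HasDerivAt (fun t => Real.exp (a * t)) (Real.exp (a * t) * a) t :=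
    fun a t => by simpa using ((hasDerivAt_id t).const_mul a).exp
  have se : ∀ a : ℝ, ContDiff ℝ ∞ fun t => Real.exp (a * t) := fun a => by fun_prop
  have sΦ : ∀ q ∈ U, G.Sm (fun q => w (τ q) * Real.exp (-m * τ q)) q := fun q hq =>
    C.comp (F := fun t => w t * Real.exp (-m * t))
      (.of_forall fun _ => (hw.1.mul (se _)).contDiffAt) (g.sm q hq)
  have sE : ∀ q ∈ U, G.Sm (fun q => Real.exp (2 * τ q)) q := fun q hq =>
    C.comp (F := fun t => Real.exp (2 * t)) (.of_forall fun _ => (se _).contDiffAt) (g.sm q hq)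
  have sg : ∀ q ∈ U, G.Sm (fun q => G.rr p q - Real.exp (2 * τ q)) q := fun q hq =>
    C.sub (C.smr p q) (sE q hq)
  have lΦ : ∀ q ∈ U, G.Lap (fun q => w (τ q) * Real.exp (-m * τ q)) q =
      (deriv (deriv w) (τ q) - (m + 2) * deriv w (τ q) + 2 * m * w (τ q)) *
        (Real.exp (-m * τ q) * G.Gam τ τ q) := fun q hq => by
    rw [C.lcomp (F := fun t => w t * Real.exp (-m * t))
      (.of_forall fun _ => (hw.1.mul (se _)).contDiffAt)
      (.of_forall fun t => (d0 t).hasDerivAt.fun_mul (de _ t))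
      (((d1 _).hasDerivAt.fun_mul (de _ _)).fun_add
        ((d0 _).hasDerivAt.fun_mul ((de _ _).mul_const _))) (g.sm q hq), g.eq q hq]
    ring
  have lg : ∀ q ∈ U, G.Lap (fun q => G.rr p q - Real.exp (2 * τ q)) q =
      2 * m * (1 - Real.exp (2 * τ q) * G.Gam τ τ q) := fun q hq => by
    rw [C.lsub (C.smr p q) (sE q hq), C.lr, C.lcomp (F := fun t => Real.exp (2 * t))
      (.of_forall fun _ => (se _).contDiffAt) (.of_forall fun t => de _ t)
      ((de _ _).mul_const _) (g.sm q hq), g.eq q hq]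
    ring
  have e1 : ∀ q, G.nu τ q = Real.exp (-m * τ q) * (Real.exp (2 * τ q) * G.Gam τ τ q) := fun q => by
    rw [Geo.nu, ← mul_assoc, ← Real.exp_add]
    ring_nf
  have e2 : ∀ q, G.II τ q = Real.exp (-m * τ q) * (Real.exp (2 * τ q) * G.Gam τ τ q) ^ 2 :=
    fun q => by
      rw [Geo.II, mul_pow, ← mul_assoc, ← Real.exp_nat_mul, ← Real.exp_add]
      ring_nf
  have cν : ContinuousOn (G.nu τ) U := (ce _).mul cΓ
  have i1 : IntegrableOn (fun q => w (τ q) * G.nu τ q) U G.μ :=
    C.int g.opn K KU (cw.mul cν) fun q hq h => by rw [(z q hq h).1, zero_mul]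
  have i2 : IntegrableOn (fun q => w (τ q) * G.II τ q) U G.μ :=
    C.int g.opn K KU (cw.mul ((ce _).mul (cΓ.pow 2))) fun q hq h => by rw [(z q hq h).1, zero_mul]
  have i3 : IntegrableOn (fun q => (|deriv w (τ q)| + |deriv (deriv w) (τ q)|) * G.nu τ q) U G.μ :=
    C.int g.opn K KU (((s1.continuous.comp_continuousOn cτ).abs.add
      (s2.continuous.comp_continuousOn cτ).abs).mul cν) fun q hq h => by simp [z q hq h]
  have gr := C.gr2 g.opn K KU (fun q hq => ⟨sΦ q hq, sg q hq⟩)
    fun q hq h => by rw [(z q hq h).1, zero_mul]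
  rw [← integral_sub i1 i2]
  refine le_of_mul_le_mul_left (a := (2 * m : ℝ)) ?_ (by positivity)
  rw [← integral_const_mul, ← integral_const_mul]
  refine (setIntegral_mono_on ((i1.sub i2).const_mul _) (C.int g.opn K KU
    (fun q hq => (C.cont (C.mul (sΦ q hq) (C.smL (sg q hq)))).continuousWithinAt)
    fun q hq h => by rw [(z q hq h).1, zero_mul, zero_mul]) g.opn.measurableSet
    fun q hq => ?_).trans (gr.le.trans (setIntegral_mono_on (C.int g.opn K KU
      (fun q hq => (C.cont (C.mul (C.smL (sΦ q hq)) (sg q hq))).continuousWithinAt)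
      fun q hq h => by rw [lΦ q hq]; simp [z q hq h]) (i3.const_mul _) g.opn.measurableSet
      fun q hq => ?_))
  · simp only [Pi.sub_apply]
    rw [lg q hq, e1, e2]
    nlinarith [mul_nonneg (mul_nonneg (mul_nonneg (show (0 : ℝ) ≤ 2 * m by positivity) (w0 (τ q)))
      (Real.exp_pos (-m * τ q)).le) (sq_nonneg (1 - Real.exp (2 * τ q) * G.Gam τ τ q))]
  · rw [lΦ q hq, e1]
    have r1 := g.rb q hq
    have r0 : 0 ≤ G.rr p q := sq_nonneg _
    have a0 := mul_nonneg (Real.exp_pos (-m * τ q)).le (Γ0 q)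
    rw [mul_left_comm (Real.exp (-m * τ q)), mul_right_comm, ← mul_assoc (2 * m : ℝ),
      ← mul_assoc (2 * m * (_ + _) : ℝ)]
    refine mul_le_mul_of_nonneg_right ?_ a0
    have b1 := abs_le.1 (le_refl |deriv w (τ q)|)
    have b2 := abs_le.1 (le_refl |deriv (deriv w) (τ q)|)
    have b3 := mul_nonneg (show (0 : ℝ) ≤ 2 * m by positivity) (w0 (τ q))
    have b4 := abs_nonneg (deriv w (τ q))
    have b5 := abs_nonneg (deriv (deriv w) (τ q))
    generalize |deriv w (τ q)| = x at *
    generalize |deriv (deriv w) (τ q)| = y at *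
    calc _ ≤ 2 * m * (x + y) * (Real.exp (2 * τ q) - G.rr p q) := by
          rw [← neg_sub (Real.exp _), mul_neg, ← neg_mul]
          exact mul_le_mul_of_nonneg_right (by nlinarith) (sub_nonneg.2 r1)
      _ ≤ _ := mul_le_mul_of_nonneg_left (sub_le_self _ r0) (by positivity)

end Vale.Agent.P134L
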