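import Vale.Agent.P134K.Br

/-!
# P134L: the rows K1 and K6
-/

open MeasureTheory Metric Set Filter Topology
open scoped ContDiff RealInnerProductSpace Gradient

noncomputable section
namespace Vale.Agent.P134L

open Vale.Agent.P134K (disc geo_δ geo_A sm_iff Disc inner_grad)
open Vale.Agent.P134U (Ok0 ok0)

variable {m : ℕ} {M : Type} [MetricSpace M] [MeasurableSpace M] {L : Leaf m M}

theorem dh_le (h : Ok0 L) (p : M) {y : E m} (hy : y ∈ ball (0 : E m) 4) :
    ‖fderiv ℝ (L.h p) y‖ ≤ ‖y‖ := by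
  have := (convex_ball (0 : E m) 4).norm_image_sub_le_of_norm_fderiv_le (𝕜 := ℝ)
    (f := fderiv ℝ (L.h p)) (C := 1) (fun z hz => ((((disc h).smAt_h p hz).fderiv_right (m := ∞)
      (by simp)).differentiableAt (by simp))) (h.h2 p) Disc.z1 hy
  rwa [show fderiv ℝ (L.h p) 0 = 0 from (disc h).d0 p, sub_zero, sub_zero, one_mul] at this

theorem h_le (h : Ok0 L) (p : M) {y : E m} (hy : y ∈ ball (0 : E m) 4) :
    |L.h p y| ≤ ‖y‖ ^ 2 := by
  have s : closedBall (0 : E m) ‖y‖ ⊆ ball 0 4 := closedBall_subset_ball (mem_ball_zero_iff.1 hy)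
  have := (convex_closedBall (0 : E m) ‖y‖).norm_image_sub_le_of_norm_fderiv_le (𝕜 := ℝ)
    (f := L.h p) (C := ‖y‖) (fun z hz => ((disc h).smAt_h p (s hz)).differentiableAt (by simp))
    (fun z hz => (dh_le h p (s hz)).trans (mem_closedBall_zero_iff.1 hz))
    (mem_closedBall_self (norm_nonneg _)) (mem_closedBall_zero_iff.2 le_rfl)
  rwa [show L.h p 0 = 0 from (disc h).h0 p, sub_zero, sub_zero, ← sq] at this

omit [MeasurableSpace M] in
theorem a_le (D : Disc m M) (p : M) (i : Fin (m + 1)) : ‖D.a p i‖ ≤ 1 :=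
  (D.norm_Ls p _).trans (by simp)

theorem core (h : Ok0 L) (hm : 0 < m) : Core L.geo where
  lip := h.dx
  cgr k i := by
    rw [geo_δ h]
    exact Disc.δ_congr k
  amb k i := by
    rw [geo_δ h]
    exact Disc.δ_amb (D := disc h) k
  N1 p := by
    simp only [sq]
    exact (disc h).sum_NN p
  smN p i := (sm_iff h).2 (Eventually.of_forall fun _ => Disc.sm_N)
  sy i j p := by
    rw [geo_A h]
    exact Disc.A_symm
  tr p := by
    rw [geo_A h]
    exact Disc.A_tr
  bd := ⟨∑ _i : Fin (m + 1), ∑ _j : Fin (m + 1), 1, fun p =>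
    Finset.sum_le_sum fun i _ => Finset.sum_le_sum fun j _ => by
      rw [geo_A h, Disc.A_hess, neg_sq, sq_le_one_iff_abs_le_one]
      refine ((fderiv ℝ (fderiv ℝ (L.h p)) 0).le_opNorm₂ ((disc h).a p i)
        ((disc h).a p j)).trans ?_
      exact mul_le_one₀ (mul_le_one₀ (h.h2 p 0 Disc.z1) (norm_nonneg _) (a_le _ p i))
        (norm_nonneg _) (a_le _ p j)⟩
  near p q k := by
    obtain ⟨y, hy, rfl⟩ := h.onto p q k
    have h1 : ‖y‖ ≤ ‖L.x (L.φ p y) - L.x p‖ := by
      have := (disc h).norm_ψ p ((disc h).φ p y)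
      rwa [(disc h).ψ_φ hy] at this
    refine ⟨((disc h).dist_φ p hy).trans (by gcongr; exact h1), ?_⟩
    have h2 : √(1 + ‖∇ (L.h p) y‖ ^ 2) * L.geo.JJ p (L.φ p y) =
        L.h p y - fderiv ℝ (L.h p) y y := by
      change _ * ⟪L.x (L.φ p y) - L.x p, L.N (L.φ p y)⟫ = _
      rw [← real_inner_smul_right, h.Nφ p y hy, h.xφ p y hy, add_assoc, add_sub_cancel_left,
        inner_add_left, inner_sub_right, real_inner_smul_left, inner_sub_right, h.NL,
        real_inner_comm, h.NL, LinearIsometry.inner_map_map, real_inner_comm, inner_grad,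
        real_inner_self_eq_norm_sq, h.N1]
      ring
    have h3 : 1 ≤ √(1 + ‖∇ (L.h p) y‖ ^ 2) := Real.one_le_sqrt.2 (by
      linarith [sq_nonneg ‖∇ (L.h p) y‖])
    have h4 : |fderiv ℝ (L.h p) y y| ≤ ‖y‖ ^ 2 := ((fderiv ℝ (L.h p) y).le_opNorm y).trans (by
      rw [sq]
      exact mul_le_mul_of_nonneg_right (dh_le h p hy) (norm_nonneg _))
    have h5 := congrArg abs h2
    rw [abs_mul, abs_of_nonneg (zero_le_one.trans h3)] at h5
    have h6 := abs_sub (L.h p y) (fderiv ℝ (L.h p) y y)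
    have h7 : ‖y‖ ^ 2 ≤ L.geo.rr p (L.φ p y) := pow_le_pow_left₀ (norm_nonneg _) h1 2
    nlinarith [h_le h p hy, abs_nonneg (L.geo.JJ p (L.φ p y))]
  nebot p := by
    have : Nontrivial (E m) := by
      have : Nonempty (Fin m) := ⟨⟨0, hm⟩⟩
      infer_instance
    have t : Tendsto (L.φ p) (𝓝[≠] 0) (𝓝[≠] p) := by
      refine tendsto_nhdsWithin_iff.2 ⟨((disc h).tend_φ p).mono_left nhdsWithin_le_nhds, ?_⟩
      filter_upwards [self_mem_nhdsWithin, mem_nhdsWithin_of_mem_nhds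
        (isOpen_ball.mem_nhds Disc.z1)] with y h1 h2 h3
      refine h1 ?_
      rw [mem_singleton_iff, ← (disc h).ψ_φ (p := p) h2]
      exact (congrArg _ h3).trans ((disc h).ψ_self p)
    exact t.neBot

theorem k1 : K1 := fun _ _ _ _ _ _ _ hm h => core (ok0 h) (by omega)

theorem k6 : K6 := by
  intro m M _ _ _ _ L _ h p hA
  have h0 := ok0 h
  have h1 : ∀ i j, fderiv ℝ (fderiv ℝ (L.h p)) 0 ((disc h0).a p i) ((disc h0).a p j) = 0 := by
    intro i j
    have h2 := (Finset.sum_eq_zero_iff_of_nonneg fun _ _ => sq_nonneg _).1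
      ((Finset.sum_eq_zero_iff_of_nonneg fun _ _ => Finset.sum_nonneg fun _ _ => sq_nonneg _).1
        hA i (Finset.mem_univ _)) j (Finset.mem_univ _)
    rw [geo_A h0, Disc.A_hess, neg_sq] at h2
    exact pow_eq_zero_iff two_ne_zero |>.1 h2
  ext u w
  rw [← (disc h0).Ls_L p u, ← (disc h0).Ls_L p w, ← Disc.sum_a, ← Disc.sum_a]
  simp [h1]

end Vale.Agent.P134L
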