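import Vale.Agent.P134L.Defs
import Vale.Agent.P366D.Harn

/-!
# P134, frame (Ia): the local estimates (row L1)
-/

open MeasureTheory Set Filter Metric Topology
open scoped ContDiff InnerProductSpace
open Vale.Agent.P366.Stmt (pd)
open Vale.Agent.P366Z (pd_eq pd_congr norm_fderiv_sq norm_sq_eq diff2 ev_diff pd_add_const)
open Vale.Agent.P366Z.Grad (qf pr)
open Vale.Agent.P366D (Gp Lu est_loc harn)

noncomputable section

namespace Vale.Agent.P134L.L1a

variable {m : ℕ} {M : Type} [MetricSpace M] [MeasurableSpace M] {L : Leaf m M}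

/-- the inverse metric as a function of the gradient -/
def Ps (a b : Fin m) (v : E m) : ℝ := (if a = b then 1 else 0) - v a * v b / (1 + ‖v‖ ^ 2)

theorem Ps_sm (a b : Fin m) : ContDiff ℝ 1 (Ps a b) := by
  unfold Ps
  refine contDiff_const.sub (ContDiff.div (by fun_prop)
    (contDiff_const.add (contDiff_norm_sq ℝ)) fun v => by positivity)

theorem Ps_qf (v : E m) (ξ : Fin m → ℝ) : qf (fun a b => Ps a b v) ξ =
    ∑ a, ξ a ^ 2 - (∑ a, v a * ξ a) ^ 2 / (1 + ‖v‖ ^ 2) := by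
  simp only [qf, Ps, sub_mul, Finset.sum_sub_distrib, ite_mul, one_mul, zero_mul,
    Finset.sum_ite_eq, Finset.mem_univ, if_true, sq (∑ _, _), Finset.sum_mul_sum, Finset.sum_div]
  congr 1
  · exact Finset.sum_congr rfl fun a _ => by ring
  · exact Finset.sum_congr rfl fun a _ => Finset.sum_congr rfl fun b _ => by ring

theorem Ps_up (v : E m) (ξ : Fin m → ℝ) : qf (fun a b => Ps a b v) ξ ≤ ∑ a, ξ a ^ 2 := by
  rw [Ps_qf]
  exact sub_le_self _ (by positivity)

theorem Ps_lo {v : E m} (hv : ‖v‖ ≤ 1) (ξ : Fin m → ℝ) :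
    ∑ a, ξ a ^ 2 ≤ 2 * qf (fun a b => Ps a b v) ξ := by
  have h1 := Finset.sum_mul_sq_le_sq_mul_sq Finset.univ (fun a => v a) ξ
  rw [← norm_sq_eq] at h1
  have h2 : ‖v‖ ^ 2 ≤ 1 := pow_le_one₀ (norm_nonneg _) hv
  have h3 : 0 ≤ ∑ a, ξ a ^ 2 := by positivity
  have h4 : (∑ a, v a * ξ a) ^ 2 / (1 + ‖v‖ ^ 2) ≤ (∑ a, ξ a ^ 2) / 2 := by
    rw [div_le_div_iff₀ (by positivity) two_pos]
    nlinarith [mul_le_mul_of_nonneg_right h2 h3]
  rw [Ps_qf]
  linarith

theorem Ps_bd (m : ℕ) : ∃ Λ ≥ (2 : ℝ), ∀ (a b : Fin m) (v : E m), ‖v‖ ≤ 1 →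
    |Ps a b v| ≤ Λ ∧ ‖fderiv ℝ (Ps a b) v‖ ≤ Λ := by
  have c : Continuous fun v : E m => ∑ a, ∑ b, (|Ps a b v| + ‖fderiv ℝ (Ps a b) v‖) :=
    continuous_finsetSum _ fun a _ => continuous_finsetSum _ fun b _ =>
      (Ps_sm a b).continuous.abs.add ((Ps_sm a b).continuous_fderiv one_ne_zero).norm
  obtain ⟨C, hC⟩ := (isCompact_closedBall (0 : E m) 1).bddAbove_image c.continuousOn
  refine ⟨max 2 C, le_max_left _ _, fun a b v hv => ?_⟩
  have h1 := hC (mem_image_of_mem _ (mem_closedBall_zero_iff.2 hv))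
  have h2 := (Finset.single_le_sum (f := fun b => |Ps a b v| + ‖fderiv ℝ (Ps a b) v‖)
    (fun _ _ => by positivity) (Finset.mem_univ b)).trans (Finset.single_le_sum
      (f := fun a => ∑ b, (|Ps a b v| + ‖fderiv ℝ (Ps a b) v‖)) (fun _ _ => by positivity)
      (Finset.mem_univ a))
  have h3 := le_max_right 2 C
  constructor <;> linarith [abs_nonneg (Ps a b v), norm_nonneg (fderiv ℝ (Ps a b) v)]

theorem grad_le (ok : L.Ok) (p : M) {y : E m} (hy : y ∈ ball (0 : E m) 4) :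
    ‖gradient (L.h p) y‖ ≤ 1 := by
  rw [gradient, LinearIsometryEquiv.norm_map]
  exact ok.h1 p y hy

/-- the inverse metric is uniformly elliptic -/
theorem gp (ok : L.Ok) : ∃ Λ ≥ (2 : ℝ), ∀ p, ∀ y ∈ ball (0 : E m) 4, Gp Λ (L.gi p) y := by
  obtain ⟨Λ, h2, h⟩ := Ps_bd m
  refine ⟨Λ, h2, fun p y hy => ⟨fun a b => ?_, fun ξ => ?_, fun a b => (h a b _ (grad_le ok p hy)).1,
    fun a b => ?_⟩⟩
  · simp only [Leaf.gi, eq_comm, mul_comm]
  · have h3 := Ps_lo (grad_le ok p hy) ξ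
    have h4 : 0 ≤ ∑ a, ξ a ^ 2 := by positivity
    exact h3.trans (mul_le_mul_of_nonneg_right h2 (by linarith))
  · have d1 : DifferentiableAt ℝ (fderiv ℝ (L.h p)) y :=
      (((ok.hs p).contDiffAt (isOpen_ball.mem_nhds hy)).fderiv_right (m := 1)
        (WithTop.coe_le_coe.2 le_top)).differentiableAt one_ne_zero
    let T := (InnerProductSpace.toDual ℝ (E m)).symm
    have d2 := ((Ps_sm a b).differentiable one_ne_zero _).hasFDerivAt.comp y
      (T.toContinuousLinearEquiv.hasFDerivAt.comp y d1.hasFDerivAt)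
    refine ⟨d2.differentiableAt, ?_⟩
    refine (congrArg norm d2.fderiv).le.trans ((ContinuousLinearMap.opNorm_comp_le _ _).trans ?_)
    exact (mul_le_mul (h a b _ (grad_le ok p hy)).2
      ((T.toLinearIsometry.norm_toContinuousLinearMap_comp).le.trans (ok.h2 p y hy))
      (norm_nonneg _) (by linarith)).trans (mul_one Λ).le

/-- the dictionary in the disc at `p` -/
theorem dict (ok : L.Ok) (ch : Chart L) (p : M) (u : M → ℝ) {y : E m} (hy : y ∈ ball (0 : E m) 1)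
    (hu : L.geo.Sm u (L.φ p y)) : ContDiffAt ℝ 2 (fun z => u (L.φ p z)) y ∧
      Lu (L.gi p) (fun z => u (L.φ p z)) y = L.geo.Lap u (L.φ p y) ∧
      L.geo.Gam u u (L.φ p y) ≤ ‖fderiv ℝ (fun z => u (L.φ p z)) y‖ ^ 2 ∧
      ‖fderiv ℝ (fun z => u (L.φ p z)) y‖ ^ 2 ≤ 2 * L.geo.Gam u u (L.φ p y) := by
  have c : ContDiffAt ℝ 2 (fun z => u (L.φ p z)) y :=
    ((ch.sm p u y hy).1 hu).self_of_nhds.of_le (WithTop.coe_le_coe.2 le_top)
  have e : L.geo.Gam u u (L.φ p y) = qf (fun a b => Ps a b (gradient (L.h p) y))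
      fun a => pd a (fun z => u (L.φ p z)) y := by
    simp only [ch.gam p u u y hy hu hu, qf, pd_eq (diff2 c)]
    rfl
  refine ⟨c, ?_, ?_, ?_⟩
  · rw [ch.lap p u y hy hu, Lu, pr]
    refine Finset.sum_congr rfl fun a _ => Finset.sum_congr rfl fun b _ => congrArg _ ?_
    have e1 : pd b (fun z => u (L.φ p z)) =ᶠ[𝓝 y] D b fun z => u (L.φ p z) :=
      (ev_diff c).mono fun z hz => pd_eq hz b
    rw [pd_congr e1]
    exact pd_eq (((c.fderiv_right (m := 1) (by norm_num)).clm_apply contDiffAt_const).differentiableAt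
      one_ne_zero) a
  · rw [e, norm_fderiv_sq (diff2 c)]
    exact Ps_up _ _
  · rw [e, norm_fderiv_sq (diff2 c)]
    exact Ps_lo (grad_le ok p (ball_subset_ball (by norm_num) hy)) _

theorem into (ok : L.Ok) (p : M) {y : E m} (hy : y ∈ ball (0 : E m) 1) :
    dist (L.φ p y) p ≤ 2 * ‖y‖ := by
  simpa [ok.φ0] using ok.dφ p y (ball_subset_ball (by norm_num) hy) 0 (mem_ball_self (by norm_num))

theorem from' (ok : L.Ok) (ch : Chart L) {p q : M} (h : dist q p < 2) :
    ∃ y, L.φ p y = q ∧ ‖y‖ ≤ dist q p := by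
  obtain ⟨y, hy, rfl⟩ := ok.onto p q h
  exact ⟨y, rfl, by simpa [ok.φ0] using ch.inj p y hy 0 (mem_ball_self (by norm_num))⟩

theorem lipz (ok : L.Ok) (ch : Chart L) : L.geo.Lipz := by
  intro u p R K hR hK h q hq
  obtain ⟨y, rfl, hy⟩ := from' ok ch (p := p) (q := q) (by linarith [mem_ball.1 hq])
  have k : ∀ z ∈ ball (0 : E m) R, DifferentiableAt ℝ (fun z => u (L.φ p z)) z ∧
      ‖fderiv ℝ (fun z => u (L.φ p z)) z‖ ≤ 2 * K := fun z hz => by
    have z1 := ball_subset_ball hR hz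
    obtain ⟨s, g⟩ := h (L.φ p z) (mem_ball.2 (by linarith [into ok p z1, mem_ball_zero_iff.1 hz]))
    obtain ⟨c, -, -, d⟩ := dict ok ch p u z1 s
    exact ⟨diff2 c, (pow_le_pow_iff_left₀ (norm_nonneg _) (by positivity) two_ne_zero).1
      (by nlinarith [sq_nonneg K])⟩
  have y0 := mem_ball_zero_iff.2 (hy.trans_lt (mem_ball.1 hq))
  have := (convex_ball (0 : E m) R).norm_image_sub_le_of_norm_fderiv_le (𝕜 := ℝ)
    (fun z hz => (k z hz).1) (fun z hz => (k z hz).2)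
    (mem_ball_self (dist_nonneg.trans_lt (mem_ball.1 hq))) y0
  rw [ok.φ0, sub_zero] at this
  exact this.trans (mul_le_mul_of_nonneg_left hy (by positivity))

theorem grd (hm : 1 ≤ m) (ok : L.Ok) (ch : Chart L) : L.geo.Grd := by
  obtain ⟨Λ, h2, gp⟩ := gp ok
  obtain ⟨A, hA⟩ : ∃ A, A = 16 * Λ * (2 * m * Λ + 1) := ⟨_, rfl⟩
  have A0 : 0 ≤ A := by rw [hA]; positivity
  obtain ⟨T, hT⟩ : ∃ T, T = (3 * m ^ 2 * Λ + 2 * 0) * Λ := ⟨_, rfl⟩
  have T0 : 0 ≤ T := by rw [hT]; positivity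
  refine ⟨1 / (1 + T), by positivity, 3 * A + 4 * Λ, by positivity, fun u p R B S hR hR' hS h => ?_⟩
  rw [le_div_iff₀ (by positivity)] at hR'
  have R1 : R ≤ 1 := by nlinarith
  have k : ∀ y ∈ closedBall (0 : E m) (R / 3), y ∈ ball (0 : E m) 1 ∧ L.φ p y ∈ ball p R :=
    fun y hy => by
      have y1 := mem_closedBall_zero_iff.1 hy
      have y2 : y ∈ ball (0 : E m) 1 := mem_ball_zero_iff.2 (by linarith)
      exact ⟨y2, mem_ball.2 (by linarith [into ok p y2])⟩
  have e := est_loc (a := L.gi p) (u := fun z => u (L.φ p z)) (x₀ := 0) (β := 0) (R := R / 3)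
    (M := B) (S := S) hm (by linarith) le_rfl (by positivity) hS
    (fun y hy => gp p y (ball_subset_ball (by norm_num) (k y hy).1)) (by rw [← hT]; nlinarith)
    fun y hy => by
      obtain ⟨s, b, l⟩ := h _ (k y hy).2
      obtain ⟨c, d, -⟩ := dict ok ch p u (k y hy).1 s
      exact ⟨c, b, by rw [d]; linarith⟩
  obtain ⟨s, b, -⟩ := h p (mem_ball_self hR)
  have B0 : 0 ≤ B / R := div_nonneg ((abs_nonneg _).trans b) hR.le
  have d := (dict ok ch p u (mem_ball_self one_pos) (by rwa [ok.φ0])).2.2.1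
  rw [ok.φ0] at d
  refine d.trans (pow_le_pow_left₀ (norm_nonneg _) (e.trans ?_) 2)
  have e1 : A * B / (R / 3) = 3 * A * (B / R) := by field_simp
  have p1 : 0 ≤ R * S := by positivity
  rw [← hA, e1]
  nlinarith [mul_nonneg A0 p1, mul_nonneg (show 0 ≤ Λ by linarith) B0,
    mul_nonneg (show 0 ≤ Λ by linarith) p1]

theorem har (hm : 1 ≤ m) (ok : L.Ok) (ch : Chart L) : L.geo.Har := by
  obtain ⟨Λ, h2, gp⟩ := gp ok
  obtain ⟨R₀, R0, C, C0, H⟩ := harn hm (show 1 ≤ Λ by linarith)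
  refine ⟨min 1 R₀, by positivity, C, C0, fun u p R hR hR' h q hq => ?_⟩
  have R1 := hR'.trans (min_le_left _ _)
  have R2 := hR'.trans (min_le_right _ _)
  obtain ⟨y, rfl, hy⟩ := from' ok ch (p := p) (q := q) (by linarith [mem_ball.1 hq])
  have y0 : y ∈ closedBall (0 : E m) (R / 13) :=
    mem_closedBall_zero_iff.2 (by linarith [mem_ball.1 hq])
  have z0 : (0 : E m) ∈ closedBall (0 : E m) (R / 13) := mem_closedBall_self (by positivity)
  have k : ∀ ε > (0 : ℝ), ∀ y ∈ closedBall (0 : E m) (R / 13), ∀ z ∈ closedBall (0 : E m) (R / 13),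
      u (L.φ p y) ≤ C * u (L.φ p z) + ε := fun ε ε0 y hy z hz => by
    have := H (L.gi p) (fun z => u (L.φ p z) + ε / C) 0 (R / 13) (by positivity) (by linarith)
      (fun y hy => by
        have y1 := mem_closedBall_zero_iff.1 hy
        have y2 : y ∈ ball (0 : E m) 1 := mem_ball_zero_iff.2 (by linarith)
        obtain ⟨s, b, l⟩ := h (L.φ p y) (mem_ball.2 (by linarith [into ok p y2]))
        obtain ⟨c, d, -⟩ := dict ok ch p u y2 s
        have e : Lu (L.gi p) (fun z => u (L.φ p z) + ε / C) y =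
            Lu (L.gi p) (fun z => u (L.φ p z)) y := by
          have e1 : ∀ j, pd j (fun z => u (L.φ p z) + ε / C) = pd j fun z => u (L.φ p z) :=
            fun j => funext fun z => pd_add_const _ j
          simp only [Lu, e1]
        have ε1 : 0 < ε / C := by positivity
        refine ⟨gp p y (ball_subset_ball (by norm_num) y2), c.add contDiffAt_const, by linarith, ?_⟩
        rw [e, d]
        nlinarith [norm_nonneg (fderiv ℝ (fun z => u (L.φ p z) + ε / C) y)]) y hy z hz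
    rw [mul_add, mul_div_cancel₀ _ C0.ne'] at this
    linarith [show 0 < ε / C by positivity]
  constructor
  · simpa [ok.φ0] using le_of_forall_pos_le_add fun ε ε0 => k ε ε0 y y0 0 z0
  · simpa [ok.φ0] using le_of_forall_pos_le_add fun ε ε0 => k ε ε0 0 z0 y y0

end L1a

/-- Row L1. -/
theorem l1 : L1 := fun _ _ _ _ _ _ _ hm ok ch =>
  ⟨L1a.lipz ok ch, L1a.grd (by omega) ok ch, L1a.har (by omega) ok ch⟩

end Vale.Agent.P134L
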