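import Vale.Agent.P134L.Defs
import Vale.Agent.P088.R2.H349.Hyp

/-!
# Row L2: the lemma of Weyl on a leaf
-/

open MeasureTheory Set Filter Metric Topology
open scoped ContDiff

noncomputable section

namespace Vale.Agent.P134L

namespace L2

variable {m : ℕ} {M : Type} [MetricSpace M] [MeasurableSpace M] {L : Leaf m M}

/-- the density of the area -/
def rho (L : Leaf m M) (p : M) (y : E m) : ℝ := √(1 + ‖gradient (L.h p) y‖ ^ 2)

/-- the area in the disc -/
def nu (L : Leaf m M) (p : M) : Measure (E m) :=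
  volume.withDensity fun y => ENNReal.ofReal (rho L p y)

omit [MetricSpace M] in
theorem rho1 (p : M) (y : E m) : 1 ≤ rho L p y :=
  Real.one_le_sqrt.2 (le_add_of_nonneg_right (sq_nonneg _))

theorem b4 : ball (0 : E m) 1 ⊆ ball 0 4 := ball_subset_ball (by norm_num)

theorem cφ (ok : L.Ok) (p : M) : ContinuousOn (L.φ p) (ball 0 1) :=
  (LipschitzOnWith.of_dist_le_mul (K := 2) fun y hy z hz => by
    simpa [dist_eq_norm] using ok.dφ p y (b4 hy) z (b4 hz)).continuousOn

theorem inj (ch : Chart L) (p : M) : InjOn (L.φ p) (ball 0 1) := fun y hy z hz e => by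
  have := ch.inj p y (b4 hy) z (b4 hz)
  rw [e, dist_self] at this
  exact sub_eq_zero.1 (norm_le_zero_iff.1 this)

theorem grad_apply (f : E m → ℝ) (y : E m) (a : Fin m) :
    gradient f y a = fderiv ℝ f y (EuclideanSpace.single a 1) := by
  rw [← InnerProductSpace.toDual_symm_apply, EuclideanSpace.inner_single_right]
  simp [gradient]

theorem sga (ok : L.Ok) (p : M) (a : Fin m) :
    ContDiffOn ℝ ∞ (fun y => gradient (L.h p) y a) (ball 0 1) := by
  simp only [grad_apply]
  exact ((((ok.hs p).mono b4).fderiv_of_isOpen isOpen_ball (m := ∞) (by simp)).clm_apply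
    contDiffOn_const)

theorem sn (ok : L.Ok) (p : M) :
    ContDiffOn ℝ ∞ (fun y => 1 + ‖gradient (L.h p) y‖ ^ 2) (ball 0 1) :=
  contDiffOn_const.add ((contDiffOn_euclidean.2 (sga ok p)).norm_sq ℝ)

theorem srho (ok : L.Ok) (p : M) : ContDiffOn ℝ ∞ (rho L p) (ball 0 1) :=
  (sn ok p).sqrt fun _ _ => by positivity

theorem sgi (ok : L.Ok) (p : M) (a b : Fin m) :
    ContDiffOn ℝ ∞ (fun y => L.gi p y a b) (ball 0 1) :=
  contDiffOn_const.sub (((sga ok p a).mul (sga ok p b)).div (sn ok p) fun _ _ => by positivity)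

omit [MetricSpace M] in
theorem ell (p : M) (y : E m) {ξ : E m} (h : ξ ≠ 0) :
    0 < ∑ a, ∑ b, L.gi p y a b * ξ a * ξ b := by
  unfold Leaf.gi
  generalize gradient (L.h p) y = v
  have e : ∑ a, ∑ b, ((if a = b then 1 else 0) - v a * v b / (1 + ‖v‖ ^ 2)) * ξ a * ξ b =
      ∑ a, ξ a ^ 2 - (∑ a, v a * ξ a) ^ 2 / (1 + ‖v‖ ^ 2) := by
    simp only [sub_mul, Finset.sum_sub_distrib, ite_mul, one_mul, zero_mul, Finset.sum_ite_eq,
      Finset.mem_univ, if_true, sq, Finset.sum_mul_sum, Finset.sum_div]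
    congr 1
    exact Finset.sum_congr rfl fun _ _ => Finset.sum_congr rfl fun _ _ => by ring
  have c := Finset.sum_mul_sq_le_sq_mul_sq Finset.univ (fun a => v a) fun a => ξ a
  rw [← EuclideanSpace.real_norm_sq_eq, ← EuclideanSpace.real_norm_sq_eq] at c
  rw [e, ← EuclideanSpace.real_norm_sq_eq, sub_pos, div_lt_iff₀ (by positivity)]
  nlinarith [sq_pos_of_pos (norm_pos_iff.2 h)]

/-- the transport of a function to the leaf -/
def tr (L : Leaf m M) (p : M) (F : E m → ℝ) : M → ℝ :=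
  (L.φ p '' ball 0 1).indicator fun q => F (Function.invFunOn (L.φ p) (ball 0 1) q)

theorem tr_eq (ch : Chart L) (p : M) (F : E m → ℝ) {y : E m} (hy : y ∈ ball (0 : E m) 1) :
    tr L p F (L.φ p y) = F y := by
  rw [tr, indicator_of_mem (mem_image_of_mem _ hy), (inj ch p).leftInvOn_invFunOn hy]

theorem tr_ev (ch : Chart L) (p : M) (F : E m → ℝ) {y : E m} (hy : y ∈ ball (0 : E m) 1) :
    (fun z => tr L p F (L.φ p z)) =ᶠ[𝓝 y] F :=
  eventually_of_mem (isOpen_ball.mem_nhds hy) fun _ hz => tr_eq ch p F hz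

theorem tr_sm (ch : Chart L) (p : M) {F : E m → ℝ} {y : E m} (hy : y ∈ ball (0 : E m) 1)
    (h : ∀ᶠ z in 𝓝 y, ContDiffAt ℝ ∞ F z) : L.geo.Sm (tr L p F) (L.φ p y) :=
  (ch.sm p _ y hy).2 <| by
    filter_upwards [h, isOpen_ball.mem_nhds hy] with z h1 h2 using
      h1.congr_of_eventuallyEq (tr_ev ch p F h2)

theorem tr0 (ch : Chart L) (p : M) {F : E m → ℝ} {q : M} (h : q ∉ L.φ p '' tsupport F) :
    tr L p F q = 0 := by
  by_cases e : q ∈ L.φ p '' ball 0 1
  · obtain ⟨y, hy, rfl⟩ := e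
    rw [tr_eq ch p F hy]
    exact image_eq_zero_of_notMem_tsupport fun e => h ⟨y, e, rfl⟩
  · exact indicator_of_notMem e _

theorem dd {F G : E m → ℝ} {y : E m} (h : F =ᶠ[𝓝 y] G) (a b : Fin m) :
    D a (D b F) y = D a (D b G) y := by
  have : D b F =ᶠ[𝓝 y] D b G := (h.fderiv (𝕜 := ℝ)).mono fun z hz => by simp only [D, hz]
  simp only [D, this.fderiv_eq (𝕜 := ℝ)]

variable [BorelSpace M]

theorem key (ok : L.Ok) (ch : Chart L) (p : M) {S : Set (E m)} (hS : MeasurableSet S)
    (hB : S ⊆ ball 0 1) : MeasurableEmbedding (S.domRestrict (L.φ p)) ∧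
      L.μ.restrict (L.φ p '' S) = ((nu L p).comap Subtype.val).map (S.domRestrict (L.φ p)) := by
  have e := ((cφ ok p).mono hB).measurableEmbedding hS ((inj ch p).mono hB)
  refine ⟨e, ?_⟩
  rw [← range_domRestrict, ← e.map_comap]
  congr 1
  ext s hs
  have hs' := (MeasurableEmbedding.subtype_coe hS).measurableSet_image.2 hs
  rw [e.comap_apply, (MeasurableEmbedding.subtype_coe hS).comap_apply, nu, withDensity_apply _ hs',
    show S.domRestrict (L.φ p) '' s = L.φ p '' (Subtype.val '' s) from image_comp _ _ _]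
  exact ok.vol p _ hs' ((Subtype.coe_image_subset _ _).trans hB)

theorem cov (ok : L.Ok) (ch : Chart L) (p : M) {F : M → ℝ} {G : E m → ℝ}
    (hF : ∀ q ∉ L.φ p '' ball 0 1, F q = 0) (hG : ∀ y ∉ ball (0 : E m) 1, G y = 0)
    (h : ∀ y ∈ ball (0 : E m) 1, G y = rho L p y * F (L.φ p y)) :
    ∫ y, G y = ∫ q, F q ∂L.μ := by
  obtain ⟨e, k⟩ := key ok ch p measurableSet_ball subset_rfl
  rw [← setIntegral_eq_integral_of_forall_compl_eq_zero hF,
    ← setIntegral_eq_integral_of_forall_compl_eq_zero hG, k, e.integral_map]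
  refine .symm ((integral_subtype_comap measurableSet_ball fun y => F (L.φ p y)).trans ?_)
  rw [nu, setIntegral_withDensity_eq_setIntegral_toReal_smul₀
    ((srho ok p).continuousOn.aemeasurable measurableSet_ball).ennreal_ofReal
    (.of_forall fun _ => ENNReal.ofReal_lt_top) _ measurableSet_ball]
  refine setIntegral_congr_fun measurableSet_ball fun y hy => ?_
  simp only [h y hy, ENNReal.toReal_ofReal (zero_le_one.trans (rho1 p y)), smul_eq_mul]

theorem intg (ok : L.Ok) (ch : Chart L) (p : M) {S : Set (E m)} (hS : MeasurableSet S)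
    (hB : S ⊆ ball 0 1) {w : M → ℝ} (h : IntegrableOn w (L.φ p '' S) L.μ) :
    IntegrableOn (fun y => w (L.φ p y)) S := by
  obtain ⟨e, k⟩ := key ok ch p hS hB
  rw [IntegrableOn, k, e.integrable_map_iff] at h
  refine ((integrableOn_iff_comap_subtypeVal hS).2 h).mono_measure ?_
  conv_lhs => rw [← withDensity_one (μ := volume)]
  exact withDensity_mono (.of_forall fun y => ENNReal.one_le_ofReal.2 (rho1 p y))

theorem aet (ok : L.Ok) (ch : Chart L) (p : M) {S : Set (E m)} (hS : MeasurableSet S)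
    (hB : S ⊆ ball 0 1) {P : M → Prop} (h : ∀ᵐ y, y ∈ S → P (L.φ p y)) :
    ∀ᵐ q ∂L.μ.restrict (L.φ p '' S), P q := by
  obtain ⟨e, k⟩ := key ok ch p hS hB
  rw [k, e.ae_map_iff]
  exact (ae_restrict_iff_subtype hS (p := fun y => P (L.φ p y))).1
    ((ae_restrict_iff' hS).2 (withDensity_absolutelyContinuous _ _ h))

open P088 in
theorem loc (ok : L.Ok) (ch : Chart L) (C : Calc L.geo) {O : Set M} {w f : M → ℝ} {lam : ℝ}
    (hO : IsOpen O) (hw : LocallyIntegrableOn w O L.μ) (hf : ∀ q ∈ O, L.geo.Sm f q)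
    (heq : ∀ ψ : M → ℝ, (∀ q, L.geo.Sm ψ q) → HasCompactSupport ψ → tsupport ψ ⊆ O →
      ∫ q, w q * (lam * ψ q - L.geo.Lap ψ q) ∂L.μ = ∫ q, f q * ψ q ∂L.μ) (p : M) :
    ∃ (W : Set M) (u : M → ℝ), IsOpen W ∧ W ⊆ O ∧ (p ∈ O → p ∈ W) ∧ (∀ q ∈ W, L.geo.Sm u q) ∧
      ∀ᵐ q ∂L.μ.restrict W, u q = w q := by
  have hS := (cφ ok p).isOpen_inter_preimage isOpen_ball hO
  have hB : ball 0 1 ∩ L.φ p ⁻¹' O ⊆ ball 0 1 := inter_subset_left
  have hI : ∀ {k}, k ⊆ ball 0 1 ∩ L.φ p ⁻¹' O → L.φ p '' k ⊆ O := fun h =>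
    image_subset_iff.2 (h.trans inter_subset_right)
  refine (HY.hypE (b := fun a : Fin m => EuclideanSpace.single a (1 : ℝ)) (m := 1) hS
    (c := fun _ _ a b y => -(rho L p y * L.gi p y a b)) (d := fun _ _ _ _ => 0)
    (e := fun _ _ y => lam * rho L p y) (w := fun _ y => w (L.φ p y))
    (G := fun _ y => rho L p y * f (L.φ p y))
    (fun _ _ a b => ((srho ok p).mul (sgi ok p a b)).neg.mono hB) (fun _ _ _ => contDiffOn_const)
    (fun _ _ => (contDiffOn_const.mul (srho ok p)).mono hB) (fun z _ ξ h => ?_)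
    (fun _ k hk h => intg ok ch p hk.measurableSet (h.trans hB) (hw.integrableOn_compact_subset
      (hI h) (hk.image_of_continuousOn ((cφ ok p).mono (h.trans hB)))))
    (fun _ => ((srho ok p).mono hB).mul fun y hy =>
      ((ch.sm p f y hy.1).1 (hf _ hy.2)).self_of_nhds.contDiffWithinAt)
    fun ψ h => ?_).elim fun v ⟨sv, ev⟩ => ?_
  rotate_right
  · refine ⟨_, tr L p (v 0), isOpen_iff_mem_nhds.2 ?_, hI subset_rfl,
      fun h => ⟨0, ⟨mem_ball_self one_pos, by simpa [ok.φ0] using h⟩, ok.φ0 p⟩, ?_,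
      aet ok ch p hS.measurableSet hB ((ev 0).mono fun y h hy => (tr_eq ch p _ hy.1).trans (h hy))⟩
    · rintro _ ⟨y, hy, rfl⟩
      rw [← ch.opn p y hy.1]
      exact image_mem_map (hS.mem_nhds hy)
    · rintro _ ⟨y, hy, rfl⟩
      exact tr_sm ch p hy.1 (eventually_of_mem (hS.mem_nhds hy) fun z hz =>
        (sv 0).contDiffAt (hS.mem_nhds hz))
  · have := mul_pos (zero_lt_one.trans_le (rho1 (L := L) p z)) (ell (L := L) p z h)
    simp only [Finset.mul_sum, ← mul_assoc] at this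
    simpa [EuclideanSpace.inner_single_left] using this.ne'
  · obtain ⟨s, c, t⟩ := h 0
    simp only [Fin.sum_univ_one]
    generalize ψ 0 = F at s c t
    have K := c.isCompact.image_of_continuousOn ((cφ ok p).mono (t.trans hB))
    have z : ∀ q ∉ L.φ p '' tsupport F, tr L p F =ᶠ[𝓝 q] fun _ => 0 := fun q hq =>
      eventually_of_mem (K.isClosed.isOpen_compl.mem_nhds hq) fun _ => tr0 ch p
    have z1 : ∀ q ∉ L.φ p '' ball 0 1, q ∉ L.φ p '' tsupport F := fun q hq e =>
      hq (image_mono (t.trans hB) e)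
    have z2 : ∀ y ∉ ball (0 : E m) 1, F =ᶠ[𝓝 y] 0 := fun y hy =>
      notMem_tsupport_iff_eventuallyEq.1 fun e => hy (t e).1
    have sF : ∀ y ∈ ball (0 : E m) 1, L.geo.Sm (tr L p F) (L.φ p y) := fun y hy =>
      tr_sm ch p hy (.of_forall fun _ => s.contDiffAt)
    refine (cov ok ch p (fun q hq => ?_) (fun y hy => ?_) fun y hy => ?_).trans ((heq (tr L p F)
      (fun q => ?_) (.intro K fun _ => tr0 ch p) ((closure_minimal (fun q hq => ?_)
      K.isClosed).trans (hI t))).trans (cov ok ch p (fun q hq => ?_) (fun y hy => ?_)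
      fun y hy => ?_).symm)
    · rw [tr0 ch p (z1 q hq), C.lcg (z q (z1 q hq)), C.lc]
      simp
    · have : ∀ a b, D a (D b F) y = 0 := fun a b => by
        rw [dd (z2 y hy)]
        unfold D
        simp
      change _ * (∑ a, ∑ b, _ * D a (D b F) y + _ + _) = 0
      simp [this, (z2 y hy).eq_of_nhds]
    · change _ * (∑ a, ∑ b, _ * D a (D b F) y + _ + _) = _
      rw [ch.lap p _ y hy (sF y hy), tr_eq ch p F hy]
      simp only [dd (tr_ev ch p F hy), neg_mul, mul_assoc, Finset.sum_neg_distrib, ← Finset.mul_sum,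
        zero_mul, Finset.sum_const_zero]
      ring
    · by_cases e : q ∈ L.φ p '' ball 0 1
      · obtain ⟨y, hy, rfl⟩ := e
        exact sF y hy
      · exact C.scg (C.smc 0 q) (z q (z1 q e)).symm
    · exact by_contra fun e => hq (tr0 ch p e)
    · rw [tr0 ch p (z1 q hq), mul_zero]
    · simp [(z2 y hy).eq_of_nhds]
    · rw [tr_eq ch p F hy, mul_assoc]

theorem eqn [ProperSpace M] {G : Geo m M} (C : Calc G) {O : Set M} {u w f : M → ℝ} {lam : ℝ}
    (hO : IsOpen O) (su : ∀ q ∈ O, G.Sm u q) (hf : ∀ q ∈ O, G.Sm f q)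
    (ae : ∀ᵐ q ∂G.μ, q ∈ O → u q = w q)
    (heq : ∀ ψ : M → ℝ, (∀ q, G.Sm ψ q) → HasCompactSupport ψ → tsupport ψ ⊆ O →
      ∫ q, w q * (lam * ψ q - G.Lap ψ q) ∂G.μ = ∫ q, f q * ψ q ∂G.μ) {p : M} (hp : p ∈ O) :
    lam * u p - G.Lap u p = f p := by
  have := C.pos
  obtain ⟨r, hr⟩ : ∃ r : M → ℝ, r = fun q => lam * u q - G.Lap u q - f q := ⟨_, rfl⟩
  have sr : ∀ q ∈ O, G.Sm r q := fun q hq =>
    hr ▸ C.sub (C.sub (C.mul (C.smc _ q) (su q hq)) (C.smL (su q hq))) (hf q hq)
  refine sub_eq_zero.1 (((congrFun hr p).symm).trans (by_contra fun h => ?_))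
  obtain ⟨ε, ε0, hε⟩ := nhds_basis_closedBall.eventually_iff.1 ((hO.eventually_mem hp).and
    (((C.cont (sr p hp)).mul_const (r p)).eventually (lt_mem_nhds (mul_self_pos.2 h))))
  obtain ⟨χ, sχ, bχ, oχ, zχ⟩ := C.bump p (min ε 2) (by positivity) (min_le_right _ _)
  have K := isCompact_closedBall p ε
  have KO : closedBall p ε ⊆ O := fun q hq => (hε hq).1
  have z : ∀ q ∉ closedBall p ε, χ q = 0 := fun q hq =>
    zχ q ((min_le_left _ _).trans (not_le.1 hq).le)
  have z' : ∀ q ∉ closedBall p ε, G.Lap χ q = 0 := fun q hq => by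
    rw [C.lcg (eventually_of_mem (K.isClosed.isOpen_compl.mem_nhds hq) z), C.lc]
  have e := heq χ sχ (.intro K z)
    ((closure_minimal (Function.support_subset_iff'.2 z) K.isClosed).trans KO)
  rw [← setIntegral_eq_integral_of_forall_compl_eq_zero (s := O)
      (fun q hq => by simp [z q fun e => hq (KO e), z' q fun e => hq (KO e)]),
    ← setIntegral_eq_integral_of_forall_compl_eq_zero (s := O) (f := fun q => f q * χ q)
      (fun q hq => by simp [z q fun e => hq (KO e)]),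
    ← setIntegral_congr_ae (f := fun q => u q * (lam * χ q - G.Lap χ q)) hO.measurableSet
      (ae.mono fun q h hq => by rw [h hq])] at e
  have g := C.gr2 hO K KO (fun q hq => ⟨sχ q, su q hq⟩) fun q _ => z q
  have c : ∀ {F : M → ℝ}, (∀ q ∈ O, G.Sm F q) → ContinuousOn F O := fun h q hq =>
    (C.cont (h q hq)).continuousWithinAt
  have I : ∀ {F : M → ℝ}, (∀ q ∈ O, G.Sm F q) → (∀ q ∉ closedBall p ε, F q = 0) →
      IntegrableOn F O G.μ := fun h h0 => C.int hO K KO (c h) fun q _ => h0 q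
  have i1 := I (fun q hq => C.mul (su q hq) (C.sub (C.mul (C.smc lam q) (sχ q)) (C.smL (sχ q))))
    fun q hq => by simp [z q hq, z' q hq]
  have i2 := I (fun q hq => C.mul (hf q hq) (sχ q)) fun q hq => by simp [z q hq]
  have i3 := I (fun q hq => C.mul (sχ q) (C.smL (su q hq))) fun q hq => by simp [z q hq]
  have i4 := I (fun q hq => C.mul (C.smL (sχ q)) (su q hq)) fun q hq => by simp [z' q hq]
  have s5 := fun q hq => C.mul (sχ q) (C.mul (sr q hq) (C.smc (r p) q))
  have Z : ∫ q in O, χ q * (r q * r p) ∂G.μ = 0 := by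
    have : ∀ q, χ q * (r q * r p) = r p * ((u q * (lam * χ q - G.Lap χ q) - f q * χ q) -
        (χ q * G.Lap u q - G.Lap χ q * u q)) := fun q => by
      rw [congrFun hr q]
      ring
    simp only [this]
    rw [integral_const_mul, integral_sub (i1.sub' i2) (i3.sub' i4), integral_sub i1 i2,
      integral_sub i3 i4, e, g]
    simp
  have := Measure.eqOn_open_of_ae_eq ((setIntegral_eq_zero_iff_of_nonneg_ae
    (.of_forall fun q => ?_) (I s5 fun q hq => by simp [z q hq])).1 Z) hO (c s5)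
    continuousOn_const hp
  · simp [oχ p (by simp only [dist_self]; positivity), h] at this
  · by_cases hq : q ∈ closedBall p ε
    · exact mul_nonneg (bχ q).1 (hε hq).2.le
    · simp [z q hq]

end L2

theorem l2 : L2 := by
  intro m M _ _ _ _ L _ ok C ch O w f lam hO hw hf heq
  choose W v oW WO pW sv ev using L2.loc ok ch C hO hw hf heq
  have : L.μ.IsOpenPosMeasure := C.pos
  have cv : ∀ p, ContinuousOn (v p) (W p) := fun p q hq => (C.cont (sv p q hq)).continuousWithinAt
  have gl : ∀ p, ∀ q ∈ W p, v q q = v p q := fun p q hq =>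
    Measure.eqOn_open_of_ae_eq (μ := L.μ) (U := W q ∩ W p)
      (((ae_restrict_of_ae_restrict_of_subset inter_subset_left (ev q)).and
        (ae_restrict_of_ae_restrict_of_subset inter_subset_right (ev p))).mono
        fun _ h => h.1.trans h.2.symm) ((oW q).inter (oW p)) ((cv q).mono inter_subset_left)
      ((cv p).mono inter_subset_right) ⟨pW q (WO p hq), hq⟩
  have su : ∀ q ∈ O, L.geo.Sm (fun q => v q q) q := fun p hp => C.scg (sv p p (pW p hp))
    (eventually_of_mem ((oW p).mem_nhds (pW p hp)) fun q hq => (gl p q hq).symm)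
  have ae : ∀ᵐ q ∂L.μ, q ∈ O → v q q = w q := by
    refine measure_null_of_locally_null _ fun p hp => ?_
    have hp : p ∈ O := by_contra fun e => hp fun h => absurd h e
    refine ⟨_, inter_mem_nhdsWithin _ ((oW p).mem_nhds (pW p hp)), measure_mono_null ?_
      (ae_iff.1 ((ae_restrict_iff' (oW p).measurableSet).1 (ev p)))⟩
    exact fun q hq e => hq.1 fun _ => (gl p q hq.2).trans (e hq.2)
  exact ⟨_, fun p hp => ⟨su p hp, L2.eqn C hO su hf ae heq hp⟩, ae⟩

end Vale.Agent.P134L
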