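import Vale.Agent.P134L.Defs

/-!
# Row X1: the resolvent
-/

open MeasureTheory Set Filter Metric Topology
open scoped ContDiff InnerProductSpace NNReal

noncomputable section

namespace Vale.Agent.P134L

variable {m : ℕ} {M : Type} [MetricSpace M] [MeasurableSpace M]

theorem x1_riesz {V H : Type*} [AddCommGroup V] [Module ℝ V] [NormedAddCommGroup H]
    [InnerProductSpace ℝ H] [CompleteSpace H] (T : V →ₗ[ℝ] H) (l : V →ₗ[ℝ] ℝ) (K : ℝ)
    (h : ∀ v, |l v| ≤ K * ‖T v‖) : ∃ w : H, ∀ v, ⟪w, T v⟫_ℝ = l v := by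
  obtain ⟨s, hs⟩ := T.rangeRestrict.exists_rightInverse_of_surjective T.range_rangeRestrict
  have hs' : ∀ y : LinearMap.range T, T (s y) = y := fun y => by
    have := congrArg (fun L : LinearMap.range T →ₗ[ℝ] LinearMap.range T => (L y : H)) hs
    simpa using this
  let l' : LinearMap.range T →L[ℝ] ℝ := (l.comp s).mkContinuous K fun y => by
    have := h (s y)
    rw [hs'] at this
    simpa using this
  obtain ⟨g, hg, -⟩ := exists_extension_norm_eq (LinearMap.range T) l'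
  refine ⟨(InnerProductSpace.toDual ℝ H).symm g, fun v => ?_⟩
  rw [InnerProductSpace.toDual_symm_apply]
  have h1 := hg ⟨T v, v, rfl⟩
  have h2 := h (s ⟨T v, v, rfl⟩ - v)
  rw [map_sub T, hs', sub_self, norm_zero, mul_zero, map_sub, abs_nonpos_iff, sub_eq_zero] at h2
  exact h1.trans h2

/-- the test functions -/
def x1D {G : Geo m M} (C : Calc G) : Submodule ℝ (M → ℝ) where
  carrier := {ψ | (∀ q, G.Sm ψ q) ∧ HasCompactSupport ψ}
  add_mem' := fun ha hb => ⟨fun q => C.add (ha.1 q) (hb.1 q), ha.2.add hb.2⟩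
  zero_mem' := ⟨fun q => C.smc 0 q, HasCompactSupport.zero⟩
  smul_mem' := fun c _ ha => ⟨fun q => C.mul (C.smc c q) (ha.1 q),
    ha.2.smul_left (f := fun _ => c)⟩

theorem x1_cont {G : Geo m M} (C : Calc G) {ψ : M → ℝ} (h : ∀ q, G.Sm ψ q) : Continuous ψ :=
  continuous_iff_continuousAt.2 fun q => C.cont (h q)

/-- the Laplacian of a test function -/
def x1L {G : Geo m M} (C : Calc G) : x1D C →ₗ[ℝ] x1D C where
  toFun ψ := ⟨G.Lap ψ.1, fun q => C.smL (ψ.2.1 q), ψ.2.2.mono' fun q hq => by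
    by_contra hn
    exact hq ((C.lcg (notMem_tsupport_iff_eventuallyEq.1 hn)).trans (C.lc 0 q))⟩
  map_add' a b := Subtype.ext (funext fun q => C.ladd (a.2.1 q) (b.2.1 q))
  map_smul' c a := Subtype.ext (funext fun q => C.lsm c (a.2.1 q))

theorem x1_memLp [BorelSpace M] {G : Geo m M} (C : Calc G) (ψ : x1D C) : MemLp ψ.1 2 G.μ :=
  haveI := C.fin
  (x1_cont C ψ.2.1).memLp_of_hasCompactSupport ψ.2.2

/-- the class of a test function -/
def x1J [BorelSpace M] {G : Geo m M} (C : Calc G) : x1D C →ₗ[ℝ] Lp ℝ 2 G.μ where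
  toFun ψ := (x1_memLp C ψ).toLp ψ.1
  map_add' a b := MemLp.toLp_add (x1_memLp C a) (x1_memLp C b)
  map_smul' c a := MemLp.toLp_const_smul c (x1_memLp C a)

theorem x1_inner [BorelSpace M] {G : Geo m M} (C : Calc G) (w : Lp ℝ 2 G.μ) (ψ : x1D C) :
    ⟪w, x1J C ψ⟫_ℝ = ∫ q, w q * ψ.1 q ∂G.μ := by
  rw [L2.inner_def]
  refine integral_congr_ae ?_
  filter_upwards [(x1_memLp C ψ).coeFn_toLp] with q hq
  change ⟪w q, ((x1_memLp C ψ).toLp ψ.1) q⟫_ℝ = _
  rw [hq]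
  simp [mul_comm]

theorem x1_inner2 [BorelSpace M] {G : Geo m M} (C : Calc G) (φ ψ : x1D C) :
    ⟪x1J C φ, x1J C ψ⟫_ℝ = ∫ q, φ.1 q * ψ.1 q ∂G.μ := by
  rw [x1_inner]
  refine integral_congr_ae ?_
  filter_upwards [(x1_memLp C φ).coeFn_toLp] with q hq
  change ((x1_memLp C φ).toLp φ.1) q * _ = _
  rw [hq]

theorem x1_neg [BorelSpace M] {G : Geo m M} (C : Calc G) (ψ : x1D C) :
    ⟪x1J C ψ, x1J C (x1L C ψ)⟫_ℝ ≤ 0 := by
  rw [x1_inner2]
  have h := C.gr1 (U := univ) (K := tsupport ψ.1) (f := ψ.1) (g := ψ.1) isOpen_univ ψ.2.2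
    (subset_univ _) (fun q _ => ⟨ψ.2.1 q, ψ.2.1 q⟩)
    (fun q _ hq => image_eq_zero_of_notMem_tsupport hq)
  rw [Measure.restrict_univ] at h
  change ∫ q, ψ.1 q * G.Lap ψ.1 q ∂G.μ ≤ 0
  rw [h, neg_nonpos]
  exact integral_nonneg fun q => Finset.sum_nonneg fun i _ => mul_self_nonneg _

/-- the weak solution -/
theorem x1_weak [BorelSpace M] {G : Geo m M} (C : Calc G) {lam : ℝ} (hl : 0 < lam) (f : x1D C) :
    ∃ w : M → ℝ, MemLp w 2 G.μ ∧ ∀ ψ : M → ℝ, (∀ q, G.Sm ψ q) → HasCompactSupport ψ →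
      ∫ q, w q * (lam * ψ q - G.Lap ψ q) ∂G.μ = ∫ q, f.1 q * ψ q ∂G.μ := by
  let A : x1D C →ₗ[ℝ] x1D C := lam • LinearMap.id - x1L C
  let l : x1D C →ₗ[ℝ] ℝ := (innerₗ (Lp ℝ 2 G.μ) (x1J C f)).comp (x1J C)
  have hb : ∀ ψ, lam * ‖x1J C ψ‖ ≤ ‖x1J C (A ψ)‖ := by
    intro ψ
    have h1 : ⟪x1J C ψ, x1J C (A ψ)⟫_ℝ
        = lam * ‖x1J C ψ‖ ^ 2 - ⟪x1J C ψ, x1J C (x1L C ψ)⟫_ℝ := by
      simp only [A, LinearMap.sub_apply, LinearMap.smul_apply, LinearMap.id_apply, map_sub,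
        map_smul, inner_sub_right, inner_smul_right, real_inner_self_eq_norm_sq]
    have h2 := x1_neg C ψ
    have h3 := real_inner_le_norm (x1J C ψ) (x1J C (A ψ))
    rcases (norm_nonneg (x1J C ψ)).eq_or_lt with h0 | h0
    · rw [← h0, mul_zero]; exact norm_nonneg _
    · refine le_of_mul_le_mul_left ?_ h0
      nlinarith
  obtain ⟨w, hw⟩ := x1_riesz ((x1J C).comp A) l (‖x1J C f‖ / lam) fun ψ => by
    have h1 : l ψ = ⟪x1J C f, x1J C ψ⟫_ℝ := rfl
    rw [h1]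
    refine (abs_real_inner_le_norm _ _).trans ?_
    rw [div_mul_eq_mul_div, le_div_iff₀ hl, mul_assoc]
    refine mul_le_mul_of_nonneg_left ?_ (norm_nonneg _)
    rw [mul_comm]
    exact hb ψ
  refine ⟨w, Lp.memLp w, fun ψ h1 h2 => ?_⟩
  have h3 := hw ⟨ψ, h1, h2⟩
  rw [LinearMap.comp_apply, x1_inner] at h3
  exact h3.trans (x1_inner2 C f ⟨ψ, h1, h2⟩)

/-- a function does not drop too fast near a point where it is almost maximal -/
theorem x1_low {G : Geo m M} (lc : Loc G) {lam : ℝ} (hl : 0 < lam) (A : ℝ) (hA : 0 ≤ A) :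
    ∃ R ∈ Ioc (0 : ℝ) 1, ∃ θ ∈ Ioc (0 : ℝ) (1 / 8), ∀ u : M → ℝ, (∀ q, G.Sm u q) →
      ∀ y₀ (s : ℝ), 0 < s → s ≤ R →
      (∀ y ∈ ball y₀ (s / 2), G.Lap u y = lam * u y ∧ |u y| ≤ A * |u y₀|) →
      ∀ y ∈ ball y₀ (θ * s), u y₀ ^ 2 / 4 ≤ u y ^ 2 := by
  obtain ⟨R₀, hR₀, C₀, hC₀, hg⟩ := lc.grd
  obtain ⟨K₀, hK₀⟩ : ∃ K₀, K₀ = C₀ * (A * (4 + lam)) := ⟨_, rfl⟩
  have hK0 : 0 ≤ K₀ := by rw [hK₀]; positivity
  obtain ⟨θ, hθ⟩ : ∃ θ, θ = 1 / (8 + 4 * K₀) := ⟨_, rfl⟩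
  have hθ0 : 0 < θ := by rw [hθ]; positivity
  have hθ1 : θ ≤ 1 / 8 := by
    rw [hθ]; exact one_div_le_one_div_of_le (by norm_num) (by linarith)
  have hθ2 : K₀ * θ ≤ 1 / 4 := by
    rw [hθ, mul_one_div, div_le_iff₀ (by positivity)]
    linarith
  refine ⟨min R₀ 1, ⟨lt_min hR₀ one_pos, min_le_right _ _⟩, θ, ⟨hθ0, hθ1⟩,
    fun u hu y₀ s hs0 hsR hbd y hy => ?_⟩
  have hs1 : s ≤ 1 := hsR.trans (min_le_right _ _)
  have hs2 : s ≤ R₀ := hsR.trans (min_le_left _ _)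
  obtain ⟨B, hB⟩ : ∃ B, B = |u y₀| := ⟨_, rfl⟩
  have hB0 : 0 ≤ B := by rw [hB]; exact abs_nonneg _
  rw [← hB] at hbd
  have hgr : ∀ y ∈ ball y₀ (2 * (s / 8)), G.Sm u y ∧ G.Gam u u y ≤ (K₀ * B / s) ^ 2 := by
    intro y hy
    refine ⟨hu y, ?_⟩
    have h1 := hg u y (s / 4) (A * B) (lam * (A * B)) (by positivity) (by linarith)
      (by positivity) fun z hz => by
        have hz' : z ∈ ball y₀ (s / 2) := by
          have := dist_triangle z y y₀
          rw [mem_ball] at hy hz ⊢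
          linarith
        refine ⟨hu z, (hbd z hz').2, ?_⟩
        rw [(hbd z hz').1, abs_mul, abs_of_pos hl]
        exact mul_le_mul_of_nonneg_left (hbd z hz').2 hl.le
    refine h1.trans (pow_le_pow_left₀ (by positivity) ?_ 2)
    rw [hK₀, mul_assoc C₀, mul_div_assoc C₀]
    refine mul_le_mul_of_nonneg_left ?_ hC₀
    have e : A * (4 + lam) * B / s = A * B / (s / 4) + 1 / s * (lam * (A * B)) := by
      field_simp
    rw [e]
    have h2 : s / 4 ≤ 1 / s := by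
      rw [div_le_div_iff₀ (by norm_num) hs0]
      nlinarith
    have h3 : 0 ≤ lam * (A * B) := by positivity
    have := mul_le_mul_of_nonneg_right h2 h3
    linarith
  have h1 : θ * s ≤ s / 8 := by nlinarith
  have h2 := lc.lipz u y₀ (s / 8) (K₀ * B / s) (by linarith) (by positivity) hgr y
    (ball_subset_ball h1 hy)
  have h3 : 2 * (K₀ * B / s) * dist y y₀ ≤ B / 2 := by
    calc 2 * (K₀ * B / s) * dist y y₀ ≤ 2 * (K₀ * B / s) * (θ * s) :=
          mul_le_mul_of_nonneg_left (mem_ball.1 hy).le (by positivity)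
      _ = 2 * (K₀ * θ) * B := by field_simp
      _ ≤ B / 2 := by nlinarith
  have h4 : B / 2 ≤ |u y| := by
    have := abs_sub_abs_le_abs_sub (u y₀) (u y)
    rw [abs_sub_comm] at this
    linarith
  have h5 := pow_le_pow_left₀ (by positivity) h4 2
  rw [sq_abs, div_pow, hB, sq_abs] at h5
  linarith

/-- point picking -/
theorem x1_pick [ProperSpace M] {u : M → ℝ} (hu : Continuous u) (hm : m ≠ 0) (q : M) {R : ℝ}
    (hR : 0 < R) (hq : u q ≠ 0) : ∃ y₀, ∃ s ∈ Ioc 0 R, R ^ m * u q ^ 2 ≤ s ^ m * u y₀ ^ 2 ∧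
      ∀ y ∈ ball y₀ (s / 2), y ∈ closedBall q R ∧ |u y| ≤ 2 ^ m * |u y₀| := by
  obtain ⟨y₀, hy₀, hmax⟩ := (isCompact_closedBall q R).exists_isMaxOn
    (f := fun y => (R - dist y q) ^ m * u y ^ 2) ⟨q, mem_closedBall_self hR.le⟩
    (by fun_prop)
  have hq0 : R ^ m * u q ^ 2 ≤ (R - dist y₀ q) ^ m * u y₀ ^ 2 := by
    have := hmax (mem_closedBall_self hR.le)
    simpa using this
  have hmax' : ∀ y ∈ closedBall q R,
      (R - dist y q) ^ m * u y ^ 2 ≤ (R - dist y₀ q) ^ m * u y₀ ^ 2 := fun y hy => hmax hy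
  obtain ⟨s, hs⟩ : ∃ s, s = R - dist y₀ q := ⟨_, rfl⟩
  rw [← hs] at hq0 hmax'
  have hs0 : 0 ≤ s := by rw [hs]; exact sub_nonneg.2 hy₀
  have hs1 : s ≤ R := by have := dist_nonneg (x := y₀) (y := q); linarith
  have hs2 : 0 < s := by
    refine hs0.lt_of_ne fun h0 => ?_
    rw [← h0, zero_pow hm, zero_mul] at hq0
    have : 0 < R ^ m * u q ^ 2 := by positivity
    linarith
  refine ⟨y₀, s, ⟨hs2, hs1⟩, hq0, fun y hy => ?_⟩
  have h0 := dist_triangle y y₀ q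
  rw [mem_ball] at hy
  have h1 : y ∈ closedBall q R := by rw [mem_closedBall]; linarith
  have h2 : s / 2 ≤ R - dist y q := by linarith
  refine ⟨h1, ?_⟩
  have h4 : (s / 2) ^ m * u y ^ 2 ≤ s ^ m * u y₀ ^ 2 :=
    (mul_le_mul_of_nonneg_right (pow_le_pow_left₀ (by positivity) h2 m) (sq_nonneg _)).trans
      (hmax' y h1)
  have h5 : u y ^ 2 ≤ 2 ^ m * u y₀ ^ 2 := by
    have e : s ^ m * u y₀ ^ 2 = (s / 2) ^ m * (2 ^ m * u y₀ ^ 2) := by
      rw [div_pow]; field_simp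
    rw [e] at h4
    exact le_of_mul_le_mul_left h4 (by positivity)
  have h6 : (1 : ℝ) ≤ 2 ^ m := one_le_pow₀ (by norm_num)
  refine abs_le_of_sq_le_sq ?_ (by positivity)
  rw [mul_pow, sq_abs]
  refine h5.trans (mul_le_mul_of_nonneg_right ?_ (sq_nonneg _))
  nlinarith

/-- the mean value inequality -/
theorem x1_mean [ProperSpace M] [BorelSpace M] {G : Geo m M} (C : Calc G) (lc : Loc G) {lam : ℝ}
    (hm : m ≠ 0) (hl : 0 < lam) : ∃ K ≥ (0 : ℝ), ∀ u : M → ℝ, (∀ q, G.Sm u q) →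
      Integrable (fun q => u q ^ 2) G.μ → ∀ q, (∀ y ∈ closedBall q 1, G.Lap u y = lam * u y) →
      u q ^ 2 ≤ K * ∫ y in closedBall q 1, u y ^ 2 ∂G.μ := by
  have := C.fin
  obtain ⟨c, hc, hv⟩ := C.vol
  obtain ⟨R, ⟨hR0, hR1⟩, θ, ⟨hθ0, hθ1⟩, hlow⟩ := x1_low lc hl (2 ^ m) (by positivity)
  refine ⟨4 / (c * θ ^ m * R ^ m), by positivity, fun u hu hi q hq => ?_⟩
  have hI : 0 ≤ ∫ y in closedBall q 1, u y ^ 2 ∂G.μ := integral_nonneg fun y => sq_nonneg _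
  by_cases hq0 : u q = 0
  · rw [hq0, zero_pow two_ne_zero]
    positivity
  obtain ⟨y₀, s, ⟨hs0, hs1⟩, hq1, hp⟩ := x1_pick (x1_cont C hu) hm q hR0 hq0
  have hlow' := hlow u hu y₀ s hs0 hs1 fun y hy =>
    ⟨hq y (closedBall_subset_closedBall hR1 (hp y hy).1), (hp y hy).2⟩
  have hfin : G.μ (ball y₀ (θ * s)) ≠ ⊤ :=
    ((measure_mono ball_subset_closedBall).trans_lt
      (isCompact_closedBall y₀ (θ * s)).measure_lt_top).ne
  have hθs : θ * s ≤ s / 8 := by nlinarith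
  have hvol : c * (θ * s) ^ m ≤ G.μ.real (ball y₀ (θ * s)) :=
    (ENNReal.ofReal_le_iff_le_toReal hfin).1 (hv y₀ _ (by positivity) (by linarith))
  have h1 : u y₀ ^ 2 / 4 * G.μ.real (ball y₀ (θ * s)) ≤ ∫ y in ball y₀ (θ * s), u y ^ 2 ∂G.μ :=
    setIntegral_ge_of_const_le_real measurableSet_ball hfin hlow' hi.integrableOn
  have h2 : ∫ y in ball y₀ (θ * s), u y ^ 2 ∂G.μ ≤ ∫ y in closedBall q 1, u y ^ 2 ∂G.μ := by
    refine setIntegral_mono_set hi.integrableOn (Eventually.of_forall fun y => sq_nonneg _)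
      (LE.le.eventuallyLE fun y hy => ?_)
    exact closedBall_subset_closedBall hR1 (hp y (ball_subset_ball (by linarith) hy)).1
  have h3 : u y₀ ^ 2 / 4 * (c * (θ * s) ^ m) ≤ ∫ y in closedBall q 1, u y ^ 2 ∂G.μ :=
    (mul_le_mul_of_nonneg_left hvol (by positivity)).trans (h1.trans h2)
  rw [div_mul_eq_mul_div, le_div_iff₀ (by positivity)]
  have h4 : c * θ ^ m * (R ^ m * u q ^ 2) ≤ c * θ ^ m * (s ^ m * u y₀ ^ 2) :=
    mul_le_mul_of_nonneg_left hq1 (by positivity)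
  rw [mul_pow] at h3
  linarith

theorem x1 : X1 := by
  intro m M _ _ _ _ G hm C lc lam f hl hf hfc
  have := C.fin
  obtain ⟨w, hw, hweak⟩ := x1_weak C hl ⟨f, hf, hfc⟩
  obtain ⟨u, hu, hae⟩ := lc.hyp univ w f lam isOpen_univ
    ((hw.locallyIntegrable (by norm_num)).locallyIntegrableOn univ) (fun q _ => hf q)
    fun ψ h1 h2 _ => hweak ψ h1 h2
  refine ⟨u, fun q => hu q (mem_univ q), ?_⟩
  have hu2 : MemLp u 2 G.μ := by
    refine (memLp_congr_ae ?_).1 hw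
    filter_upwards [hae] with q hq
    exact (hq (mem_univ q)).symm
  have hi : Integrable (fun q => u q ^ 2) G.μ := hu2.integrable_sq
  obtain ⟨K, hK, hmean⟩ := x1_mean C lc (by omega) hl
  rcases isEmpty_or_nonempty M with hM | ⟨⟨p⟩⟩
  · rw [Subsingleton.elim (cocompact M) ⊥]
    exact tendsto_bot
  obtain ⟨D, hD⟩ := hfc.isCompact.isBounded.subset_closedBall p
  have htail : Tendsto (fun n : ℕ => ∫ y in (ball p n)ᶜ, u y ^ 2 ∂G.μ) atTop (𝓝 0) := by
    have h1 := tendsto_setIntegral_of_antitone (μ := G.μ) (f := fun q => u q ^ 2)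
      (s := fun n : ℕ => (ball p n)ᶜ) (fun n => measurableSet_ball.compl)
      (fun a b hab => compl_subset_compl.2 (ball_subset_ball (by exact_mod_cast hab)))
      ⟨0, hi.integrableOn⟩
    rwa [← compl_iUnion, iUnion_ball_nat, compl_univ, Measure.restrict_empty,
      integral_zero_measure] at h1
  rw [Metric.tendsto_nhds]
  intro ε hε
  have h2 := htail.const_mul K
  rw [mul_zero] at h2
  obtain ⟨n, hn⟩ := (h2.eventually (gt_mem_nhds (pow_pos hε 2))).exists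
  refine mem_cocompact.2 ⟨closedBall p (max D n + 1), isCompact_closedBall _ _, fun q hq => ?_⟩
  have hfar : ∀ y ∈ closedBall q 1, max D n < dist y p := by
    intro y hy
    have h3 := dist_triangle q y p
    rw [mem_closedBall, dist_comm] at hy
    rw [mem_compl_iff, mem_closedBall, not_le] at hq
    linarith
  have h3 := hmean u (fun q => (hu q (mem_univ q)).1) hi q fun y hy => by
    have h4 := (hu y (mem_univ y)).2
    have h5 : f y = 0 := by
      refine image_eq_zero_of_notMem_tsupport fun h => ?_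
      have h6 := mem_closedBall.1 (hD h)
      have h7 := (le_max_left _ _).trans_lt (hfar y hy)
      linarith
    linarith
  have h4 : ∫ y in closedBall q 1, u y ^ 2 ∂G.μ ≤ ∫ y in (ball p n)ᶜ, u y ^ 2 ∂G.μ := by
    refine setIntegral_mono_set hi.integrableOn (Eventually.of_forall fun y => sq_nonneg _)
      (LE.le.eventuallyLE fun y hy => ?_)
    have h7 := (le_max_right _ _).trans_lt (hfar y hy)
    exact fun h => absurd (mem_ball.1 h) (not_lt.2 h7.le)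
  have h5 : u q ^ 2 < ε ^ 2 := (h3.trans (mul_le_mul_of_nonneg_left h4 hK)).trans_lt hn
  change dist (u q) 0 < ε
  rw [Real.dist_eq, sub_zero]
  exact abs_lt_of_sq_lt_sq h5 hε.le

end Vale.Agent.P134L
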