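import Vale.Agent.P134L.Defs

/-!
# Row I5: the assembly of the integral part
-/

open MeasureTheory Set Filter Metric Topology
open scoped ContDiff InnerProductSpace NNReal

noncomputable section

namespace Vale.Agent.P134L

namespace I5p

/-- continuous with compact support -/
def Cs (φ : ℝ → ℝ) : Prop := Continuous φ ∧ HasCompactSupport φ

theorem tst0 {ζ : ℝ → ℝ} (h : Tst ζ) : Cs ζ := ⟨h.1.continuous, h.2⟩

theorem tstd {ζ : ℝ → ℝ} (h : Tst ζ) : Tst (deriv ζ) :=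
  ⟨(contDiff_infty_iff_deriv.1 h.1).2, h.2.deriv⟩

theorem Cs.of {ζ φ : ℝ → ℝ} (h : Tst ζ) (hc : Continuous φ)
    (h0 : ∀ t, ζ t = 0 → deriv ζ t = 0 → deriv (deriv ζ) t = 0 → φ t = 0) : Cs φ := by
  refine ⟨hc, HasCompactSupport.intro ((h.2.union (tstd h).2).union (tstd (tstd h)).2)
    fun t ht => ?_⟩
  simp only [mem_union, not_or] at ht
  exact h0 t (image_eq_zero_of_notMem_tsupport ht.1.1) (image_eq_zero_of_notMem_tsupport ht.1.2)
    (image_eq_zero_of_notMem_tsupport ht.2)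

theorem Cs.int {φ : ℝ → ℝ} (h : Cs φ) (ν : Measure ℝ) (_ : IsFiniteMeasureOnCompacts ν) :
    Integrable φ ν := h.1.integrable_of_hasCompactSupport h.2

theorem fin_add {I J : Measure ℝ} (hI : IsFiniteMeasureOnCompacts I)
    (hJ : IsFiniteMeasureOnCompacts J) : IsFiniteMeasureOnCompacts (I + J) :=
  ⟨fun _ hK => ENNReal.add_lt_top.2 ⟨hK.measure_lt_top, hK.measure_lt_top⟩⟩

variable {m : ℕ} {M : Type} [MetricSpace M] [MeasurableSpace M] {G : Geo m M} {p : M} {U : Set M}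
  {τ : M → ℝ}

omit [MetricSpace M] in
theorem gam0 (q : M) : 0 ≤ G.Gam τ τ q := Finset.sum_nonneg fun _ _ => mul_self_nonneg _

omit [MetricSpace M] in
theorem a20 (q : M) : 0 ≤ G.A2 q :=
  Finset.sum_nonneg fun _ _ => Finset.sum_nonneg fun _ _ => sq_nonneg _

omit [MetricSpace M] in
theorem nu0 (q : M) : 0 ≤ G.nu τ q := mul_nonneg (Real.exp_pos _).le (gam0 q)

omit [MetricSpace M] in
theorem II_eq (q : M) : G.II τ q = Real.exp (2 * τ q) * G.Gam τ τ q * G.nu τ q := by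
  rw [Geo.II, Geo.nu, show -((m : ℝ) - 4) * τ q = 2 * τ q + -((m : ℝ) - 2) * τ q by ring,
    Real.exp_add]
  ring

omit [MetricSpace M] in
theorem EE_eq (q : M) : G.EE τ q = Real.exp (2 * τ q) * G.A2 q * G.nu τ q := by
  rw [Geo.EE, Geo.nu, show -((m : ℝ) - 4) * τ q = 2 * τ q + -((m : ℝ) - 2) * τ q by ring,
    Real.exp_add]
  ring

theorem cts (C : Calc G) (h : Grn G p U τ) : ContinuousOn τ U ∧ ContinuousOn (G.nu τ) U ∧
    ContinuousOn (G.II τ) U ∧ ContinuousOn (G.EE τ) U := by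
  have c1 : ContinuousOn τ U := fun q hq => (C.cont (h.sm q hq)).continuousWithinAt
  have c2 : ContinuousOn (G.Gam τ τ) U := fun q hq =>
    (C.cont (C.smG (h.sm q hq) (h.sm q hq))).continuousWithinAt
  have c3 : ContinuousOn G.A2 U := fun q _ => (C.cont (C.smA q)).continuousWithinAt
  exact ⟨c1, (continuousOn_const.mul c1).rexp.mul c2,
    (continuousOn_const.mul c1).rexp.mul (c2.pow 2),
    (continuousOn_const.mul c1).rexp.mul (c3.mul c2)⟩

/-- what is known about a density -/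
def Pw (G : Geo m M) (U : Set M) (τ w : M → ℝ) : Prop := ∀ φ : ℝ → ℝ, Continuous φ →
  HasCompactSupport φ → IntegrableOn (fun q => φ (τ q) * w q) U G.μ ∧
    ∫ t, φ t ∂G.push τ U w = ∫ q in U, φ (τ q) * w q ∂G.μ

omit [MetricSpace M] in
theorem cmp {w : M → ℝ} {c : ℝ} {S : Set ℝ} {ψ φ : ℝ → ℝ} (hU : MeasurableSet U)
    (hw : Pw G U τ w) (hn : Pw G U τ (G.nu τ))
    (hc : ∀ φ, Cs φ → ∫ q in U, φ (τ q) * G.nu τ q ∂G.μ = c * ∫ t, φ t) (hψ : Continuous ψ)
    (h : ∀ q ∈ U, τ q ∈ S → w q ≤ ψ (τ q) * G.nu τ q) (hφ : Cc S φ) :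
    ∫ t, φ t ∂G.push τ U w ≤ c * ∫ t, φ t * ψ t := by
  have c1 : Cs fun t => φ t * ψ t := ⟨hφ.1.mul hψ, hφ.2.1.mul_right⟩
  rw [(hw φ hφ.1 hφ.2.1).2, ← hc _ c1]
  refine setIntegral_mono_on (hw φ hφ.1 hφ.2.1).1 (hn _ c1.1 c1.2).1 hU fun q hq => ?_
  by_cases hs : τ q ∈ S
  · rw [mul_assoc]
    exact mul_le_mul_of_nonneg_left (h q hq hs) (hφ.2.2.1 _)
  · simp [hφ.2.2.2 _ hs]

end I5p

open I5p in
/-- **I5** -/
theorem i5 : I5 := by
  intro d0 d1 d2 m M _ _ _ _ G _ C push flux intg rb st p U τ hG hC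
  obtain ⟨c1, c2, c3, c4⟩ := cts C hG
  have hU := hG.opn.measurableSet
  have II0 : ∀ q, 0 ≤ G.II τ q := fun q => mul_nonneg (Real.exp_pos _).le (sq_nonneg _)
  have EE0 : ∀ q, 0 ≤ G.EE τ q := fun q =>
    mul_nonneg (Real.exp_pos _).le (mul_nonneg (a20 q) (gam0 q))
  obtain ⟨fn, pn, -⟩ := push p U τ hG _ c2 fun q _ => nu0 q
  obtain ⟨fI, pI, -⟩ := push p U τ hG _ c3 fun q _ => II0 q
  obtain ⟨fJ, pJ, zJ⟩ := push p U τ hG _ c4 fun q _ => EE0 q
  obtain ⟨c₀, hc₀⟩ := d0 _ fn fun Ψ hΨ => by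
    rw [(pn _ (tst0 (tstd hΨ)).1 (tstd hΨ).2).2]
    exact flux p U τ hG Ψ hΨ
  have hc : ∀ φ, Cs φ → ∫ q in U, φ (τ q) * G.nu τ q ∂G.μ = c₀ * ∫ t, φ t := fun φ hφ => by
    rw [← (pn φ hφ.1 hφ.2).2, hc₀, integral_smul_nnreal_measure]
    rfl
  have sg0 : ∀ q, G.sg τ q = 0 → G.II τ q = 0 ∧ G.EE τ q = 0 := fun q h => by
    have h1 : G.Gam τ τ q = 0 := by
      rw [Geo.sg] at h
      linarith [gam0 (G := G) (τ := τ) q, a20 (G := G) q]
    simp [Geo.II, Geo.EE, h1]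
  obtain ⟨B, hB⟩ := C.bd
  obtain ⟨Y, hY⟩ := hG.cy
  have D := d1 _ (fin_add fI fJ) ⟨c₀ * (Y + B), fun φ hφ => by
      have cφ : Cs φ := ⟨hφ.1, hφ.2.1⟩
      have a1 := cmp (ψ := fun t => Y * Real.exp (2 * t)) hU pI pn hc (by fun_prop)
        (fun q hq hs => by
          rw [II_eq, mul_comm Y]
          exact mul_le_mul_of_nonneg_right
            (mul_le_mul_of_nonneg_left (hY q hq hs) (Real.exp_pos _).le) (nu0 q)) hφ
      have a2 := cmp (ψ := fun t => B * Real.exp (2 * t)) hU pJ pn hc (by fun_prop)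
        (fun q _ _ => by
          rw [EE_eq, mul_comm B]
          exact mul_le_mul_of_nonneg_right
            (mul_le_mul_of_nonneg_left (hB q) (Real.exp_pos _).le) (nu0 q)) hφ
      simp only [mul_left_comm (φ _), integral_const_mul] at a1 a2
      rw [integral_add_measure (cφ.int _ fI) (cφ.int _ fJ)]
      linarith⟩ fun y hy => by
    obtain ⟨ρ, X, c, c0, K, -, hM⟩ := hC.pos y hy
    refine ⟨K / c, fun ζ hζ => ?_⟩
    have z0 := (tst0 hζ).1
    have z1 := (tst0 (tstd hζ)).1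
    have s1 : Cs fun t => ζ t ^ 2 := Cs.of hζ (by fun_prop) fun t h _ _ => by simp [h]
    have s2 : Cs fun t => (deriv ζ t + y * ζ t) ^ 2 :=
      Cs.of hζ (by fun_prop) fun t h h' _ => by simp [h, h']
    have s3 : Cs fun t => c * ζ t ^ 2 - K * (deriv ζ t + y * ζ t) ^ 2 :=
      Cs.of hζ (by fun_prop) fun t h h' _ => by simp [h, h']
    have H := intg st p U τ hG ρ X _ hM (fun q _ => by simp)
      (fun q _ h a b => by simp [sg0 q h]) ζ hζ ((s3.1.comp_continuousOn c1).mul (c3.add c4))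
    simp only [mul_add (_ - _)] at H
    rw [integral_add (pI _ s3.1 s3.2).1 (pJ _ s3.1 s3.2).1, ← (pI _ s3.1 s3.2).2,
      ← (pJ _ s3.1 s3.2).2, ← integral_add_measure (s3.int _ fI) (s3.int _ fJ),
      integral_sub ((s1.int _ (fin_add fI fJ)).const_mul c) ((s2.int _ (fin_add fI fJ)).const_mul K),
      integral_const_mul, integral_const_mul] at H
    rw [div_mul_eq_mul_div, le_div_iff₀ c0]
    linarith
  obtain ⟨ρ, X, c, c0, κ, κ0, K, K0, hM⟩ := hC.zero
  have J0 := d2 _ _ c₀ c κ K fI fJ c₀.2 c0 κ0 K0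
    (fun η hη => by
      obtain ⟨s, hs⟩ := hG.pole η hη
      refine ⟨s, fun φ hφ => ?_⟩
      have a1 := cmp (ψ := fun _ => 1 + η) hU pI pn hc continuous_const
        (fun q hq h => by
          rw [II_eq]
          exact mul_le_mul_of_nonneg_right (by linarith [(abs_le.1 (hs q hq h)).2]) (nu0 q)) hφ
      rw [integral_mul_const] at a1
      linarith)
    ⟨c₀ * B, fun φ hφ => by
      have a1 := cmp (ψ := fun _ => B) hU pJ pn hc continuous_const
        (fun q _ h => by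
          have h1 : τ q ≤ 0 := h
          rw [EE_eq]
          refine mul_le_mul_of_nonneg_right (le_trans ?_ (hB q)) (nu0 q)
          exact mul_le_of_le_one_left (a20 q) (Real.exp_le_one_iff.2 (by linarith))) hφ
      rw [integral_mul_const] at a1
      linarith⟩
    (fun w hw w0 => by
      have z1 := (tst0 (tstd hw)).1
      have z2 := (tst0 (tstd (tstd hw))).1
      have s1 : Cs fun t => |deriv w t| + |deriv (deriv w) t| :=
        Cs.of hw (by fun_prop) fun t _ h h' => by simp [h, h']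
      rw [← hc _ (tst0 hw), ← hc _ s1, (pI _ (tst0 hw).1 hw.2).2]
      exact rb p U τ hG w hw w0)
    (fun y hy => integrableOn_add_measure.1 (D y hy))
    fun ζ hζ => by
      have z0 := (tst0 hζ).1
      have z1 := (tst0 (tstd hζ)).1
      have s1 : Cs fun t => c * ζ t ^ 2 - K * deriv ζ t ^ 2 :=
        Cs.of hζ (by fun_prop) fun t h h' _ => by simp [h, h']
      have s2 : Cs fun t => 2 * ζ t * deriv ζ t + K * deriv ζ t ^ 2 :=
        Cs.of hζ (by fun_prop) fun t _ h' _ => by simp [h']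
      have H := intg st p U τ hG ρ X _ hM (fun q _ => by simp)
        (fun q _ h a b => by simp [sg0 q h]) ζ hζ (((s1.1.comp_continuousOn c1).mul c4).sub
          ((continuousOn_const.mul (s2.1.comp_continuousOn c1)).mul c3))
      simp only [mul_assoc κ] at H
      rw [integral_sub (pJ _ s1.1 s1.2).1 ((pI _ s2.1 s2.2).1.const_mul κ), integral_const_mul,
        ← (pJ _ s1.1 s1.2).2, ← (pI _ s2.1 s2.2).2] at H
      linarith
  obtain ⟨s, hs⟩ := hG.pole (1 / 2) (by norm_num)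
  have := C.nebot p
  refine tendsto_nhds_unique ((C.cont (C.smA p)).tendsto.mono_left
    (nhdsWithin_le_nhds (s := {p}ᶜ))) (tendsto_const_nhds.congr' ?_)
  filter_upwards [hG.near s] with q hq
  have h1 := (abs_le.1 (hs q hq.1 hq.2)).1
  have h2 : G.Gam τ τ q ≠ 0 := fun h => by
    rw [h] at h1
    linarith
  have h3 := zJ J0 q hq.1
  rw [Geo.EE] at h3
  exact (((mul_eq_zero.1 ((mul_eq_zero.1 h3).resolve_left (Real.exp_pos _).ne')).resolve_right
    h2)).symm

end Vale.Agent.P134L
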