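import Vale.Agent.P134L.K1
import Vale.Agent.P134L.K2
import Vale.Agent.P134L.K3
import Vale.Agent.P134L.K4
import Vale.Agent.P134L.K5
import Vale.Agent.P134L.L0
import Vale.Agent.P134L.L1
import Vale.Agent.P134L.L2
import Vale.Agent.P134L.X1
import Vale.Agent.P134L.G1
import Vale.Agent.P134L.G2
import Vale.Agent.P134L.G3
import Vale.Agent.P134L.G4
import Vale.Agent.P134L.G5
import Vale.Agent.P134L.G6
import Vale.Agent.P134L.G7
import Vale.Agent.P134L.G8
import Vale.Agent.P134L.G9
import Vale.Agent.P134L.I1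
import Vale.Agent.P134L.I2
import Vale.Agent.P134L.I3
import Vale.Agent.P134L.I4
import Vale.Agent.P134L.I5
import Vale.Agent.P134L.D0
import Vale.Agent.P134L.D1
import Vale.Agent.P134L.D2

/-!
# The analytic frame: the certificate implies the theorem of Bernstein type
-/

namespace Vale.Agent.P134L

/-- **the frame** -/
theorem bern {m : ℕ} (hm : 4 ≤ m) (hc : CERT m) : BERN m :=
  bern_of k1 k2 k3 k4 k5 k6 l0 l1 l2 x1 g1 g2 g3 g4 g5 g6 g7 g8 g9 i1 i2 i3 i4 i5 d0 d1 d2 hm hc

end Vale.Agent.P134L
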